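import Mathlib
import Vale.Agent.Lib.P302.helper8.Th863.Base

/-!
# P302: chunks of the mask search of the 863-item instance (part 0)
-/

namespace Vale.Agent.Lib.P302.helper8.Th863

open Vale.Agent.Lib.P302.helper14 Vale.Agent.Lib.P302.helper8 Vale.Agent.Lib.P302.helper9

theorem ok_p0_0 : stepOKDR rows prio cap p0_0 lay1
    [0, 1, 2, 64] = true := by
  decide +kernel

theorem ok_p1_0 : stepOKDR rows prio cap p1_0 lay2
    [0, 1, 2, 64, 65, 66, 129, 130, 193] = true := by
  decide +kernel

theorem ok_p1_1 : stepOKDR rows prio cap p1_1 lay2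
    [0, 128, 65, 192, 66] = true := by
  decide +kernel

theorem ok_p2_0 : stepOKDR rows prio cap p2_0 lay3
    [1, 0, 2, 64, 1, 2, 65, 66, 129] = true := by
  decide +kernel

theorem ok_p2_1 : stepOKDR rows prio cap p2_1 lay3
    [1, 2, 64, 66, 128, 129, 130, 194, 256, 192, 258] = true := by
  decide +kernel

theorem ok_p2_2 : stepOKDR rows prio cap p2_2 lay3
    [64, 65, 66, 256, 193, 257, 258, 194, 256, 320, 321] = true := by
  decide +kernel

theorem ok_p2_3 : stepOKDR rows prio cap p2_3 lay3
    [64, 129, 257, 258, 256, 321, 322, 258, 384] = true := by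
  decide +kernel

theorem ok_p3_0 : stepOKDR rows prio cap p3_0 lay4
    [0, 1, 64, 65, 64, 128, 129, 65, 66, 192] = true := by
  decide +kernel

theorem ok_p3_1 : stepOKDR rows prio cap p3_1 lay4
    [2, 66, 129, 130, 192, 128, 129, 128, 129, 193, 194] = true := by
  decide +kernel

theorem ok_p3_2 : stepOKDR rows prio cap p3_2 lay4
    [64, 130, 192, 130, 192, 193, 194, 256, 322, 384] = true := by
  decide +kernel

theorem ok_p3_3 : stepOKDR rows prio cap p3_3 lay4
    [128, 65, 66, 257, 322, 322, 384, 449, 385, 386, 386] = true := by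
  decide +kernel

theorem ok_p3_4 : stepOKDR rows prio cap p3_4 lay4
    [129, 66, 192, 258, 320, 321, 384, 385, 386, 448, 384, 449, 450, 386, 512] = true := by
  decide +kernel

theorem ok_p3_5 : stepOKDR rows prio cap p3_5 lay4
    [193, 194, 256, 448, 449, 450, 448, 449, 450, 513] = true := by
  decide +kernel

theorem ok_p3_6 : stepOKDR rows prio cap p3_6 lay4
    [130, 512, 512, 448, 450] = true := by
  decide +kernel

theorem ok_p4_0 : stepOKDR rows prio cap p4_0 lay5
    [64, 66, 0, 1, 66, 129, 2, 64, 129] = true := by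
  decide +kernel

theorem ok_p4_1 : stepOKDR rows prio cap p4_1 lay5
    [129, 66, 65, 66, 66, 129, 128, 129, 129] = true := by
  decide +kernel

theorem ok_p4_2 : stepOKDR rows prio cap p4_2 lay5
    [192, 192, 66, 130, 192, 192, 193, 194] = true := by
  decide +kernel

theorem ok_p4_3 : stepOKDR rows prio cap p4_3 lay5
    [193, 192, 129, 256, 192, 256, 130] = true := by
  decide +kernel

theorem ok_p4_4 : stepOKDR rows prio cap p4_4 lay5
    [0, 1, 193, 256, 193, 321, 448, 320, 321, 448] = true := by
  decide +kernel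

theorem ok_p4_5 : stepOKDR rows prio cap p4_5 lay5
    [2, 64, 65, 258, 320, 321, 322, 322, 384, 448, 448, 448] = true := by
  decide +kernel

theorem ok_p4_6 : stepOKDR rows prio cap p4_6 lay5
    [66, 128, 129, 385, 386, 386, 448, 449, 449, 450] = true := by
  decide +kernel

theorem ok_p4_7 : stepOKDR rows prio cap p4_7 lay5
    [130, 192, 193, 385, 512, 448, 512, 513, 514] = true := by
  decide +kernel

end Vale.Agent.Lib.P302.helper8.Th863
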