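import Mathlib
import Vale.Agent.Lib.P302.helper8.Th863.Base

/-!
# P302: chunks of the mask search of the 863-item instance (part 1)
-/

namespace Vale.Agent.Lib.P302.helper8.Th863

open Vale.Agent.Lib.P302.helper14 Vale.Agent.Lib.P302.helper8 Vale.Agent.Lib.P302.helper9

theorem ok_p4_8 : stepOKDR rows prio cap p4_8 lay5
    [194, 256, 513, 514, 257, 512, 512] = true := by
  decide +kernel

theorem ok_p5_0 : stepOKDR rows prio cap p5_0 lay6
    [66, 65, 65, 66, 193, 193, 65, 128, 129, 0] = true := by
  decide +kernel

theorem ok_p5_1 : stepOKDR rows prio cap p5_1 lay6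
    [64, 66, 128, 128, 193, 192, 193, 193, 193, 192] = true := by
  decide +kernel

theorem ok_p5_2 : stepOKDR rows prio cap p5_2 lay6
    [130, 192, 193, 194, 194, 256, 1, 194, 257, 258, 258] = true := by
  decide +kernel

theorem ok_p5_3 : stepOKDR rows prio cap p5_3 lay6
    [130, 257, 257, 193, 258, 193, 320, 320, 320, 2] = true := by
  decide +kernel

theorem ok_p5_4 : stepOKDR rows prio cap p5_4 lay6
    [64, 2, 257, 257, 257, 513, 514, 576, 576, 449, 450, 512] = true := by
  decide +kernel

theorem ok_p5_5 : stepOKDR rows prio cap p5_5 lay6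
    [65, 66, 128, 514, 576, 577, 577, 578, 321, 577, 640, 322] = true := by
  decide +kernel

theorem ok_p5_6 : stepOKDR rows prio cap p5_6 lay6
    [129, 130, 192, 578, 640, 384, 513, 641, 642, 642, 704, 705, 385] = true := by
  decide +kernel

theorem ok_p5_7 : stepOKDR rows prio cap p5_7 lay6
    [193, 194, 256, 641, 642, 704, 704, 705, 704, 706, 386, 448] = true := by
  decide +kernel

theorem ok_p5_8 : stepOKDR rows prio cap p5_8 lay6
    [257, 258, 320, 641, 642, 768, 768, 768, 449, 450] = true := by
  decide +kernel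

theorem ok_p6_0 : stepOKDR rows prio cap p6_0 lay7
    [257, 258, 2, 384, 385, 66, 128, 129, 130] = true := by
  decide +kernel

theorem ok_p6_1 : stepOKDR rows prio cap p6_1 lay7
    [192, 193, 194, 194, 256, 256, 0, 257, 256] = true := by
  decide +kernel

theorem ok_p6_2 : stepOKDR rows prio cap p6_2 lay7
    [194, 256, 257, 1, 258, 258, 2, 192, 320, 321, 321] = true := by
  decide +kernel

theorem ok_p6_3 : stepOKDR rows prio cap p6_3 lay7
    [320, 321, 322, 322, 64, 384, 322, 65, 385] = true := by
  decide +kernel

theorem ok_p6_4 : stepOKDR rows prio cap p6_4 lay7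
    [320, 384, 385, 66, 386, 386, 386, 128] = true := by
  decide +kernel

theorem ok_p6_5 : stepOKDR rows prio cap p6_5 lay7
    [257, 258, 321, 386, 129, 768, 769, 450, 512] = true := by
  decide +kernel

theorem ok_p6_6 : stepOKDR rows prio cap p6_6 lay7
    [2, 384, 385, 450, 512, 832, 833, 576, 577] = true := by
  decide +kernel

theorem ok_p6_7 : stepOKDR rows prio cap p6_7 lay7
    [66, 128, 129, 832, 576, 577, 578, 640, 641] = true := by
  decide +kernel

theorem ok_p6_8 : stepOKDR rows prio cap p6_8 lay7
    [192, 193, 130, 704, 642, 705, 705, 706, 706, 640, 641] = true := by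
  decide +kernel

theorem ok_p6_9 : stepOKDR rows prio cap p6_9 lay7
    [194, 256, 257, 705, 706, 448, 768, 449, 769, 769, 450] = true := by
  decide +kernel

end Vale.Agent.Lib.P302.helper8.Th863
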