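import Mathlib
import Vale.Agent.Lib.P302.helper8.Th863.Base
import Vale.Agent.Lib.P302.helper8.Th863.K1

/-!
# P302: chunks of the mask search of the 863-item instance (part 4)
-/

namespace Vale.Agent.Lib.P302.helper8.Th863

open Vale.Agent.Lib.P302.helper14 Vale.Agent.Lib.P302.helper8 Vale.Agent.Lib.P302.helper9

theorem ok_p9_10 : stepOKDR rows prio cap p9_10 lay10
    [321, 322, 704, 705, 705, 706, 705] = true := by
  decide +kernel

theorem ok_p10_0 : stepOKDR rows prio cap p10_0 lay11
    [0, 0, 0, 1, 2, 2, 129, 64, 130, 65, 129, 64] = true := by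
  decide +kernel

theorem ok_p10_1 : stepOKDR rows prio cap p10_1 lay11
    [1, 2, 64, 192, 192, 193, 192, 66, 194, 194] = true := by
  decide +kernel

theorem ok_p10_2 : stepOKDR rows prio cap p10_2 lay11
    [129, 130, 65, 193, 193, 257, 257, 258, 258, 257] = true := by
  decide +kernel

theorem ok_p10_3 : stepOKDR rows prio cap p10_3 lay11
    [0, 386, 448, 386, 129, 130, 321, 321, 322, 322, 321] = true := by
  decide +kernel

theorem ok_p10_4 : stepOKDR rows prio cap p10_4 lay11
    [385, 448, 448, 386, 449, 450, 449, 450] = true := by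
  decide +kernel

theorem ok_p10_5 : stepOKDR rows prio cap p10_5 lay11
    [386, 386, 448, 450, 513, 513, 384, 514, 514, 513] = true := by
  decide +kernel

theorem ok_p10_6 : stepOKDR rows prio cap p10_6 lay11
    [66, 128, 192, 576, 577, 578, 640, 576] = true := by
  decide +kernel

theorem ok_p10_7 : stepOKDR rows prio cap p10_7 lay11
    [193, 194, 256, 641, 641, 641, 578, 642, 704] = true := by
  decide +kernel

theorem ok_p10_8 : stepOKDR rows prio cap p10_8 lay11
    [257, 258, 320, 705, 705, 705, 704, 706, 768] = true := by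
  decide +kernel

theorem ok_p10_9 : stepOKDR rows prio cap p10_9 lay11
    [384, 321, 322, 770, 833, 769, 769, 769, 768] = true := by
  decide +kernel

theorem ok_p10_10 : stepOKDR rows prio cap p10_10 lay11
    [385, 449, 450, 832, 834, 770] = true := by
  decide +kernel

theorem ok_p10_11 : stepOKDR rows prio cap p10_11 lay11
    [512, 513, 514, 896, 897, 898, 898, 898, 897] = true := by
  decide +kernel

theorem ok_p11_0 : stepOKDR rows prio cap p11_0 lay12
    [0, 65, 64, 64, 65, 64, 64, 66, 66, 66, 66, 1, 1, 1] = true := by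
  decide +kernel

theorem ok_p11_1 : stepOKDR rows prio cap p11_1 lay12
    [1, 192, 256, 256, 256, 64, 65, 128, 128, 129, 129, 129, 128, 128] = true := by
  decide +kernel

theorem ok_p11_2 : stepOKDR rows prio cap p11_2 lay12
    [2, 193, 194, 194, 194, 64, 65, 257, 257, 258, 258, 258, 257, 257] = true := by
  decide +kernel

theorem ok_p11_3 : stepOKDR rows prio cap p11_3 lay12
    [66, 128, 129, 192, 320, 192, 320, 320, 192, 320, 194, 194, 194] = true := by
  decide +kernel

theorem ok_p11_4 : stepOKDR rows prio cap p11_4 lay12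
    [130, 257, 258, 321, 322, 322, 322, 384, 384, 384, 384, 322, 322, 322] = true := by
  decide +kernel

theorem ok_p11_5 : stepOKDR rows prio cap p11_5 lay12
    [130, 385, 386, 386, 386, 257, 258, 448, 448, 448, 448, 386, 386, 386] = true := by
  decide +kernel

theorem ok_p11_6 : stepOKDR rows prio cap p11_6 lay12
    [577, 449, 450, 512, 513, 514, 513, 513, 514, 64, 576, 577, 577, 577] = true := by
  decide +kernel

end Vale.Agent.Lib.P302.helper8.Th863
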