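import Mathlib
import Vale.Agent.Lib.P302.helper8.Th863.Base
import Vale.Agent.Lib.P302.helper8.Th863.K4

/-!
# P302: chunks of the mask search of the 863-item instance (part 7)
-/

namespace Vale.Agent.Lib.P302.helper8.Th863

open Vale.Agent.Lib.P302.helper14 Vale.Agent.Lib.P302.helper8 Vale.Agent.Lib.P302.helper9

theorem ok_p13_14 : stepOKDR rows prio cap p13_14 lay14
    [706, 768, 576, 1025, 1026, 1217, 1088, 961, 1089] = true := by
  decide +kernel

theorem ok_p13_15 : stepOKDR rows prio cap p13_15 lay14
    [577, 706, 768, 1088, 1088, 1089, 1024, 1217] = true := by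
  decide +kernel

theorem ok_p13_16 : stepOKDR rows prio cap p13_16 lay14
    [641, 642, 578, 1090, 1152, 1153, 1154, 1090, 1217, 1216, 1216] = true := by
  decide +kernel

theorem ok_p13_17 : stepOKDR rows prio cap p13_17 lay14
    [769, 770, 640, 1218, 1218, 1154, 1280, 1216, 1217, 1217] = true := by
  decide +kernel

theorem ok_p13_18 : stepOKDR rows prio cap p13_18 lay14
    [706, 768, 1218, 1280, 1217] = true := by
  decide +kernel

theorem ok_p14_0 : stepOKDR rows prio cap p14_0 lay15
    [193, 384, 1, 384, 384, 193, 193, 192, 2, 65] = true := by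
  decide +kernel

theorem ok_p14_1 : stepOKDR rows prio cap p14_1 lay15
    [193, 0, 129, 129, 130, 192, 193, 192, 193, 256, 256] = true := by
  decide +kernel

theorem ok_p14_2 : stepOKDR rows prio cap p14_2 lay15
    [64, 130, 192, 193, 194, 256, 194, 194, 257, 64, 257] = true := by
  decide +kernel

theorem ok_p14_3 : stepOKDR rows prio cap p14_3 lay15
    [66, 194, 194, 257, 258, 320, 258, 258, 320, 321] = true := by
  decide +kernel

theorem ok_p14_4 : stepOKDR rows prio cap p14_4 lay15
    [1, 384, 128, 194, 257, 320, 322, 194, 384, 194, 384] = true := by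
  decide +kernel

theorem ok_p14_5 : stepOKDR rows prio cap p14_5 lay15
    [193, 2, 449, 384, 193, 193, 194, 194] = true := by
  decide +kernel

theorem ok_p14_6 : stepOKDR rows prio cap p14_6 lay15
    [385, 64, 65, 448, 449, 512, 129, 513, 513] = true := by
  decide +kernel

theorem ok_p14_7 : stepOKDR rows prio cap p14_7 lay15
    [386, 448, 192, 513, 256, 194, 386, 514, 448, 514] = true := by
  decide +kernel

theorem ok_p14_8 : stepOKDR rows prio cap p14_8 lay15
    [386, 450, 513, 257, 514, 576, 577, 577, 578, 577] = true := by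
  decide +kernel

theorem ok_p14_9 : stepOKDR rows prio cap p14_9 lay15
    [706, 642, 704, 386, 640, 640, 641, 513, 640] = true := by
  decide +kernel

theorem ok_p14_10 : stepOKDR rows prio cap p14_10 lay15
    [705, 770, 770, 706, 768, 768, 642] = true := by
  decide +kernel

theorem ok_p14_11 : stepOKDR rows prio cap p14_11 lay15
    [706, 129, 192, 770, 770, 770, 194, 706, 832, 832] = true := by
  decide +kernel

theorem ok_p14_12 : stepOKDR rows prio cap p14_12 lay15
    [706, 834, 834, 769, 896, 770, 257, 832, 834, 833] = true := by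
  decide +kernel

theorem ok_p14_13 : stepOKDR rows prio cap p14_13 lay15
    [66, 128, 258, 897, 898, 960, 961, 962] = true := by
  decide +kernel

theorem ok_p14_14 : stepOKDR rows prio cap p14_14 lay15
    [385, 448, 320, 1025, 1282, 898, 1089, 1024] = true := by
  decide +kernel

end Vale.Agent.Lib.P302.helper8.Th863
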