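import Mathlib
import Vale.Agent.Lib.P302.helper8.Th863.Base
import Vale.Agent.Lib.P302.helper8.Th863.K7

/-!
# P302: chunks of the mask search of the 863-item instance (part 10)
-/

namespace Vale.Agent.Lib.P302.helper8.Th863

open Vale.Agent.Lib.P302.helper14 Vale.Agent.Lib.P302.helper8 Vale.Agent.Lib.P302.helper9

theorem ok_p16_14 : stepOKDR rows prio cap p16_14 lay17
    [450, 448, 513] = true := by
  decide +kernel

theorem ok_p16_15 : stepOKDR rows prio cap p16_15 lay17
    [640, 642, 514] = true := by
  decide +kernel

theorem ok_p17_0 : stepOKDR rows prio cap p17_0 lay18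
    [0, 65, 128, 128, 256, 128, 194, 256] = true := by
  decide +kernel

theorem ok_p17_1 : stepOKDR rows prio cap p17_1 lay18
    [128, 1, 2, 257, 194, 258, 320, 321] = true := by
  decide +kernel

theorem ok_p17_2 : stepOKDR rows prio cap p17_2 lay18
    [64, 385, 385, 258, 258, 322, 384] = true := by
  decide +kernel

theorem ok_p17_3 : stepOKDR rows prio cap p17_3 lay18
    [128, 128, 385, 322, 128, 128] = true := by
  decide +kernel

theorem ok_p17_4 : stepOKDR rows prio cap p17_4 lay18
    [66, 128, 129, 385, 256, 386, 385, 448] = true := by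
  decide +kernel

theorem ok_p17_5 : stepOKDR rows prio cap p17_5 lay18
    [128, 130, 385, 256, 386, 449, 128] = true := by
  decide +kernel

theorem ok_p17_6 : stepOKDR rows prio cap p17_6 lay18
    [128, 192, 128, 450, 194, 320, 449] = true := by
  decide +kernel

theorem ok_p17_7 : stepOKDR rows prio cap p17_7 lay18
    [194, 385, 257, 258, 385, 322] = true := by
  decide +kernel

theorem ok_p17_8 : stepOKDR rows prio cap p17_8 lay18
    [450, 385, 386, 194, 194, 450] = true := by
  decide +kernel

theorem ok_p17_9 : stepOKDR rows prio cap p17_9 lay18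
    [128, 193, 385, 512, 194, 320, 258] = true := by
  decide +kernel

theorem ok_p17_10 : stepOKDR rows prio cap p17_10 lay18
    [194, 512, 385, 322, 385, 386] = true := by
  decide +kernel

theorem ok_p18_0 : stepOKDR rows prio cap p18_0 lay19
    [1, 2, 64, 65, 66, 128] = true := by
  decide +kernel

theorem ok_p18_1 : stepOKDR rows prio cap p18_1 lay19
    [0, 193, 194, 257, 258, 321] = true := by
  decide +kernel

theorem ok_p18_2 : stepOKDR rows prio cap p18_2 lay19
    [257, 320, 578, 322, 385, 386] = true := by
  decide +kernel

theorem ok_p18_3 : stepOKDR rows prio cap p18_3 lay19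
    [448, 450, 449, 512, 1, 578] = true := by
  decide +kernel

theorem ok_p18_4 : stepOKDR rows prio cap p18_4 lay19
    [129, 66, 128, 66, 128, 640, 641, 578] = true := by
  decide +kernel

theorem ok_p18_5 : stepOKDR rows prio cap p18_5 lay19
    [130, 192, 194, 513, 514, 194, 640, 641, 642] = true := by
  decide +kernel

theorem ok_p18_6 : stepOKDR rows prio cap p18_6 lay19
    [256, 258, 322, 576, 322, 642, 578, 704] = true := by
  decide +kernel

theorem ok_p18_7 : stepOKDR rows prio cap p18_7 lay19
    [449, 384, 385, 449, 577, 640, 578, 704] = true := by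
  decide +kernel

end Vale.Agent.Lib.P302.helper8.Th863
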