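import Mathlib
import Vale.Agent.Lib.P302.helper8.Th863.Base

/-!
# P302: chunks of the mask search of the 863-item instance (part 2)
-/

namespace Vale.Agent.Lib.P302.helper8.Th863

open Vale.Agent.Lib.P302.helper14 Vale.Agent.Lib.P302.helper8 Vale.Agent.Lib.P302.helper9

theorem ok_p6_10 : stepOKDR rows prio cap p6_10 lay7
    [258, 320, 321, 768, 769, 512, 704, 705, 770, 770, 770, 513, 832] = true := by
  decide +kernel

theorem ok_p6_11 : stepOKDR rows prio cap p6_11 lay7
    [322, 384, 385, 770, 832, 514, 833, 833, 576, 577] = true := by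
  decide +kernel

theorem ok_p6_12 : stepOKDR rows prio cap p6_12 lay7
    [386, 770, 578] = true := by
  decide +kernel

theorem ok_p7_0 : stepOKDR rows prio cap p7_0 lay8
    [1, 64, 0, 257, 322, 257, 384, 1, 322, 2, 384] = true := by
  decide +kernel

theorem ok_p7_1 : stepOKDR rows prio cap p7_1 lay8
    [66, 129, 65, 257, 322, 257, 384, 66, 322, 128, 384] = true := by
  decide +kernel

theorem ok_p7_2 : stepOKDR rows prio cap p7_2 lay8
    [65, 130, 193, 257, 322, 257, 384, 130, 322, 192, 384] = true := by
  decide +kernel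

theorem ok_p7_3 : stepOKDR rows prio cap p7_3 lay8
    [194, 256, 257, 256, 257, 258, 257, 258] = true := by
  decide +kernel

theorem ok_p7_4 : stepOKDR rows prio cap p7_4 lay8
    [321, 258, 320, 322, 257, 322, 322, 257, 321, 322] = true := by
  decide +kernel

theorem ok_p7_5 : stepOKDR rows prio cap p7_5 lay8
    [256, 257, 322, 322, 257, 322, 322, 322] = true := by
  decide +kernel

theorem ok_p7_6 : stepOKDR rows prio cap p7_6 lay8
    [322, 385, 384, 257, 322, 257, 385, 322, 322, 322] = true := by
  decide +kernel

theorem ok_p7_7 : stepOKDR rows prio cap p7_7 lay8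
    [0, 1, 2, 386, 706, 448, 706, 833, 833] = true := by
  decide +kernel

theorem ok_p7_8 : stepOKDR rows prio cap p7_8 lay8
    [64, 65, 66, 449, 450, 512, 513, 706, 514, 706] = true := by
  decide +kernel

theorem ok_p7_9 : stepOKDR rows prio cap p7_9 lay8
    [128, 129, 130, 576, 833, 577, 578, 833, 706, 706] = true := by
  decide +kernel

theorem ok_p7_10 : stepOKDR rows prio cap p7_10 lay8
    [194, 192, 193, 704, 705, 640, 833, 641, 642, 833] = true := by
  decide +kernel

theorem ok_p7_11 : stepOKDR rows prio cap p7_11 lay8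
    [256, 257, 258, 706, 706, 768, 706] = true := by
  decide +kernel

theorem ok_p7_12 : stepOKDR rows prio cap p7_12 lay8
    [320, 321, 322, 769, 706, 770, 706, 706] = true := by
  decide +kernel

theorem ok_p7_13 : stepOKDR rows prio cap p7_13 lay8
    [384, 385, 832, 706, 833, 706] = true := by
  decide +kernel

theorem ok_p8_0 : stepOKDR rows prio cap p8_0 lay9
    [1, 2, 64, 66, 130, 65] = true := by
  decide +kernel

theorem ok_p8_1 : stepOKDR rows prio cap p8_1 lay9
    [1, 130, 128, 1, 129, 192, 130] = true := by
  decide +kernel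

theorem ok_p8_2 : stepOKDR rows prio cap p8_2 lay9
    [1, 130, 130] = true := by
  decide +kernel

theorem ok_p8_3 : stepOKDR rows prio cap p8_3 lay9
    [193, 194, 320, 322] = true := by
  decide +kernel

end Vale.Agent.Lib.P302.helper8.Th863
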