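import Mathlib
import Vale.Agent.Lib.P302.helper8.Th863.Base
import Vale.Agent.Lib.P302.helper8.Th863.K2

/-!
# P302: chunks of the mask search of the 863-item instance (part 5)
-/

namespace Vale.Agent.Lib.P302.helper8.Th863

open Vale.Agent.Lib.P302.helper14 Vale.Agent.Lib.P302.helper8 Vale.Agent.Lib.P302.helper9

theorem ok_p11_7 : stepOKDR rows prio cap p11_7 lay12
    [512, 65, 576, 576, 576, 576, 576, 512, 450, 450, 512, 450] = true := by
  decide +kernel

theorem ok_p11_8 : stepOKDR rows prio cap p11_8 lay12
    [449, 578, 640, 640, 640, 576, 577, 641, 641, 641, 641, 640, 640, 640] = true := by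
  decide +kernel

theorem ok_p11_9 : stepOKDR rows prio cap p11_9 lay12
    [192, 193, 194, 704, 642, 642, 642, 704, 704, 642, 705, 706] = true := by
  decide +kernel

theorem ok_p11_10 : stepOKDR rows prio cap p11_10 lay12
    [256, 320, 321, 704, 768, 642, 642, 642, 769, 769, 769] = true := by
  decide +kernel

theorem ok_p11_11 : stepOKDR rows prio cap p11_11 lay12
    [322, 384, 385, 769, 770, 832, 769, 769, 769, 833, 833, 833] = true := by
  decide +kernel

theorem ok_p11_12 : stepOKDR rows prio cap p11_12 lay12
    [450, 386, 448, 898, 898, 898, 833, 834, 896, 833, 833, 833] = true := by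
  decide +kernel

theorem ok_p11_13 : stepOKDR rows prio cap p11_13 lay12
    [512, 513, 514, 897, 960, 898, 960, 960, 961] = true := by
  decide +kernel

theorem ok_p11_14 : stepOKDR rows prio cap p11_14 lay12
    [578, 640, 641, 962, 962, 962, 962, 1024, 1025, 962, 962, 962] = true := by
  decide +kernel

theorem ok_p12_0 : stepOKDR rows prio cap p12_0 lay13
    [0, 1, 0, 2, 2, 64, 65, 128, 66, 66, 128] = true := by
  decide +kernel

theorem ok_p12_1 : stepOKDR rows prio cap p12_1 lay13
    [0, 1, 129, 129, 129, 130, 130, 129, 64, 64] = true := by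
  decide +kernel

theorem ok_p12_2 : stepOKDR rows prio cap p12_2 lay13
    [2, 193, 194, 194, 129, 130, 192, 192, 192, 66, 66] = true := by
  decide +kernel

theorem ok_p12_3 : stepOKDR rows prio cap p12_3 lay13
    [64, 65, 66, 257, 256, 256, 256, 257, 258, 320] = true := by
  decide +kernel

theorem ok_p12_4 : stepOKDR rows prio cap p12_4 lay13
    [128, 257, 321, 129, 130, 322, 322, 322, 194, 194] = true := by
  decide +kernel

theorem ok_p12_5 : stepOKDR rows prio cap p12_5 lay13
    [193, 194, 192, 256, 256, 384, 384, 384, 385, 386] = true := by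
  decide +kernel

theorem ok_p12_6 : stepOKDR rows prio cap p12_6 lay13
    [322, 384, 384, 193, 194, 448, 448, 448, 449, 450] = true := by
  decide +kernel

theorem ok_p12_7 : stepOKDR rows prio cap p12_7 lay13
    [2, 513, 513, 514, 514, 576, 576, 322, 448, 448] = true := by
  decide +kernel

theorem ok_p12_8 : stepOKDR rows prio cap p12_8 lay13
    [512, 640, 514, 514, 577, 576, 577, 578] = true := by
  decide +kernel

theorem ok_p12_9 : stepOKDR rows prio cap p12_9 lay13
    [513, 641, 641, 129, 130, 640, 640, 640, 514, 514] = true := by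
  decide +kernel

theorem ok_p12_10 : stepOKDR rows prio cap p12_10 lay13
    [514, 256, 641, 642, 704, 640, 641, 641, 768, 769] = true := by
  decide +kernel

end Vale.Agent.Lib.P302.helper8.Th863
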