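import Mathlib
import Vale.Agent.Lib.P302.helper8.Th863.Base
import Vale.Agent.Lib.P302.helper8.Th863.K5

/-!
# P302: chunks of the mask search of the 863-item instance (part 8)
-/

namespace Vale.Agent.Lib.P302.helper8.Th863

open Vale.Agent.Lib.P302.helper14 Vale.Agent.Lib.P302.helper8 Vale.Agent.Lib.P302.helper9

theorem ok_p14_15 : stepOKDR rows prio cap p14_15 lay15
    [449, 450, 512, 1025, 1026, 1088, 1089, 1090] = true := by
  decide +kernel

theorem ok_p14_16 : stepOKDR rows prio cap p14_16 lay15
    [514, 577, 578, 1088, 1152, 1153, 1154, 1154] = true := by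
  decide +kernel

theorem ok_p14_17 : stepOKDR rows prio cap p14_17 lay15
    [642, 640, 641, 1218, 1216, 1217, 1217] = true := by
  decide +kernel

theorem ok_p14_18 : stepOKDR rows prio cap p14_18 lay15
    [705, 704, 768, 1280, 1218, 1280, 1282] = true := by
  decide +kernel

theorem ok_p14_19 : stepOKDR rows prio cap p14_19 lay15
    [834, 769, 832, 1281, 1346, 1282, 1344] = true := by
  decide +kernel

theorem ok_p14_20 : stepOKDR rows prio cap p14_20 lay15
    [896, 1345, 1346] = true := by
  decide +kernel

theorem ok_p15_0 : stepOKDR rows prio cap p15_0 lay16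
    [321, 0, 1, 1, 1, 321, 321, 321, 320, 194] = true := by
  decide +kernel

theorem ok_p15_1 : stepOKDR rows prio cap p15_1 lay16
    [2, 64, 65, 192, 192, 193, 194, 256, 257] = true := by
  decide +kernel

theorem ok_p15_2 : stepOKDR rows prio cap p15_2 lay16
    [321, 0, 66, 256, 258, 320, 321, 320, 320, 321, 321] = true := by
  decide +kernel

theorem ok_p15_3 : stepOKDR rows prio cap p15_3 lay16
    [1, 1, 192, 320, 321, 192, 322, 322, 384, 384] = true := by
  decide +kernel

theorem ok_p15_4 : stepOKDR rows prio cap p15_4 lay16
    [128, 129, 193, 256, 257, 320, 322, 384, 384, 193] = true := by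
  decide +kernel

theorem ok_p15_5 : stepOKDR rows prio cap p15_5 lay16
    [130, 258, 65, 66, 384, 256, 256, 257, 258] = true := by
  decide +kernel

theorem ok_p15_6 : stepOKDR rows prio cap p15_6 lay16
    [321, 385, 64, 448, 705, 192, 513, 321, 321, 321] = true := by
  decide +kernel

theorem ok_p15_7 : stepOKDR rows prio cap p15_7 lay16
    [386, 448, 449, 193, 194, 256, 514] = true := by
  decide +kernel

theorem ok_p15_8 : stepOKDR rows prio cap p15_8 lay16
    [450, 512, 513, 2, 514, 386, 320, 513, 384] = true := by
  decide +kernel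

theorem ok_p15_9 : stepOKDR rows prio cap p15_9 lay16
    [513, 385, 449, 256, 514, 576, 577, 576] = true := by
  decide +kernel

theorem ok_p15_10 : stepOKDR rows prio cap p15_10 lay16
    [768, 642, 578, 640, 513, 385, 578] = true := by
  decide +kernel

theorem ok_p15_11 : stepOKDR rows prio cap p15_11 lay16
    [641, 641, 641, 642, 704, 705, 192, 768] = true := by
  decide +kernel

theorem ok_p15_12 : stepOKDR rows prio cap p15_12 lay16
    [704, 705, 768, 768, 256, 769, 320, 768] = true := by
  decide +kernel

theorem ok_p15_13 : stepOKDR rows prio cap p15_13 lay16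
    [770, 706, 768, 769, 705, 384, 256, 769] = true := by
  decide +kernel

theorem ok_p15_14 : stepOKDR rows prio cap p15_14 lay16
    [832, 641, 257, 258, 770, 833, 834] = true := by
  decide +kernel

end Vale.Agent.Lib.P302.helper8.Th863
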