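import Mathlib
import Vale.Agent.Lib.P302.helper8.Th863.Base
import Vale.Agent.Lib.P302.helper8.Th863.K8

/-!
# P302: chunks of the mask search of the 863-item instance (part 11)
-/

namespace Vale.Agent.Lib.P302.helper8.Th863

open Vale.Agent.Lib.P302.helper14 Vale.Agent.Lib.P302.helper8 Vale.Agent.Lib.P302.helper9

theorem ok_p18_8 : stepOKDR rows prio cap p18_8 lay19
    [512, 512, 640] = true := by
  decide +kernel

theorem ok_p19_0 : stepOKDR rows prio cap p19_0 lay20
    [0, 129, 193, 194, 256, 258] = true := by
  decide +kernel

theorem ok_p19_1 : stepOKDR rows prio cap p19_1 lay20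
    [194, 128, 256, 257, 320, 321, 194] = true := by
  decide +kernel

theorem ok_p19_2 : stepOKDR rows prio cap p19_2 lay20
    [257, 1, 2, 322, 257, 384, 385, 386, 449] = true := by
  decide +kernel

theorem ok_p19_3 : stepOKDR rows prio cap p19_3 lay20
    [64, 512, 448, 450, 512, 513, 514, 512] = true := by
  decide +kernel

theorem ok_p19_4 : stepOKDR rows prio cap p19_4 lay20
    [65, 576, 577, 384, 193, 129, 640] = true := by
  decide +kernel

theorem ok_p19_5 : stepOKDR rows prio cap p19_5 lay20
    [578, 130, 578, 640, 641, 642, 578] = true := by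
  decide +kernel

theorem ok_p19_6 : stepOKDR rows prio cap p19_6 lay20
    [66, 192, 642, 704, 705, 706, 706] = true := by
  decide +kernel

theorem ok_p19_7 : stepOKDR rows prio cap p19_7 lay20
    [768, 768, 770, 769, 832, 321, 768] = true := by
  decide +kernel

theorem ok_p19_8 : stepOKDR rows prio cap p19_8 lay20
    [770, 2, 64, 321, 770, 833, 834, 2, 64] = true := by
  decide +kernel

theorem ok_p19_9 : stepOKDR rows prio cap p19_9 lay20
    [384, 65, 66, 896, 65, 897, 66, 898, 384] = true := by
  decide +kernel

theorem ok_p19_10 : stepOKDR rows prio cap p19_10 lay20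
    [833, 834, 896, 898, 898, 898, 386, 448, 576] = true := by
  decide +kernel

theorem ok_p19_11 : stepOKDR rows prio cap p19_11 lay20
    [897, 898, 704] = true := by
  decide +kernel

theorem ok_p20_0 : stepOKDR rows prio cap p20_0 lay21
    [64, 65, 130, 192, 832, 258, 321] = true := by
  decide +kernel

theorem ok_p20_1 : stepOKDR rows prio cap p20_1 lay21
    [66, 129, 256, 320, 322, 384, 385, 386, 448] = true := by
  decide +kernel

theorem ok_p20_2 : stepOKDR rows prio cap p20_2 lay21
    [1, 192, 194, 513, 769, 704] = true := by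
  decide +kernel

theorem ok_p20_3 : stepOKDR rows prio cap p20_3 lay21
    [257, 512, 706, 896, 768, 769] = true := by
  decide +kernel

theorem ok_p20_4 : stepOKDR rows prio cap p20_4 lay21
    [0, 513, 514, 769, 770, 512] = true := by
  decide +kernel

theorem ok_p20_5 : stepOKDR rows prio cap p20_5 lay21
    [2, 768, 770, 514, 896, 896, 768, 770] = true := by
  decide +kernel

theorem ok_p20_6 : stepOKDR rows prio cap p20_6 lay21
    [64, 321, 576, 577, 832, 833, 897, 897, 832] = true := by
  decide +kernel

theorem ok_p20_7 : stepOKDR rows prio cap p20_7 lay21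
    [322, 258, 320, 578, 834, 897, 833, 834] = true := by
  decide +kernel

theorem ok_p20_8 : stepOKDR rows prio cap p20_8 lay21
    [128, 640, 896, 898, 898, 640, 898] = true := by
  decide +kernel

end Vale.Agent.Lib.P302.helper8.Th863
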