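import Mathlib
import Vale.Agent.Lib.P302.helper8.Th863.Base
import Vale.Agent.Lib.P302.helper8.Th863.K0

/-!
# P302: chunks of the mask search of the 863-item instance (part 3)
-/

namespace Vale.Agent.Lib.P302.helper8.Th863

open Vale.Agent.Lib.P302.helper14 Vale.Agent.Lib.P302.helper8 Vale.Agent.Lib.P302.helper9

theorem ok_p8_4 : stepOKDR rows prio cap p8_4 lay9
    [258, 257, 193, 0, 256, 258, 2] = true := by
  decide +kernel

theorem ok_p8_5 : stepOKDR rows prio cap p8_5 lay9
    [320, 2, 64, 66, 321, 258, 128] = true := by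
  decide +kernel

theorem ok_p8_6 : stepOKDR rows prio cap p8_6 lay9
    [320, 128, 320, 129, 192, 322, 386, 641, 449] = true := by
  decide +kernel

theorem ok_p8_7 : stepOKDR rows prio cap p8_7 lay9
    [2, 320, 320, 448, 386, 386, 641, 450, 641] = true := by
  decide +kernel

theorem ok_p8_8 : stepOKDR rows prio cap p8_8 lay9
    [130, 320, 128, 448, 641, 386, 512, 448, 513] = true := by
  decide +kernel

theorem ok_p8_9 : stepOKDR rows prio cap p8_9 lay9
    [320, 320, 130, 386, 386, 641, 448, 641] = true := by
  decide +kernel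

theorem ok_p8_10 : stepOKDR rows prio cap p8_10 lay9
    [320, 320, 322, 640, 640, 641, 641, 641] = true := by
  decide +kernel

theorem ok_p8_11 : stepOKDR rows prio cap p8_11 lay9
    [193, 258, 256, 514, 576, 384, 576, 577] = true := by
  decide +kernel

theorem ok_p8_12 : stepOKDR rows prio cap p8_12 lay9
    [320, 320, 2, 641, 385, 578, 640, 641, 641, 449, 450] = true := by
  decide +kernel

theorem ok_p8_13 : stepOKDR rows prio cap p8_13 lay9
    [320, 128, 641, 640, 512, 641, 513] = true := by
  decide +kernel

theorem ok_p9_0 : stepOKDR rows prio cap p9_0 lay10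
    [0, 64, 1, 64, 65, 65, 66, 128, 66, 322, 322] = true := by
  decide +kernel

theorem ok_p9_1 : stepOKDR rows prio cap p9_1 lay10
    [2, 128, 130, 129, 322, 322, 130, 129, 322, 322, 322, 322] = true := by
  decide +kernel

theorem ok_p9_2 : stepOKDR rows prio cap p9_2 lay10
    [64, 2, 128, 322, 192, 322, 322, 193, 192, 322, 322] = true := by
  decide +kernel

theorem ok_p9_3 : stepOKDR rows prio cap p9_3 lay10
    [257, 194, 256, 257, 257, 258, 193, 322, 322, 322] = true := by
  decide +kernel

theorem ok_p9_4 : stepOKDR rows prio cap p9_4 lay10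
    [256, 194, 257, 322, 322, 257, 322, 320, 320, 322] = true := by
  decide +kernel

theorem ok_p9_5 : stepOKDR rows prio cap p9_5 lay10
    [194, 322, 321, 322, 321, 322, 322, 322, 322, 322, 322, 322] = true := by
  decide +kernel

theorem ok_p9_6 : stepOKDR rows prio cap p9_6 lay10
    [64, 65, 66, 384, 385, 386, 386, 386, 448, 449] = true := by
  decide +kernel

theorem ok_p9_7 : stepOKDR rows prio cap p9_7 lay10
    [128, 129, 130, 448, 448, 450, 512, 512, 513, 512] = true := by
  decide +kernel

theorem ok_p9_8 : stepOKDR rows prio cap p9_8 lay10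
    [256, 192, 193, 641, 514, 576, 576, 577, 576] = true := by
  decide +kernel

theorem ok_p9_9 : stepOKDR rows prio cap p9_9 lay10
    [257, 258, 320, 578, 640, 641, 642, 642, 642] = true := by
  decide +kernel

end Vale.Agent.Lib.P302.helper8.Th863
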