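import Mathlib
import Vale.Agent.Lib.P302.helper8.Th863.Base
import Vale.Agent.Lib.P302.helper8.Th863.K3

/-!
# P302: chunks of the mask search of the 863-item instance (part 6)
-/

namespace Vale.Agent.Lib.P302.helper8.Th863

open Vale.Agent.Lib.P302.helper14 Vale.Agent.Lib.P302.helper8 Vale.Agent.Lib.P302.helper9

theorem ok_p12_11 : stepOKDR rows prio cap p12_11 lay13
    [257, 258, 320, 705, 770, 768, 769, 832, 832] = true := by
  decide +kernel

theorem ok_p12_12 : stepOKDR rows prio cap p12_12 lay13
    [321, 384, 385, 706, 770, 833, 834, 834, 896, 897] = true := by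
  decide +kernel

theorem ok_p12_13 : stepOKDR rows prio cap p12_13 lay13
    [386, 448, 449, 896, 897, 898, 960, 960, 961, 962] = true := by
  decide +kernel

theorem ok_p12_14 : stepOKDR rows prio cap p12_14 lay13
    [512, 576, 450, 1024, 1026, 1088, 961, 962] = true := by
  decide +kernel

theorem ok_p12_15 : stepOKDR rows prio cap p12_15 lay13
    [641, 577, 578, 1024, 1025, 1090, 1088, 1152] = true := by
  decide +kernel

theorem ok_p12_16 : stepOKDR rows prio cap p12_16 lay13
    [642, 704, 1089, 1090, 1152, 1153, 1153] = true := by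
  decide +kernel

theorem ok_p13_0 : stepOKDR rows prio cap p13_0 lay14
    [0, 258, 1, 128, 64, 65] = true := by
  decide +kernel

theorem ok_p13_1 : stepOKDR rows prio cap p13_1 lay14
    [192, 128, 66, 193, 128, 130, 129] = true := by
  decide +kernel

theorem ok_p13_2 : stepOKDR rows prio cap p13_2 lay14
    [2, 64, 193, 129, 257, 321, 258, 320] = true := by
  decide +kernel

theorem ok_p13_3 : stepOKDR rows prio cap p13_3 lay14
    [449, 386, 66, 128, 448, 129, 321] = true := by
  decide +kernel

theorem ok_p13_4 : stepOKDR rows prio cap p13_4 lay14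
    [322, 384, 450, 450, 192, 193, 194] = true := by
  decide +kernel

theorem ok_p13_5 : stepOKDR rows prio cap p13_5 lay14
    [384, 385, 386, 129, 706, 322, 256, 321] = true := by
  decide +kernel

theorem ok_p13_6 : stepOKDR rows prio cap p13_6 lay14
    [129, 449, 512, 513, 513, 514, 514, 706] = true := by
  decide +kernel

theorem ok_p13_7 : stepOKDR rows prio cap p13_7 lay14
    [576, 576, 129, 449, 577, 577, 706, 512] = true := by
  decide +kernel

theorem ok_p13_8 : stepOKDR rows prio cap p13_8 lay14
    [578, 641, 768, 706, 704, 128, 705, 129] = true := by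
  decide +kernel

theorem ok_p13_9 : stepOKDR rows prio cap p13_9 lay14
    [640, 641, 642, 640, 706, 706, 768] = true := by
  decide +kernel

theorem ok_p13_10 : stepOKDR rows prio cap p13_10 lay14
    [769, 704, 770, 770, 706, 768, 321] = true := by
  decide +kernel

theorem ok_p13_11 : stepOKDR rows prio cap p13_11 lay14
    [384, 385, 769, 129, 706, 897, 898, 960, 962, 832, 833] = true := by
  decide +kernel

theorem ok_p13_12 : stepOKDR rows prio cap p13_12 lay14
    [450, 706, 322, 898, 898, 960, 834, 896] = true := by
  decide +kernel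

theorem ok_p13_13 : stepOKDR rows prio cap p13_13 lay14
    [768, 513, 514, 961, 962, 1024, 1217, 1025, 1025, 1026] = true := by
  decide +kernel

end Vale.Agent.Lib.P302.helper8.Th863
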