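import Mathlib
import Vale.Agent.Lib.P302.helper8.Th863.Base
import Vale.Agent.Lib.P302.helper8.Th863.K6

/-!
# P302: chunks of the mask search of the 863-item instance (part 9)
-/

namespace Vale.Agent.Lib.P302.helper8.Th863

open Vale.Agent.Lib.P302.helper14 Vale.Agent.Lib.P302.helper8 Vale.Agent.Lib.P302.helper9

theorem ok_p15_15 : stepOKDR rows prio cap p15_15 lay16
    [65, 66, 257, 833, 834] = true := by
  decide +kernel

theorem ok_p15_16 : stepOKDR rows prio cap p15_16 lay16
    [448, 450, 258, 897, 961, 834] = true := by
  decide +kernel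

theorem ok_p15_17 : stepOKDR rows prio cap p15_17 lay16
    [514, 386, 449, 896, 897, 896] = true := by
  decide +kernel

theorem ok_p15_18 : stepOKDR rows prio cap p15_18 lay16
    [514, 577, 576, 896, 898] = true := by
  decide +kernel

theorem ok_p15_19 : stepOKDR rows prio cap p15_19 lay16
    [642, 640, 578, 960] = true := by
  decide +kernel

theorem ok_p15_20 : stepOKDR rows prio cap p15_20 lay16
    [704, 769, 705, 961, 961, 961] = true := by
  decide +kernel

theorem ok_p15_21 : stepOKDR rows prio cap p15_21 lay16
    [832, 770, 769, 962, 961] = true := by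
  decide +kernel

theorem ok_p16_0 : stepOKDR rows prio cap p16_0 lay17
    [0, 1, 2, 64, 65] = true := by
  decide +kernel

theorem ok_p16_1 : stepOKDR rows prio cap p16_1 lay17
    [2, 129, 130, 130, 258, 192, 129] = true := by
  decide +kernel

theorem ok_p16_2 : stepOKDR rows prio cap p16_2 lay17
    [66, 128, 129, 256, 257, 257, 257, 130, 192] = true := by
  decide +kernel

theorem ok_p16_3 : stepOKDR rows prio cap p16_3 lay17
    [0, 2, 64, 129, 193, 193, 193] = true := by
  decide +kernel

theorem ok_p16_4 : stepOKDR rows prio cap p16_4 lay17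
    [66, 128, 129, 256, 257, 257, 257, 258, 320] = true := by
  decide +kernel

theorem ok_p16_5 : stepOKDR rows prio cap p16_5 lay17
    [1, 193, 194, 256, 321, 194, 322] = true := by
  decide +kernel

theorem ok_p16_6 : stepOKDR rows prio cap p16_6 lay17
    [2, 385, 64, 386, 448, 257, 194, 384] = true := by
  decide +kernel

theorem ok_p16_7 : stepOKDR rows prio cap p16_7 lay17
    [129, 130, 65, 450, 448, 641] = true := by
  decide +kernel

theorem ok_p16_8 : stepOKDR rows prio cap p16_8 lay17
    [385, 449, 257, 450, 193, 257, 512] = true := by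
  decide +kernel

theorem ok_p16_9 : stepOKDR rows prio cap p16_9 lay17
    [385, 386, 513, 385, 514] = true := by
  decide +kernel

theorem ok_p16_10 : stepOKDR rows prio cap p16_10 lay17
    [2, 576, 576, 577, 386, 514] = true := by
  decide +kernel

theorem ok_p16_11 : stepOKDR rows prio cap p16_11 lay17
    [576, 130, 640, 641, 578, 257, 640] = true := by
  decide +kernel

theorem ok_p16_12 : stepOKDR rows prio cap p16_12 lay17
    [576, 642, 578, 193, 257, 641] = true := by
  decide +kernel

theorem ok_p16_13 : stepOKDR rows prio cap p16_13 lay17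
    [577, 192, 129, 642] = true := by
  decide +kernel

end Vale.Agent.Lib.P302.helper8.Th863
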