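import Mathlib
import Vale.Agent.Lib.P302.helper8.Th863.Base
import Vale.Agent.Lib.P302.helper8.Th863.K9

/-!
# P302: chunks of the mask search of the 863-item instance (part 12)
-/

namespace Vale.Agent.Lib.P302.helper8.Th863

open Vale.Agent.Lib.P302.helper14 Vale.Agent.Lib.P302.helper8 Vale.Agent.Lib.P302.helper9

theorem ok_p20_9 : stepOKDR rows prio cap p20_9 lay21
    [385, 384, 641, 642, 897, 960, 960, 961] = true := by
  decide +kernel

theorem ok_p20_10 : stepOKDR rows prio cap p20_10 lay21
    [193, 704, 961, 769, 642, 896, 961] = true := by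
  decide +kernel

theorem ok_p20_11 : stepOKDR rows prio cap p20_11 lay21
    [448, 386, 705, 706, 961, 962, 897, 962] = true := by
  decide +kernel

theorem ok_p20_12 : stepOKDR rows prio cap p20_12 lay21
    [449, 1024, 1025, 768, 768, 1024] = true := by
  decide +kernel

theorem ok_p20_13 : stepOKDR rows prio cap p20_13 lay21
    [450, 321, 322, 1025, 1026, 1026, 321, 322] = true := by
  decide +kernel

theorem ok_p20_14 : stepOKDR rows prio cap p20_14 lay21
    [385, 448, 897, 1026, 1026, 385, 1026, 448, 1088, 897] = true := by
  decide +kernel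

theorem ok_p21_0 : stepOKDR rows prio cap p21_0 lay22
    [66, 128, 129, 130, 193, 194] = true := by
  decide +kernel

theorem ok_p21_1 : stepOKDR rows prio cap p21_1 lay22
    [192, 0, 256, 1, 2, 257, 258, 320, 321] = true := by
  decide +kernel

theorem ok_p21_2 : stepOKDR rows prio cap p21_2 lay22
    [322, 384, 64, 385, 386, 448, 449] = true := by
  decide +kernel

theorem ok_p21_3 : stepOKDR rows prio cap p21_3 lay22
    [450, 192, 512, 513, 448, 514] = true := by
  decide +kernel

theorem ok_p21_4 : stepOKDR rows prio cap p21_4 lay22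
    [65, 576, 577, 578, 640, 641, 704, 0] = true := by
  decide +kernel

theorem ok_p21_5 : stepOKDR rows prio cap p21_5 lay22
    [641, 642, 642, 705, 2, 706, 706, 641, 642] = true := by
  decide +kernel

theorem ok_p21_6 : stepOKDR rows prio cap p21_6 lay22
    [706, 768, 768, 769, 64, 768, 770, 832, 65] = true := by
  decide +kernel

theorem ok_p21_7 : stepOKDR rows prio cap p21_7 lay22
    [833, 896, 834, 897, 770, 706, 770] = true := by
  decide +kernel

theorem ok_p21_8 : stepOKDR rows prio cap p21_8 lay22
    [128, 129, 130, 898, 960, 961, 128, 130] = true := by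
  decide +kernel

theorem ok_p21_9 : stepOKDR rows prio cap p21_9 lay22
    [192, 641, 642, 192, 962, 962, 962, 257, 258] = true := by
  decide +kernel

theorem ok_p21_10 : stepOKDR rows prio cap p21_10 lay22
    [322, 768, 512, 962, 1024, 322, 385, 1025, 512] = true := by
  decide +kernel

theorem ok_p21_11 : stepOKDR rows prio cap p21_11 lay22
    [513, 770, 640, 1025, 960, 962, 576] = true := by
  decide +kernel

theorem ok_p21_12 : stepOKDR rows prio cap p21_12 lay22
    [898, 192, 961, 192, 1026, 1026, 1026, 898, 961] = true := by
  decide +kernel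

theorem ok_p21_13 : stepOKDR rows prio cap p21_13 lay22
    [192, 641, 642, 1088, 1088, 1088, 641, 192, 642] = true := by
  decide +kernel

end Vale.Agent.Lib.P302.helper8.Th863
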