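import Mathlib
import Vale.Agent.Lib.P302.helper8.Th863.Base
import Vale.Agent.Lib.P302.helper8.Th863.K10

/-!
# P302: chunks of the mask search of the 863-item instance (part 13)
-/

namespace Vale.Agent.Lib.P302.helper8.Th863

open Vale.Agent.Lib.P302.helper14 Vale.Agent.Lib.P302.helper8 Vale.Agent.Lib.P302.helper9

theorem ok_p21_14 : stepOKDR rows prio cap p21_14 lay22
    [1026, 706, 1024, 1026, 1026, 1089, 706, 1090, 1024] = true := by
  decide +kernel

theorem ok_p21_15 : stepOKDR rows prio cap p21_15 lay22
    [768, 1025, 770, 1088, 768, 1026, 1025, 1088, 770] = true := by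
  decide +kernel

theorem ok_p21_16 : stepOKDR rows prio cap p21_16 lay22
    [833, 896, 706, 898, 898, 833, 896, 1152, 706] = true := by
  decide +kernel

theorem ok_p21_17 : stepOKDR rows prio cap p21_17 lay22
    [1090, 1152] = true := by
  decide +kernel

theorem ok_p22_0 : stepOKDR rows prio cap p22_0 lay23
    [66, 128, 129, 130, 192, 193, 194, 256] = true := by
  decide +kernel

theorem ok_p22_1 : stepOKDR rows prio cap p22_1 lay23
    [0, 385, 257, 258, 320, 321, 322, 384] = true := by
  decide +kernel

theorem ok_p22_2 : stepOKDR rows prio cap p22_2 lay23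
    [385, 450, 512, 513, 514, 576] = true := by
  decide +kernel

theorem ok_p22_3 : stepOKDR rows prio cap p22_3 lay23
    [386, 448, 641, 514, 577, 576, 128] = true := by
  decide +kernel

theorem ok_p22_4 : stepOKDR rows prio cap p22_4 lay23
    [449, 66, 577, 129, 194, 641, 641, 642, 704] = true := by
  decide +kernel

theorem ok_p22_5 : stepOKDR rows prio cap p22_5 lay23
    [192, 256, 578, 640, 642, 704, 706, 768] = true := by
  decide +kernel

theorem ok_p22_6 : stepOKDR rows prio cap p22_6 lay23
    [641, 705, 768, 257, 320, 769, 770, 770] = true := by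
  decide +kernel

theorem ok_p22_7 : stepOKDR rows prio cap p22_7 lay23
    [1, 2, 64, 512, 2, 832] = true := by
  decide +kernel

theorem ok_p22_8 : stepOKDR rows prio cap p22_8 lay23
    [832, 833, 834, 512, 896, 896] = true := by
  decide +kernel

theorem ok_p22_9 : stepOKDR rows prio cap p22_9 lay23
    [65, 321, 384, 897, 641, 898, 898, 960] = true := by
  decide +kernel

theorem ok_p22_10 : stepOKDR rows prio cap p22_10 lay23
    [834, 960, 1024, 1024, 1025, 66, 1026, 129] = true := by
  decide +kernel

theorem ok_p22_11 : stepOKDR rows prio cap p22_11 lay23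
    [961, 962, 1024, 1025, 1026, 192, 256, 1088, 1024] = true := by
  decide +kernel

theorem ok_p22_12 : stepOKDR rows prio cap p22_12 lay23
    [1024, 1089, 1090, 1090, 257, 320, 1024, 1153, 321] = true := by
  decide +kernel

theorem ok_p22_13 : stepOKDR rows prio cap p22_13 lay23
    [1154, 450, 1216, 1216, 1152, 1153, 384] = true := by
  decide +kernel

theorem ok_p22_14 : stepOKDR rows prio cap p22_14 lay23
    [1217, 450, 450, 1218, 1218, 1280, 450, 450] = true := by
  decide +kernel

theorem ok_p22_15 : stepOKDR rows prio cap p22_15 lay23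
    [512, 513, 1024, 1280, 1280, 512, 513, 513, 641, 1281, 1024] = true := by
  decide +kernel

theorem ok_p22_16 : stepOKDR rows prio cap p22_16 lay23
    [706, 834, 1280, 1280, 706, 706, 1280, 834, 834, 1280, 1280, 1282] = true := by
  decide +kernel

end Vale.Agent.Lib.P302.helper8.Th863
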