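import Mathlib
import Vale.Agent.Lib.P302.helper8.Th863.Base
import Vale.Agent.Lib.P302.helper8.Th863.K11

/-!
# P302: chunks of the mask search of the 863-item instance (part 14)
-/

namespace Vale.Agent.Lib.P302.helper8.Th863

open Vale.Agent.Lib.P302.helper14 Vale.Agent.Lib.P302.helper8 Vale.Agent.Lib.P302.helper9

theorem ok_p22_17 : stepOKDR rows prio cap p22_17 lay23
    [1024, 1282, 1088, 1282, 1024, 1344, 1024, 1282, 1088, 1088] = true := by
  decide +kernel

theorem ok_p22_18 : stepOKDR rows prio cap p22_18 lay23
    [1088, 1088] = true := by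
  decide +kernel

theorem ok_p23_0 : stepOKDR rows prio cap p23_0 lay24
    [192, 128, 449, 449, 65, 1281] = true := by
  decide +kernel

theorem ok_p23_1 : stepOKDR rows prio cap p23_1 lay24
    [513, 450, 640, 578, 897, 1345, 1024] = true := by
  decide +kernel

theorem ok_p23_2 : stepOKDR rows prio cap p23_2 lay24
    [898, 960, 961, 1345, 1345, 1024, 1025] = true := by
  decide +kernel

theorem ok_p23_3 : stepOKDR rows prio cap p23_3 lay24
    [0, 1, 962, 897, 1025, 898, 1026] = true := by
  decide +kernel

theorem ok_p23_4 : stepOKDR rows prio cap p23_4 lay24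
    [2, 1345, 960, 1088, 1089, 1090, 1152, 1152] = true := by
  decide +kernel

theorem ok_p23_5 : stepOKDR rows prio cap p23_5 lay24
    [64, 1089, 1153, 1154, 1216, 1345, 1217, 1217] = true := by
  decide +kernel

theorem ok_p23_6 : stepOKDR rows prio cap p23_6 lay24
    [128, 129, 66, 1281, 257, 1154, 1218] = true := by
  decide +kernel

theorem ok_p23_7 : stepOKDR rows prio cap p23_7 lay24
    [130, 193, 1280, 258, 320, 1, 1344] = true := by
  decide +kernel

theorem ok_p23_8 : stepOKDR rows prio cap p23_8 lay24
    [257, 1281, 1282, 1344, 1344, 1280] = true := by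
  decide +kernel

theorem ok_p23_9 : stepOKDR rows prio cap p23_9 lay24
    [194, 258, 320, 0, 1282, 1410, 1408, 1346] = true := by
  decide +kernel

theorem ok_p23_10 : stepOKDR rows prio cap p23_10 lay24
    [256, 321, 2, 1345, 1346, 1410, 1409, 1472, 1410] = true := by
  decide +kernel

theorem ok_p23_11 : stepOKDR rows prio cap p23_11 lay24
    [322, 384, 1344, 1409, 1410, 1473, 386] = true := by
  decide +kernel

theorem ok_p23_12 : stepOKDR rows prio cap p23_12 lay24
    [385, 386, 448, 1410, 64, 1473, 1474, 1474] = true := by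
  decide +kernel

theorem ok_p23_13 : stepOKDR rows prio cap p23_13 lay24
    [450, 512, 1536, 1281, 576, 1344] = true := by
  decide +kernel

theorem ok_p23_14 : stepOKDR rows prio cap p23_14 lay24
    [514, 576, 577, 66, 1536, 1537, 1537, 1410] = true := by
  decide +kernel

theorem ok_p23_15 : stepOKDR rows prio cap p23_15 lay24
    [578, 641, 642, 1536, 1346, 1409, 0, 2] = true := by
  decide +kernel

theorem ok_p23_16 : stepOKDR rows prio cap p23_16 lay24
    [704, 705, 1538, 1600, 1538, 1345, 1538, 1346, 1409] = true := by
  decide +kernel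

theorem ok_p23_17 : stepOKDR rows prio cap p23_17 lay24
    [706, 768, 1600, 1538, 1600, 1474, 64, 1474] = true := by
  decide +kernel

theorem ok_p23_18 : stepOKDR rows prio cap p23_18 lay24
    [832, 769, 770, 833, 1537, 66, 1538, 1537] = true := by
  decide +kernel

end Vale.Agent.Lib.P302.helper8.Th863
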