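import Mathlib
import Vale.Agent.Lib.P302.helper8.Th863.Base
import Vale.Agent.Lib.P302.helper8.Th863.K12

/-!
# P302: chunks of the mask search of the 863-item instance (part 15)
-/

namespace Vale.Agent.Lib.P302.helper8.Th863

open Vale.Agent.Lib.P302.helper14 Vale.Agent.Lib.P302.helper8 Vale.Agent.Lib.P302.helper9

theorem ok_p23_19 : stepOKDR rows prio cap p23_19 lay24
    [834, 833, 896, 896, 1280, 1280] = true := by
  decide +kernel

theorem ok_p23_20 : stepOKDR rows prio cap p23_20 lay24
    [1344, 1600, 1600, 1601, 1344, 1472, 1601] = true := by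
  decide +kernel

theorem ok_p23_21 : stepOKDR rows prio cap p23_21 lay24
    [1600, 1600] = true := by
  decide +kernel

theorem ok_p24_0 : stepOKDR rows prio cap p24_0 lay25
    [0, 65, 66, 128, 129, 130, 192, 193] = true := by
  decide +kernel

theorem ok_p24_1 : stepOKDR rows prio cap p24_1 lay25
    [258, 320, 321, 384, 385, 448, 450, 512] = true := by
  decide +kernel

theorem ok_p24_2 : stepOKDR rows prio cap p24_2 lay25
    [577, 578, 641, 640, 1, 64] = true := by
  decide +kernel

theorem ok_p24_3 : stepOKDR rows prio cap p24_3 lay25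
    [641, 642, 0, 2, 65, 704] = true := by
  decide +kernel

theorem ok_p24_4 : stepOKDR rows prio cap p24_4 lay25
    [578, 640, 66, 705, 706, 768] = true := by
  decide +kernel

theorem ok_p24_5 : stepOKDR rows prio cap p24_5 lay25
    [642, 704, 705, 833, 128, 129, 130, 833, 833] = true := by
  decide +kernel

theorem ok_p24_6 : stepOKDR rows prio cap p24_6 lay25
    [834, 834, 257, 258, 896, 897] = true := by
  decide +kernel

theorem ok_p24_7 : stepOKDR rows prio cap p24_7 lay25
    [833, 896, 320, 577, 577, 385, 961] = true := by
  decide +kernel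

theorem ok_p24_8 : stepOKDR rows prio cap p24_8 lay25
    [960, 961, 386, 448, 449, 962] = true := by
  decide +kernel

theorem ok_p24_9 : stepOKDR rows prio cap p24_9 lay25
    [1024, 960, 962, 1024, 450, 833, 1026] = true := by
  decide +kernel

theorem ok_p24_10 : stepOKDR rows prio cap p24_10 lay25
    [1026, 514, 1088, 1089, 0, 66] = true := by
  decide +kernel

theorem ok_p24_11 : stepOKDR rows prio cap p24_11 lay25
    [1088, 1089, 1090, 1090, 128, 130, 1152, 258] = true := by
  decide +kernel

theorem ok_p24_12 : stepOKDR rows prio cap p24_12 lay25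
    [1090, 1152, 320, 1153, 1153, 448, 1090, 450] = true := by
  decide +kernel

theorem ok_p24_13 : stepOKDR rows prio cap p24_13 lay25
    [1154, 1154, 1217, 576, 1216, 706] = true := by
  decide +kernel

theorem ok_p24_14 : stepOKDR rows prio cap p24_14 lay25
    [1217, 706, 1218, 1218, 1280, 128, 129] = true := by
  decide +kernel

theorem ok_p24_15 : stepOKDR rows prio cap p24_15 lay25
    [1218, 1280, 1281, 130, 192, 193] = true := by
  decide +kernel

theorem ok_p24_16 : stepOKDR rows prio cap p24_16 lay25
    [194, 192, 1282, 1282, 1344, 1344, 1344, 1345, 1345] = true := by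
  decide +kernel

theorem ok_p24_17 : stepOKDR rows prio cap p24_17 lay25
    [256, 1218, 193, 1345, 1346, 320, 321] = true := by
  decide +kernel

end Vale.Agent.Lib.P302.helper8.Th863
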