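import Mathlib
import Vale.Agent.Lib.P302.helper8.Th863.Base
import Vale.Agent.Lib.P302.helper8.Th863.K13

/-!
# P302: chunks of the mask search of the 863-item instance (part 16)
-/

namespace Vale.Agent.Lib.P302.helper8.Th863

open Vale.Agent.Lib.P302.helper14 Vale.Agent.Lib.P302.helper8 Vale.Agent.Lib.P302.helper9

theorem ok_p24_18 : stepOKDR rows prio cap p24_18 lay25
    [322, 1282, 321, 1408, 1408, 1408, 1218, 1409, 450] = true := by
  decide +kernel

theorem ok_p24_19 : stepOKDR rows prio cap p24_19 lay25
    [513, 1409, 512, 512, 1282, 1410, 1410, 1410] = true := by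
  decide +kernel

theorem ok_p24_20 : stepOKDR rows prio cap p24_20 lay25
    [577, 1472, 1472, 1472, 706, 768] = true := by
  decide +kernel

theorem ok_p24_21 : stepOKDR rows prio cap p24_21 lay25
    [769, 1472, 1472, 1473, 1474, 1536, 1536, 1282, 1344] = true := by
  decide +kernel

theorem ok_p24_22 : stepOKDR rows prio cap p24_22 lay25
    [770, 832, 1218, 129, 1536, 1536, 1345, 1537, 833] = true := by
  decide +kernel

theorem ok_p24_23 : stepOKDR rows prio cap p24_23 lay25
    [898, 1472, 1474, 1536, 1537, 1474, 897, 1408] = true := by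
  decide +kernel

theorem ok_p24_24 : stepOKDR rows prio cap p24_24 lay25
    [1025, 1472, 1024, 1536, 1410, 1538, 1090, 1218] = true := by
  decide +kernel

theorem ok_p24_25 : stepOKDR rows prio cap p24_25 lay25
    [1473, 1538, 1474, 1474, 1473, 1473] = true := by
  decide +kernel

theorem ok_p25_0 : stepOKDR rows prio cap p25_0 lay26
    [0, 1, 64, 65, 66, 192] = true := by
  decide +kernel

theorem ok_p25_1 : stepOKDR rows prio cap p25_1 lay26
    [2, 128, 129, 130, 194, 193] = true := by
  decide +kernel

theorem ok_p25_2 : stepOKDR rows prio cap p25_2 lay26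
    [64, 129, 130, 258, 258, 258, 320, 321] = true := by
  decide +kernel

theorem ok_p25_3 : stepOKDR rows prio cap p25_3 lay26
    [192, 193, 320, 321, 192, 1089] = true := by
  decide +kernel

theorem ok_p25_4 : stepOKDR rows prio cap p25_4 lay26
    [193, 1090, 322, 384, 385, 386] = true := by
  decide +kernel

theorem ok_p25_5 : stepOKDR rows prio cap p25_5 lay26
    [258, 385, 386, 449, 386, 1154] = true := by
  decide +kernel

theorem ok_p25_6 : stepOKDR rows prio cap p25_6 lay26
    [450, 512, 513, 129, 576] = true := by
  decide +kernel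

theorem ok_p25_7 : stepOKDR rows prio cap p25_7 lay26
    [514, 577, 578, 640, 258, 642] = true := by
  decide +kernel

theorem ok_p25_8 : stepOKDR rows prio cap p25_8 lay26
    [640, 642, 640, 1216, 704, 705] = true := by
  decide +kernel

theorem ok_p25_9 : stepOKDR rows prio cap p25_9 lay26
    [706, 896, 769, 832, 768, 65] = true := by
  decide +kernel

theorem ok_p25_10 : stepOKDR rows prio cap p25_10 lay26
    [832, 770, 834, 66, 128, 129] = true := by
  decide +kernel

theorem ok_p25_11 : stepOKDR rows prio cap p25_11 lay26
    [769, 64, 130, 834, 834, 896] = true := by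
  decide +kernel

theorem ok_p25_12 : stepOKDR rows prio cap p25_12 lay26
    [770, 896, 129, 1218, 1218, 1089] = true := by
  decide +kernel

end Vale.Agent.Lib.P302.helper8.Th863
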