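import Mathlib
import Vale.Agent.Lib.P302.helper8.Th863.Base
import Vale.Agent.Lib.P302.helper8.Th863.K14

/-!
# P302: chunks of the mask search of the 863-item instance (part 17)
-/

namespace Vale.Agent.Lib.P302.helper8.Th863

open Vale.Agent.Lib.P302.helper14 Vale.Agent.Lib.P302.helper8 Vale.Agent.Lib.P302.helper9

theorem ok_p25_13 : stepOKDR rows prio cap p25_13 lay26
    [834, 258, 1218, 1090, 897, 898, 384] = true := by
  decide +kernel

theorem ok_p25_14 : stepOKDR rows prio cap p25_14 lay26
    [834, 896, 1218, 898, 385, 1154] = true := by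
  decide +kernel

theorem ok_p25_15 : stepOKDR rows prio cap p25_15 lay26
    [960, 832, 576, 577, 578, 834] = true := by
  decide +kernel

theorem ok_p25_16 : stepOKDR rows prio cap p25_16 lay26
    [960, 960, 896, 1218, 1216, 705] = true := by
  decide +kernel

theorem ok_p25_17 : stepOKDR rows prio cap p25_17 lay26
    [961, 961, 64, 130, 962, 258] = true := by
  decide +kernel

theorem ok_p25_18 : stepOKDR rows prio cap p25_18 lay26
    [769, 768, 961, 385, 961, 577] = true := by
  decide +kernel

theorem ok_p25_19 : stepOKDR rows prio cap p25_19 lay26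
    [1024, 769, 1025, 258, 1026, 1088] = true := by
  decide +kernel

theorem ok_p25_20 : stepOKDR rows prio cap p25_20 lay26
    [320, 321, 1153, 1088, 1088, 1152, 1153] = true := by
  decide +kernel

theorem ok_p25_21 : stepOKDR rows prio cap p25_21 lay26
    [256, 257, 449, 1088, 1089, 1090, 1153, 1153] = true := by
  decide +kernel

theorem ok_p25_22 : stepOKDR rows prio cap p25_22 lay26
    [448, 641, 642, 1153, 1154, 1088, 1216, 1153] = true := by
  decide +kernel

theorem ok_p25_23 : stepOKDR rows prio cap p25_23 lay26
    [896, 1217, 1280, 1217, 1217, 1280, 1152] = true := by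
  decide +kernel

theorem ok_p25_24 : stepOKDR rows prio cap p25_24 lay26
    [833, 897, 962, 1026, 1218, 1280, 1153, 1026] = true := by
  decide +kernel

theorem ok_p26_0 : stepOKDR rows prio cap p26_0 lay27
    [0, 1, 2, 64, 65, 128] = true := by
  decide +kernel

theorem ok_p26_1 : stepOKDR rows prio cap p26_1 lay27
    [256, 1, 256, 1, 2, 192, 193, 258] = true := by
  decide +kernel

theorem ok_p26_2 : stepOKDR rows prio cap p26_2 lay27
    [64, 258, 257, 64, 258, 257, 194, 193, 193] = true := by
  decide +kernel

theorem ok_p26_3 : stepOKDR rows prio cap p26_3 lay27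
    [66, 130, 129, 256, 258, 257] = true := by
  decide +kernel

theorem ok_p26_4 : stepOKDR rows prio cap p26_4 lay27
    [256, 257, 256, 257, 320, 320, 322, 322, 321] = true := by
  decide +kernel

theorem ok_p26_5 : stepOKDR rows prio cap p26_5 lay27
    [256, 257, 322, 322, 384, 385] = true := by
  decide +kernel

theorem ok_p26_6 : stepOKDR rows prio cap p26_6 lay27
    [193, 384, 449, 384, 449, 386, 448, 449] = true := by
  decide +kernel

theorem ok_p26_7 : stepOKDR rows prio cap p26_7 lay27
    [320, 322, 449, 449, 449, 258, 513] = true := by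
  decide +kernel

end Vale.Agent.Lib.P302.helper8.Th863
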