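import Mathlib
import Vale.Agent.Lib.P302.helper8.Th863.Base
import Vale.Agent.Lib.P302.helper8.Th863.K16

/-!
# P302: chunks of the mask search of the 863-item instance (part 19)
-/

namespace Vale.Agent.Lib.P302.helper8.Th863

open Vale.Agent.Lib.P302.helper14 Vale.Agent.Lib.P302.helper8 Vale.Agent.Lib.P302.helper9

theorem ok_p27_8 : stepOKDR rows prio cap p27_8 lay28
    [640, 704, 258, 705, 768, 706, 768] = true := by
  decide +kernel

theorem ok_p27_9 : stepOKDR rows prio cap p27_9 lay28
    [641, 642, 129, 706, 768, 769, 770] = true := by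
  decide +kernel

theorem ok_p27_10 : stepOKDR rows prio cap p27_10 lay28
    [705, 705, 769, 705, 384, 386, 769, 832, 833] = true := by
  decide +kernel

theorem ok_p27_11 : stepOKDR rows prio cap p27_11 lay28
    [834, 128, 896, 896, 896, 705, 833] = true := by
  decide +kernel

theorem ok_p27_12 : stepOKDR rows prio cap p27_12 lay28
    [386, 449, 386, 449, 386, 897, 897, 384, 449, 897, 449, 449, 449] = true := by
  decide +kernel

theorem ok_p27_13 : stepOKDR rows prio cap p27_13 lay28
    [128, 960, 960, 897, 897, 897, 897, 449, 449, 449, 897] = true := by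
  decide +kernel

theorem ok_p27_14 : stepOKDR rows prio cap p27_14 lay28
    [898, 960, 386, 449, 386, 449, 386, 897, 961] = true := by
  decide +kernel

theorem ok_p27_15 : stepOKDR rows prio cap p27_15 lay28
    [449, 449, 449, 449, 449, 897, 897, 449] = true := by
  decide +kernel

theorem ok_p28_0 : stepOKDR rows prio cap p28_0 lay29
    [1, 2, 65, 128, 129, 130] = true := by
  decide +kernel

theorem ok_p28_1 : stepOKDR rows prio cap p28_1 lay29
    [0, 66, 64, 192, 194, 193] = true := by
  decide +kernel

theorem ok_p28_2 : stepOKDR rows prio cap p28_2 lay29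
    [258, 321, 257, 257, 257, 258, 256, 321] = true := by
  decide +kernel

theorem ok_p28_3 : stepOKDR rows prio cap p28_3 lay29
    [322, 192, 256, 258, 320, 128, 322] = true := by
  decide +kernel

theorem ok_p28_4 : stepOKDR rows prio cap p28_4 lay29
    [385, 384, 321, 320, 320, 130, 385, 384] = true := by
  decide +kernel

theorem ok_p28_5 : stepOKDR rows prio cap p28_5 lay29
    [1, 66, 64, 322, 385, 384] = true := by
  decide +kernel

theorem ok_p28_6 : stepOKDR rows prio cap p28_6 lay29
    [320, 257, 448, 257, 448, 448, 386, 448, 320] = true := by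
  decide +kernel

theorem ok_p28_7 : stepOKDR rows prio cap p28_7 lay29
    [448, 448, 448, 448, 448, 448, 450, 512] = true := by
  decide +kernel

theorem ok_p28_8 : stepOKDR rows prio cap p28_8 lay29
    [257, 449, 514, 513, 514, 514, 512] = true := by
  decide +kernel

theorem ok_p28_9 : stepOKDR rows prio cap p28_9 lay29
    [320, 449, 576, 576, 576, 577, 640] = true := by
  decide +kernel

theorem ok_p28_10 : stepOKDR rows prio cap p28_10 lay29
    [577, 642, 641, 256, 704, 705] = true := by
  decide +kernel

theorem ok_p28_11 : stepOKDR rows prio cap p28_11 lay29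
    [578, 768, 706, 256, 257, 768] = true := by
  decide +kernel

theorem ok_p28_12 : stepOKDR rows prio cap p28_12 lay29
    [641, 769, 768, 320, 704, 769, 769] = true := by
  decide +kernel

end Vale.Agent.Lib.P302.helper8.Th863
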