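import Mathlib
import Vale.Agent.Lib.P302.helper8.Th863.Base
import Vale.Agent.Lib.P302.helper8.Th863.K17

/-!
# P302: chunks of the mask search of the 863-item instance (part 20)
-/

namespace Vale.Agent.Lib.P302.helper8.Th863

open Vale.Agent.Lib.P302.helper14 Vale.Agent.Lib.P302.helper8 Vale.Agent.Lib.P302.helper9

theorem ok_p28_13 : stepOKDR rows prio cap p28_13 lay29
    [833, 834, 768, 770, 832] = true := by
  decide +kernel

theorem ok_p28_14 : stepOKDR rows prio cap p28_14 lay29
    [896, 448, 897, 258, 834, 448, 386] = true := by
  decide +kernel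

theorem ok_p28_15 : stepOKDR rows prio cap p28_15 lay29
    [258, 897, 448, 448, 448] = true := by
  decide +kernel

theorem ok_p29_0 : stepOKDR rows prio cap p29_0 lay30
    [1, 65, 66, 128, 193, 194, 320] = true := by
  decide +kernel

theorem ok_p29_1 : stepOKDR rows prio cap p29_1 lay30
    [64, 2, 130, 192, 129, 257, 258, 256] = true := by
  decide +kernel

theorem ok_p29_2 : stepOKDR rows prio cap p29_2 lay30
    [128, 66, 130, 66, 128, 130, 321, 322, 384, 128, 66, 130] = true := by
  decide +kernel

theorem ok_p29_3 : stepOKDR rows prio cap p29_3 lay30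
    [65, 192, 129, 192, 129, 385, 322, 322, 65, 192, 129] = true := by
  decide +kernel

theorem ok_p29_4 : stepOKDR rows prio cap p29_4 lay30
    [192, 386, 321, 192, 321, 386, 192, 386, 386, 321, 386, 449] = true := by
  decide +kernel

theorem ok_p29_5 : stepOKDR rows prio cap p29_5 lay30
    [450, 384, 66, 384, 450, 66, 450, 384, 448, 386, 450, 66] = true := by
  decide +kernel

theorem ok_p29_6 : stepOKDR rows prio cap p29_6 lay30
    [192, 129, 449, 192, 129, 450, 450, 192, 129, 449, 449] = true := by
  decide +kernel

theorem ok_p29_7 : stepOKDR rows prio cap p29_7 lay30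
    [448, 448, 448, 449, 512, 514, 513, 577, 576] = true := by
  decide +kernel

theorem ok_p29_8 : stepOKDR rows prio cap p29_8 lay30
    [514, 513, 578, 322, 386, 514, 513, 578, 514, 513, 578, 578] = true := by
  decide +kernel

theorem ok_p29_9 : stepOKDR rows prio cap p29_9 lay30
    [513, 450, 513, 513, 192, 642, 641, 769] = true := by
  decide +kernel

theorem ok_p29_10 : stepOKDR rows prio cap p29_10 lay30
    [0, 640, 642, 705, 704, 768, 706] = true := by
  decide +kernel

theorem ok_p29_11 : stepOKDR rows prio cap p29_11 lay30
    [705, 704, 641, 705, 704, 770, 322, 385, 705, 704, 641] = true := by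
  decide +kernel

theorem ok_p29_12 : stepOKDR rows prio cap p29_12 lay30
    [770, 704, 770, 704, 770, 386, 450, 704, 832, 833] = true := by
  decide +kernel

theorem ok_p29_13 : stepOKDR rows prio cap p29_13 lay30
    [834, 832, 834, 896, 834, 321, 834, 770, 832] = true := by
  decide +kernel

theorem ok_p29_14 : stepOKDR rows prio cap p29_14 lay30
    [897, 897, 898, 897, 321, 897] = true := by
  decide +kernel

theorem ok_p30_0 : stepOKDR rows prio cap p30_0 lay31
    [65, 66, 192, 193, 448, 449] = true := by
  decide +kernel

theorem ok_p30_1 : stepOKDR rows prio cap p30_1 lay31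
    [192, 386, 450, 386, 514, 320, 385] = true := by
  decide +kernel

theorem ok_p30_2 : stepOKDR rows prio cap p30_2 lay31
    [193, 257, 258, 514, 321, 384, 322] = true := by
  decide +kernel

end Vale.Agent.Lib.P302.helper8.Th863
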