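import Mathlib
import Vale.Agent.Lib.P302.helper8.Th863.Base
import Vale.Agent.Lib.P302.helper8.Th863.K15

/-!
# P302: chunks of the mask search of the 863-item instance (part 18)
-/

namespace Vale.Agent.Lib.P302.helper8.Th863

open Vale.Agent.Lib.P302.helper14 Vale.Agent.Lib.P302.helper8 Vale.Agent.Lib.P302.helper9

theorem ok_p26_8 : stepOKDR rows prio cap p26_8 lay27
    [450, 512, 513, 514, 576, 577] = true := by
  decide +kernel

theorem ok_p26_9 : stepOKDR rows prio cap p26_9 lay27
    [514, 641, 514, 641, 576, 193, 640, 258] = true := by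
  decide +kernel

theorem ok_p26_10 : stepOKDR rows prio cap p26_10 lay27
    [641, 578, 641, 641, 320, 641, 322] = true := by
  decide +kernel

theorem ok_p26_11 : stepOKDR rows prio cap p26_11 lay27
    [705, 706, 640, 642, 704, 704] = true := by
  decide +kernel

theorem ok_p26_12 : stepOKDR rows prio cap p26_12 lay27
    [192, 194, 705, 192, 194, 705, 768, 768, 192, 192, 194] = true := by
  decide +kernel

theorem ok_p26_13 : stepOKDR rows prio cap p26_13 lay27
    [258, 322, 258, 322, 768, 769, 322, 322, 770] = true := by
  decide +kernel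

theorem ok_p26_14 : stepOKDR rows prio cap p26_14 lay27
    [768, 768, 768, 768, 832, 832, 321, 321, 448, 448, 448] = true := by
  decide +kernel

theorem ok_p26_15 : stepOKDR rows prio cap p26_15 lay27
    [640, 640, 768, 640, 322, 322, 833, 321, 321, 832] = true := by
  decide +kernel

theorem ok_p26_16 : stepOKDR rows prio cap p26_16 lay27
    [834, 834, 834, 896, 192, 321, 321, 832] = true := by
  decide +kernel

theorem ok_p26_17 : stepOKDR rows prio cap p26_17 lay27
    [256, 257, 322, 256, 257, 897, 898, 898] = true := by
  decide +kernel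

theorem ok_p26_18 : stepOKDR rows prio cap p26_18 lay27
    [960, 322, 960, 322, 898, 960, 832, 449, 449] = true := by
  decide +kernel

theorem ok_p26_19 : stepOKDR rows prio cap p26_19 lay27
    [832, 322, 832, 322, 961, 832, 641, 641, 898] = true := by
  decide +kernel

theorem ok_p26_20 : stepOKDR rows prio cap p26_20 lay27
    [321, 321, 832] = true := by
  decide +kernel

theorem ok_p27_0 : stepOKDR rows prio cap p27_0 lay28
    [64, 128, 129, 193, 192, 193] = true := by
  decide +kernel

theorem ok_p27_1 : stepOKDR rows prio cap p27_1 lay28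
    [0, 1, 130, 256, 193, 194, 256, 320] = true := by
  decide +kernel

theorem ok_p27_2 : stepOKDR rows prio cap p27_2 lay28
    [2, 66, 65, 256, 258, 257, 322, 321] = true := by
  decide +kernel

theorem ok_p27_3 : stepOKDR rows prio cap p27_3 lay28
    [128, 386, 130, 128, 386, 130, 128, 386, 130, 384, 385, 384] = true := by
  decide +kernel

theorem ok_p27_4 : stepOKDR rows prio cap p27_4 lay28
    [194, 258, 257, 386, 386, 386, 194, 258, 257] = true := by
  decide +kernel

theorem ok_p27_5 : stepOKDR rows prio cap p27_5 lay28
    [386, 386, 386, 448, 449, 449, 386, 449, 386, 449, 897] = true := by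
  decide +kernel

theorem ok_p27_6 : stepOKDR rows prio cap p27_6 lay28
    [450, 512, 513, 514, 514, 576, 514, 577] = true := by
  decide +kernel

theorem ok_p27_7 : stepOKDR rows prio cap p27_7 lay28
    [384, 386, 513, 513, 576, 513, 576, 578, 640] = true := by
  decide +kernel

end Vale.Agent.Lib.P302.helper8.Th863
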