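import Mathlib
import Vale.Agent.Lib.P302.helper8.Th863.Base
import Vale.Agent.Lib.P302.helper8.Th863.K18

/-!
# P302: chunks of the mask search of the 863-item instance (part 21)
-/

namespace Vale.Agent.Lib.P302.helper8.Th863

open Vale.Agent.Lib.P302.helper14 Vale.Agent.Lib.P302.helper8 Vale.Agent.Lib.P302.helper9

theorem ok_p30_3 : stepOKDR rows prio cap p30_3 lay31
    [0, 194, 514, 320, 321, 386, 448] = true := by
  decide +kernel

theorem ok_p30_4 : stepOKDR rows prio cap p30_4 lay31
    [1, 256, 384, 386, 322, 450, 449] = true := by
  decide +kernel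

theorem ok_p30_5 : stepOKDR rows prio cap p30_5 lay31
    [2, 257, 385, 512, 513, 578, 514] = true := by
  decide +kernel

theorem ok_p30_6 : stepOKDR rows prio cap p30_6 lay31
    [386, 258, 513, 513, 513, 640] = true := by
  decide +kernel

theorem ok_p30_7 : stepOKDR rows prio cap p30_7 lay31
    [514, 576, 577, 578, 578, 640] = true := by
  decide +kernel

theorem ok_p30_8 : stepOKDR rows prio cap p30_8 lay31
    [514, 641, 641, 768, 704, 706, 705] = true := by
  decide +kernel

theorem ok_p30_9 : stepOKDR rows prio cap p30_9 lay31
    [64, 513, 642, 704, 706, 705, 768] = true := by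
  decide +kernel

theorem ok_p30_10 : stepOKDR rows prio cap p30_10 lay31
    [66, 769, 897, 386, 386, 896] = true := by
  decide +kernel

theorem ok_p30_11 : stepOKDR rows prio cap p30_11 lay31
    [769, 770, 832, 514, 833, 834, 833, 897] = true := by
  decide +kernel

theorem ok_p30_12 : stepOKDR rows prio cap p30_12 lay31
    [128, 129, 832, 834, 896, 513] = true := by
  decide +kernel

theorem ok_p30_13 : stepOKDR rows prio cap p30_13 lay31
    [130, 257, 961, 832, 898] = true := by
  decide +kernel

theorem ok_p30_14 : stepOKDR rows prio cap p30_14 lay31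
    [960, 962, 257, 961, 1024, 1024] = true := by
  decide +kernel

theorem ok_p31_0 : stepOKDR rows prio cap p31_0 lay32
    [0, 2, 65, 385, 448, 386] = true := by
  decide +kernel

theorem ok_p31_1 : stepOKDR rows prio cap p31_1 lay32
    [129, 130, 450, 449, 768, 450] = true := by
  decide +kernel

theorem ok_p31_2 : stepOKDR rows prio cap p31_2 lay32
    [192, 194, 256, 512, 513, 514] = true := by
  decide +kernel

theorem ok_p31_3 : stepOKDR rows prio cap p31_3 lay32
    [577, 578, 257, 576, 576, 577] = true := by
  decide +kernel

theorem ok_p31_4 : stepOKDR rows prio cap p31_4 lay32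
    [258, 641, 642, 578, 704, 704] = true := by
  decide +kernel

theorem ok_p31_5 : stepOKDR rows prio cap p31_5 lay32
    [385, 705, 706, 641, 640, 640] = true := by
  decide +kernel

theorem ok_p31_6 : stepOKDR rows prio cap p31_6 lay32
    [448, 386, 768, 768, 642, 640] = true := by
  decide +kernel

theorem ok_p31_7 : stepOKDR rows prio cap p31_7 lay32
    [1, 66, 64, 705, 768, 706] = true := by
  decide +kernel

theorem ok_p31_8 : stepOKDR rows prio cap p31_8 lay32
    [576, 704, 640, 704, 769, 832, 770] = true := by
  decide +kernel

end Vale.Agent.Lib.P302.helper8.Th863
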