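import Mathlib
import Vale.Agent.Lib.P302.helper8.Th863.Base
import Vale.Agent.Lib.P302.helper8.Th863.K19

/-!
# P302: chunks of the mask search of the 863-item instance (part 22)
-/

namespace Vale.Agent.Lib.P302.helper8.Th863

open Vale.Agent.Lib.P302.helper14 Vale.Agent.Lib.P302.helper8 Vale.Agent.Lib.P302.helper9

theorem ok_p31_9 : stepOKDR rows prio cap p31_9 lay32
    [833, 576, 832, 832, 833, 770, 770] = true := by
  decide +kernel

theorem ok_p31_10 : stepOKDR rows prio cap p31_10 lay32
    [770, 834, 320, 576, 770, 834] = true := by
  decide +kernel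

theorem ok_p31_11 : stepOKDR rows prio cap p31_11 lay32
    [896, 449, 897, 640, 704, 896] = true := by
  decide +kernel

theorem ok_p31_12 : stepOKDR rows prio cap p31_12 lay32
    [128, 898, 321, 897, 576, 898] = true := by
  decide +kernel

theorem ok_p31_13 : stepOKDR rows prio cap p31_13 lay32
    [960, 512, 961, 960, 640, 704] = true := by
  decide +kernel

theorem ok_p31_14 : stepOKDR rows prio cap p31_14 lay32
    [513, 193, 514, 960, 768, 961] = true := by
  decide +kernel

theorem ok_p31_15 : stepOKDR rows prio cap p31_15 lay32
    [322, 384, 962, 962, 1024, 641] = true := by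
  decide +kernel

theorem ok_p31_16 : stepOKDR rows prio cap p31_16 lay32
    [1024, 641] = true := by
  decide +kernel

theorem ok_p32_0 : stepOKDR rows prio cap p32_0 lay33
    [0, 192, 65, 66, 513, 450] = true := by
  decide +kernel

theorem ok_p32_1 : stepOKDR rows prio cap p32_1 lay33
    [1, 129, 128, 512, 576, 514] = true := by
  decide +kernel

theorem ok_p32_2 : stepOKDR rows prio cap p32_2 lay33
    [130, 193, 640, 641, 194] = true := by
  decide +kernel

theorem ok_p32_3 : stepOKDR rows prio cap p32_3 lay33
    [256, 257, 258, 320, 705, 706] = true := by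
  decide +kernel

theorem ok_p32_4 : stepOKDR rows prio cap p32_4 lay33
    [2, 64, 257, 321, 770, 832] = true := by
  decide +kernel

theorem ok_p32_5 : stepOKDR rows prio cap p32_5 lay33
    [322, 961, 192, 257, 898, 960] = true := by
  decide +kernel

theorem ok_p32_6 : stepOKDR rows prio cap p32_6 lay33
    [384, 962, 448, 449, 450, 512] = true := by
  decide +kernel

theorem ok_p32_7 : stepOKDR rows prio cap p32_7 lay33
    [65, 194, 576, 578, 640, 576] = true := by
  decide +kernel

theorem ok_p32_8 : stepOKDR rows prio cap p32_8 lay33
    [258, 321, 704, 704, 576, 705] = true := by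
  decide +kernel

theorem ok_p32_9 : stepOKDR rows prio cap p32_9 lay33
    [768, 385, 386, 768, 768, 768, 769, 770, 832] = true := by
  decide +kernel

theorem ok_p32_10 : stepOKDR rows prio cap p32_10 lay33
    [448, 896, 449, 896, 834, 833, 834] = true := by
  decide +kernel

theorem ok_p32_11 : stepOKDR rows prio cap p32_11 lay33
    [834, 513, 514, 834, 896, 896, 897] = true := by
  decide +kernel

theorem ok_p32_12 : stepOKDR rows prio cap p32_12 lay33
    [769, 897, 576, 769, 897, 896, 769, 897, 897, 897] = true := by
  decide +kernel

end Vale.Agent.Lib.P302.helper8.Th863
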