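import Mathlib
import Vale.Agent.Lib.P302.helper8.Th863.Base
import Vale.Agent.Lib.P302.helper8.Th863.K20

/-!
# P302: chunks of the mask search of the 863-item instance (part 23)
-/

namespace Vale.Agent.Lib.P302.helper8.Th863

open Vale.Agent.Lib.P302.helper14 Vale.Agent.Lib.P302.helper8 Vale.Agent.Lib.P302.helper9

theorem ok_p32_13 : stepOKDR rows prio cap p32_13 lay33
    [833, 769, 833, 769, 577, 768, 833, 897, 897, 769, 898] = true := by
  decide +kernel

theorem ok_p32_14 : stepOKDR rows prio cap p32_14 lay33
    [578, 641, 642, 834, 896, 768, 960] = true := by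
  decide +kernel

theorem ok_p32_15 : stepOKDR rows prio cap p32_15 lay33
    [448, 961, 704, 706, 834, 896] = true := by
  decide +kernel

theorem ok_p32_16 : stepOKDR rows prio cap p32_16 lay33
    [448, 962] = true := by
  decide +kernel

theorem ok_p33_0 : stepOKDR rows prio cap p33_0 lay34
    [0, 1, 2] = true := by
  decide +kernel

theorem ok_p33_1 : stepOKDR rows prio cap p33_1 lay34
    [130, 64, 128, 65] = true := by
  decide +kernel

theorem ok_p33_2 : stepOKDR rows prio cap p33_2 lay34
    [128, 66, 129] = true := by
  decide +kernel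

theorem ok_p33_3 : stepOKDR rows prio cap p33_3 lay34
    [130, 192, 128] = true := by
  decide +kernel

theorem ok_p33_4 : stepOKDR rows prio cap p33_4 lay34
    [193, 194, 194, 128] = true := by
  decide +kernel

theorem ok_p33_5 : stepOKDR rows prio cap p33_5 lay34
    [257, 448, 256, 194] = true := by
  decide +kernel

theorem ok_p33_6 : stepOKDR rows prio cap p33_6 lay34
    [258, 2, 64, 320, 320] = true := by
  decide +kernel

theorem ok_p33_7 : stepOKDR rows prio cap p33_7 lay34
    [0, 321, 321, 322, 384, 384] = true := by
  decide +kernel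

theorem ok_p33_8 : stepOKDR rows prio cap p33_8 lay34
    [1, 65, 66, 322, 385, 385] = true := by
  decide +kernel

theorem ok_p33_9 : stepOKDR rows prio cap p33_9 lay34
    [128, 130, 320, 384, 385, 386] = true := by
  decide +kernel

theorem ok_p33_10 : stepOKDR rows prio cap p33_10 lay34
    [129, 192, 194, 385, 386, 320] = true := by
  decide +kernel

theorem ok_p33_11 : stepOKDR rows prio cap p33_11 lay34
    [193, 256, 448, 384, 385] = true := by
  decide +kernel

theorem ok_p33_12 : stepOKDR rows prio cap p33_12 lay34
    [2, 450, 449, 449, 449, 450, 450, 512] = true := by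
  decide +kernel

theorem ok_p33_13 : stepOKDR rows prio cap p33_13 lay34
    [64, 513, 449, 384, 513, 512, 512] = true := by
  decide +kernel

theorem ok_p33_14 : stepOKDR rows prio cap p33_14 lay34
    [130, 512, 385, 449, 512, 513] = true := by
  decide +kernel

theorem ok_p33_15 : stepOKDR rows prio cap p33_15 lay34
    [257, 258, 194, 321, 321, 449] = true := by
  decide +kernel

theorem ok_p34_0 : stepOKDR rows prio cap p34_0 lay35
    [0, 1, 2] = true := by
  decide +kernel

theorem ok_p34_1 : stepOKDR rows prio cap p34_1 lay35
    [2, 64, 64] = true := by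
  decide +kernel

end Vale.Agent.Lib.P302.helper8.Th863
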