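import Mathlib
import Vale.Agent.Lib.P302.helper8.Th863.Base
import Vale.Agent.Lib.P302.helper8.Th863.K21

/-!
# P302: chunks of the mask search of the 863-item instance (part 24)
-/

namespace Vale.Agent.Lib.P302.helper8.Th863

open Vale.Agent.Lib.P302.helper14 Vale.Agent.Lib.P302.helper8 Vale.Agent.Lib.P302.helper9

theorem ok_p34_2 : stepOKDR rows prio cap p34_2 lay35
    [2, 64, 65] = true := by
  decide +kernel

theorem ok_p34_3 : stepOKDR rows prio cap p34_3 lay35
    [64, 66, 2] = true := by
  decide +kernel

theorem ok_p34_4 : stepOKDR rows prio cap p34_4 lay35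
    [0, 0, 64] = true := by
  decide +kernel

theorem ok_p34_5 : stepOKDR rows prio cap p34_5 lay35
    [0, 1, 2, 130, 192, 193, 193] = true := by
  decide +kernel

theorem ok_p34_6 : stepOKDR rows prio cap p34_6 lay35
    [64, 65, 193, 193, 256, 194] = true := by
  decide +kernel

theorem ok_p34_7 : stepOKDR rows prio cap p34_7 lay35
    [66, 128, 129, 130, 192, 193, 192] = true := by
  decide +kernel

theorem ok_p34_8 : stepOKDR rows prio cap p34_8 lay35
    [256, 194, 194] = true := by
  decide +kernel

theorem ok_p35_0 : stepOKDR rows prio cap p35_0 lay36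
    [66, 128, 129, 65, 130, 66, 128, 129, 65, 130, 66, 128, 129, 65, 130] = true := by
  decide +kernel

theorem ok_p35_1 : stepOKDR rows prio cap p35_1 lay36
    [128, 66, 128, 129, 65, 130, 0, 66, 128, 129, 65, 130] = true := by
  decide +kernel

theorem ok_p35_2 : stepOKDR rows prio cap p35_2 lay36
    [192, 1, 256, 194, 257, 193, 258, 66, 128, 129, 65, 130] = true := by
  decide +kernel

theorem ok_p35_3 : stepOKDR rows prio cap p35_3 lay36
    [256, 194, 257, 193, 258, 194, 2, 194, 64] = true := by
  decide +kernel

theorem ok_p35_4 : stepOKDR rows prio cap p35_4 lay36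
    [256, 194, 257, 193, 258] = true := by
  decide +kernel

theorem ok_p36_0 : stepOKDR rows prio cap p36_0 lay37
    [66, 128, 65, 129, 66, 128, 65, 129, 192, 193, 130, 194] = true := by
  decide +kernel

theorem ok_p36_1 : stepOKDR rows prio cap p36_1 lay37
    [257, 1, 256, 0, 192, 193, 130, 194] = true := by
  decide +kernel

theorem ok_p36_2 : stepOKDR rows prio cap p36_2 lay37
    [257, 258, 256, 320, 2, 64] = true := by
  decide +kernel

theorem ok_p36_3 : stepOKDR rows prio cap p36_3 lay37
    [257, 258, 256, 320, 257, 258, 256, 320, 130] = true := by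
  decide +kernel

theorem ok_p36_4 : stepOKDR rows prio cap p36_4 lay37
    [257, 258, 320, 192, 193, 194] = true := by
  decide +kernel

theorem ok_p37_0 : stepOKDR rows prio cap p37_0 lay38
    [0, 65, 1, 66, 2, 129, 64] = true := by
  decide +kernel

theorem ok_p37_1 : stepOKDR rows prio cap p37_1 lay38
    [66, 129, 64, 0, 65, 1, 66, 2, 64] = true := by
  decide +kernel

theorem ok_p37_2 : stepOKDR rows prio cap p37_2 lay38
    [65, 66, 2, 129, 64, 0, 1, 2, 64] = true := by
  decide +kernel

theorem ok_p37_3 : stepOKDR rows prio cap p37_3 lay38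
    [65, 1, 66, 2, 129, 64] = true := by
  decide +kernel

end Vale.Agent.Lib.P302.helper8.Th863
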