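import Mathlib
import Vale.Agent.Lib.P302.helper8.Th863.Base
import Vale.Agent.Lib.P302.helper8.Th863.K22

/-!
# P302: chunks of the mask search of the 863-item instance (part 25)
-/

namespace Vale.Agent.Lib.P302.helper8.Th863

open Vale.Agent.Lib.P302.helper14 Vale.Agent.Lib.P302.helper8 Vale.Agent.Lib.P302.helper9

theorem ok_p37_4 : stepOKDR rows prio cap p37_4 lay38
    [130, 128, 256, 192, 257, 193, 258, 194] = true := by
  decide +kernel

theorem ok_p37_5 : stepOKDR rows prio cap p37_5 lay38
    [257, 258, 194] = true := by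
  decide +kernel

theorem ok_p38_0 : stepOKDR rows1 prio1 cap p38_0 lay39
    [0, 2, 1, 64, 65, 66, 128] = true := by
  decide +kernel

theorem ok_p38_1 : stepOKDR rows1 prio1 cap p38_1 lay39
    [64, 65, 129, 66, 128] = true := by
  decide +kernel

theorem ok_p38_2 : stepOKDR rows1 prio1 cap p38_2 lay39
    [192, 130, 129, 128] = true := by
  decide +kernel

theorem ok_p38_3 : stepOKDR rows1 prio1 cap p38_3 lay39
    [193, 194, 256, 257] = true := by
  decide +kernel

theorem ok_p38_4 : stepOKDR rows1 prio1 cap p38_4 lay39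
    [258, 320, 321, 322, 384] = true := by
  decide +kernel

theorem ok_p39_0 : stepOKDR rows1 prio1 cap p39_0 lay40
    [0, 64, 2] = true := by
  decide +kernel

theorem ok_p39_1 : stepOKDR rows1 prio1 cap p39_1 lay40
    [1, 65, 66, 128, 129] = true := by
  decide +kernel

theorem ok_p39_2 : stepOKDR rows1 prio1 cap p39_2 lay40
    [256, 193, 130, 194, 192] = true := by
  decide +kernel

theorem ok_p39_3 : stepOKDR rows1 prio1 cap p39_3 lay40
    [320, 321, 386, 448] = true := by
  decide +kernel

theorem ok_p39_4 : stepOKDR rows1 prio1 cap p39_4 lay40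
    [322, 384, 449, 448, 448] = true := by
  decide +kernel

theorem ok_p39_5 : stepOKDR rows1 prio1 cap p39_5 lay40
    [257, 385, 449, 450, 449] = true := by
  decide +kernel

theorem ok_p39_6 : stepOKDR rows1 prio1 cap p39_6 lay40
    [258, 450] = true := by
  decide +kernel

theorem ok_p40_0 : stepOKDR rows1 prio1 cap p40_0 lay41
    [65, 192, 129, 193] = true := by
  decide +kernel

theorem ok_p40_1 : stepOKDR rows1 prio1 cap p40_1 lay41
    [192, 66, 194, 192, 256] = true := by
  decide +kernel

theorem ok_p40_2 : stepOKDR rows1 prio1 cap p40_2 lay41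
    [0, 128, 256, 257, 256] = true := by
  decide +kernel

theorem ok_p40_3 : stepOKDR rows1 prio1 cap p40_3 lay41
    [1, 64, 2, 258, 258, 257] = true := by
  decide +kernel

theorem ok_p40_4 : stepOKDR rows1 prio1 cap p40_4 lay41
    [448, 577, 448, 130, 320] = true := by
  decide +kernel

theorem ok_p40_5 : stepOKDR rows1 prio1 cap p40_5 lay41
    [322, 321, 513, 450, 514, 512] = true := by
  decide +kernel

theorem ok_p40_6 : stepOKDR rows1 prio1 cap p40_6 lay41
    [386, 385, 449, 513, 512, 576] = true := by
  decide +kernel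

theorem ok_p40_7 : stepOKDR rows1 prio1 cap p40_7 lay41
    [384, 448, 320, 576, 576, 577, 514] = true := by
  decide +kernel

theorem ok_p41_0 : stepOKDR rows1 prio1 cap p41_0 lay42
    [129, 322, 321, 129] = true := by
  decide +kernel

theorem ok_p41_1 : stepOKDR rows1 prio1 cap p41_1 lay42
    [130, 0, 130, 192, 320, 193] = true := by
  decide +kernel

theorem ok_p41_2 : stepOKDR rows1 prio1 cap p41_2 lay42
    [66, 194, 256, 257, 193] = true := by
  decide +kernel

end Vale.Agent.Lib.P302.helper8.Th863
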