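import Mathlib
import Vale.Agent.Lib.P302.helper8.Th863.Base
import Vale.Agent.Lib.P302.helper8.Th863.K23

/-!
# P302: chunks of the mask search of the 863-item instance (part 26)
-/

namespace Vale.Agent.Lib.P302.helper8.Th863

open Vale.Agent.Lib.P302.helper14 Vale.Agent.Lib.P302.helper8 Vale.Agent.Lib.P302.helper9

theorem ok_p41_3 : stepOKDR rows1 prio1 cap p41_3 lay42
    [1, 128, 320, 258, 257, 258] = true := by
  decide +kernel

theorem ok_p41_4 : stepOKDR rows1 prio1 cap p41_4 lay42
    [64, 2, 130, 129, 322, 320, 321] = true := by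
  decide +kernel

theorem ok_p41_5 : stepOKDR rows1 prio1 cap p41_5 lay42
    [641, 640, 65] = true := by
  decide +kernel

theorem ok_p41_6 : stepOKDR rows1 prio1 cap p41_6 lay42
    [513, 512, 384, 449, 513, 512] = true := by
  decide +kernel

theorem ok_p41_7 : stepOKDR rows1 prio1 cap p41_7 lay42
    [514, 642, 256, 577, 577, 578] = true := by
  decide +kernel

theorem ok_p41_8 : stepOKDR rows1 prio1 cap p41_8 lay42
    [386, 385, 448, 513, 512, 641, 640] = true := by
  decide +kernel

theorem ok_p41_9 : stepOKDR rows1 prio1 cap p41_9 lay42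
    [450, 576, 642] = true := by
  decide +kernel

theorem ok_p42_0 : stepOKDR rows1 prio1 cap p42_0 lay43
    [0, 322, 385, 129] = true := by
  decide +kernel

theorem ok_p42_1 : stepOKDR rows1 prio1 cap p42_1 lay43
    [193, 1, 192, 130, 193] = true := by
  decide +kernel

theorem ok_p42_2 : stepOKDR rows1 prio1 cap p42_2 lay43
    [194, 194, 258, 256, 448, 386] = true := by
  decide +kernel

theorem ok_p42_3 : stepOKDR rows1 prio1 cap p42_3 lay43
    [2, 193, 321, 384, 321, 322] = true := by
  decide +kernel

theorem ok_p42_4 : stepOKDR rows1 prio1 cap p42_4 lay43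
    [64, 65, 66, 194, 385] = true := by
  decide +kernel

theorem ok_p42_5 : stepOKDR rows1 prio1 cap p42_5 lay43
    [128, 320, 257, 448, 386] = true := by
  decide +kernel

theorem ok_p42_6 : stepOKDR rows1 prio1 cap p42_6 lay43
    [450, 449, 512, 513, 576, 514] = true := by
  decide +kernel

theorem ok_p42_7 : stepOKDR rows1 prio1 cap p42_7 lay43
    [642, 641, 640] = true := by
  decide +kernel

theorem ok_p42_8 : stepOKDR rows1 prio1 cap p42_8 lay43
    [705, 704, 834, 833, 832, 769] = true := by
  decide +kernel

theorem ok_p42_9 : stepOKDR rows1 prio1 cap p42_9 lay43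
    [577, 578, 770, 832] = true := by
  decide +kernel

theorem ok_p42_10 : stepOKDR rows1 prio1 cap p42_10 lay43
    [642, 768, 706, 834, 833] = true := by
  decide +kernel

theorem ok_p43_0 : stepOKDR rows1 prio1 cap p43_0 lay44
    [0, 65, 2, 66, 64, 129] = true := by
  decide +kernel

theorem ok_p43_1 : stepOKDR rows1 prio1 cap p43_1 lay44
    [1, 194, 193, 256] = true := by
  decide +kernel

theorem ok_p43_2 : stepOKDR rows1 prio1 cap p43_2 lay44
    [320, 258, 257] = true := by
  decide +kernel

theorem ok_p43_3 : stepOKDR rows1 prio1 cap p43_3 lay44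
    [128, 321, 384, 514, 576] = true := by
  decide +kernel

theorem ok_p43_4 : stepOKDR rows1 prio1 cap p43_4 lay44
    [513, 449, 450, 448, 386, 449] = true := by
  decide +kernel

theorem ok_p43_5 : stepOKDR rows1 prio1 cap p43_5 lay44
    [130, 322, 512, 513, 514] = true := by
  decide +kernel

end Vale.Agent.Lib.P302.helper8.Th863
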