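import Mathlib
import Vale.Agent.Lib.P302.helper8.Th863.Base
import Vale.Agent.Lib.P302.helper8.Th863.K24

/-!
# P302: chunks of the mask search of the 863-item instance (part 27)
-/

namespace Vale.Agent.Lib.P302.helper8.Th863

open Vale.Agent.Lib.P302.helper14 Vale.Agent.Lib.P302.helper8 Vale.Agent.Lib.P302.helper9

theorem ok_p43_6 : stepOKDR rows1 prio1 cap p43_6 lay44
    [192, 258, 385, 576] = true := by
  decide +kernel

theorem ok_p43_7 : stepOKDR rows1 prio1 cap p43_7 lay44
    [641, 640, 704, 642, 320] = true := by
  decide +kernel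

theorem ok_p43_8 : stepOKDR rows1 prio1 cap p43_8 lay44
    [577, 706, 706, 768, 832] = true := by
  decide +kernel

theorem ok_p43_9 : stepOKDR rows1 prio1 cap p43_9 lay44
    [834, 770, 833] = true := by
  decide +kernel

theorem ok_p43_10 : stepOKDR rows1 prio1 cap p43_10 lay44
    [578, 769, 705, 896] = true := by
  decide +kernel

theorem ok_p43_11 : stepOKDR rows1 prio1 cap p43_11 lay44
    [1025, 1024, 960, 961, 898, 1024] = true := by
  decide +kernel

theorem ok_p43_12 : stepOKDR rows1 prio1 cap p43_12 lay44
    [897, 962, 1025, 1026, 1026, 1088] = true := by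
  decide +kernel

theorem ok_p43_13 : stepOKDR rows1 prio1 cap p43_13 lay44
    [577, 834, 832, 1026] = true := by
  decide +kernel

theorem ok_p44_0 : stepOKDR rows1 prio1 cap p44_0 lay45
    [65, 128, 66, 129, 194, 256] = true := by
  decide +kernel

theorem ok_p44_1 : stepOKDR rows1 prio1 cap p44_1 lay45
    [1, 0, 257, 257, 194, 258] = true := by
  decide +kernel

theorem ok_p44_2 : stepOKDR rows1 prio1 cap p44_2 lay45
    [320, 321, 322] = true := by
  decide +kernel

theorem ok_p44_3 : stepOKDR rows1 prio1 cap p44_3 lay45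
    [130, 384, 385] = true := by
  decide +kernel

theorem ok_p44_4 : stepOKDR rows1 prio1 cap p44_4 lay45
    [2, 192, 193, 386] = true := by
  decide +kernel

theorem ok_p44_5 : stepOKDR rows1 prio1 cap p44_5 lay45
    [64, 448, 514, 513, 512, 514] = true := by
  decide +kernel

theorem ok_p44_6 : stepOKDR rows1 prio1 cap p44_6 lay45
    [449, 578, 577, 576, 578, 640] = true := by
  decide +kernel

theorem ok_p44_7 : stepOKDR rows1 prio1 cap p44_7 lay45
    [0, 450, 642, 640, 640, 641] = true := by
  decide +kernel

theorem ok_p44_8 : stepOKDR rows1 prio1 cap p44_8 lay45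
    [1, 321, 642, 642, 704] = true := by
  decide +kernel

theorem ok_p44_9 : stepOKDR rows1 prio1 cap p44_9 lay45
    [705, 769, 770, 385] = true := by
  decide +kernel

theorem ok_p44_10 : stepOKDR rows1 prio1 cap p44_10 lay45
    [706, 897, 896, 896, 960, 898] = true := by
  decide +kernel

theorem ok_p44_11 : stepOKDR rows1 prio1 cap p44_11 lay45
    [768, 769, 834, 897, 1024] = true := by
  decide +kernel

theorem ok_p44_12 : stepOKDR rows1 prio1 cap p44_12 lay45
    [961, 1026, 1025] = true := by
  decide +kernel

theorem ok_p44_13 : stepOKDR rows1 prio1 cap p44_13 lay45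
    [833, 832, 962, 1089, 1088] = true := by
  decide +kernel

theorem ok_p44_14 : stepOKDR rows1 prio1 cap p44_14 lay45
    [770, 1026, 1090, 1026, 1154] = true := by
  decide +kernel

theorem ok_p44_15 : stepOKDR rows1 prio1 cap p44_15 lay45
    [1152, 1216, 1216, 1154, 1218, 1217] = true := by
  decide +kernel

end Vale.Agent.Lib.P302.helper8.Th863
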