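import Mathlib
import Vale.Agent.Lib.P302.helper8.Th863.Base
import Vale.Agent.Lib.P302.helper8.Th863.K26

/-!
# P302: chunks of the mask search of the 863-item instance (part 29)
-/

namespace Vale.Agent.Lib.P302.helper8.Th863

open Vale.Agent.Lib.P302.helper14 Vale.Agent.Lib.P302.helper8 Vale.Agent.Lib.P302.helper9

theorem ok_p46_3 : stepOKDR rows1 prio1 cap p46_3 lay47
    [2, 0, 194] = true := by
  decide +kernel

theorem ok_p46_4 : stepOKDR rows1 prio1 cap p46_4 lay47
    [130, 258, 384, 322] = true := by
  decide +kernel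

theorem ok_p46_5 : stepOKDR rows1 prio1 cap p46_5 lay47
    [193, 320, 385, 386] = true := by
  decide +kernel

theorem ok_p46_6 : stepOKDR rows1 prio1 cap p46_6 lay47
    [449, 448, 450] = true := by
  decide +kernel

theorem ok_p46_7 : stepOKDR rows1 prio1 cap p46_7 lay47
    [257, 256, 321] = true := by
  decide +kernel

theorem ok_p46_8 : stepOKDR rows1 prio1 cap p46_8 lay47
    [192, 194, 384, 449, 384] = true := by
  decide +kernel

theorem ok_p46_9 : stepOKDR rows1 prio1 cap p46_9 lay47
    [2, 0, 449] = true := by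
  decide +kernel

theorem ok_p46_10 : stepOKDR rows1 prio1 cap p46_10 lay47
    [130, 193, 512, 513, 384] = true := by
  decide +kernel

theorem ok_p46_11 : stepOKDR rows1 prio1 cap p46_11 lay47
    [640, 770, 769, 641, 642, 640, 770, 769, 641, 642, 449] = true := by
  decide +kernel

theorem ok_p46_12 : stepOKDR rows1 prio1 cap p46_12 lay47
    [705, 704, 640, 770, 769, 641, 642] = true := by
  decide +kernel

theorem ok_p46_13 : stepOKDR rows1 prio1 cap p46_13 lay47
    [576, 514, 577, 705, 704, 706] = true := by
  decide +kernel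

theorem ok_p46_14 : stepOKDR rows1 prio1 cap p46_14 lay47
    [514, 578, 768, 640, 770, 769, 641, 642] = true := by
  decide +kernel

theorem ok_p46_15 : stepOKDR rows1 prio1 cap p46_15 lay47
    [576, 832, 833] = true := by
  decide +kernel

theorem ok_p46_16 : stepOKDR rows1 prio1 cap p46_16 lay47
    [768, 706, 769] = true := by
  decide +kernel

theorem ok_p46_17 : stepOKDR rows1 prio1 cap p46_17 lay47
    [576, 514, 770] = true := by
  decide +kernel

theorem ok_p47_0 : stepOKDR rows1 prio1 cap p47_0 lay48
    [321, 321, 129, 65, 322, 130, 192, 66, 128, 65, 322, 66, 128] = true := by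
  decide +kernel

theorem ok_p47_1 : stepOKDR rows1 prio1 cap p47_1 lay48
    [129, 322, 130, 192, 194, 256] = true := by
  decide +kernel

theorem ok_p47_2 : stepOKDR rows1 prio1 cap p47_2 lay48
    [0, 194, 321, 129, 65, 322, 130, 192, 66, 128] = true := by
  decide +kernel

theorem ok_p47_3 : stepOKDR rows1 prio1 cap p47_3 lay48
    [2, 1, 64, 256, 257, 258] = true := by
  decide +kernel

theorem ok_p47_4 : stepOKDR rows1 prio1 cap p47_4 lay48
    [0, 321, 129, 65, 322, 130, 192, 66, 128] = true := by
  decide +kernel

theorem ok_p47_5 : stepOKDR rows1 prio1 cap p47_5 lay48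
    [2, 193, 384] = true := by
  decide +kernel

theorem ok_p47_6 : stepOKDR rows1 prio1 cap p47_6 lay48
    [257, 320, 385] = true := by
  decide +kernel

theorem ok_p47_7 : stepOKDR rows1 prio1 cap p47_7 lay48
    [258, 321, 322] = true := by
  decide +kernel

theorem ok_p47_8 : stepOKDR rows1 prio1 cap p47_8 lay48
    [512, 642, 704, 513, 514, 0, 2] = true := by
  decide +kernel

end Vale.Agent.Lib.P302.helper8.Th863
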