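import Mathlib
import Vale.Agent.Lib.P302.helper8.Th863.Base
import Vale.Agent.Lib.P302.helper8.Th863.K27

/-!
# P302: chunks of the mask search of the 863-item instance (part 30)
-/

namespace Vale.Agent.Lib.P302.helper8.Th863

open Vale.Agent.Lib.P302.helper14 Vale.Agent.Lib.P302.helper8 Vale.Agent.Lib.P302.helper9

theorem ok_p47_9 : stepOKDR rows1 prio1 cap p47_9 lay48
    [576, 320, 642, 577, 578, 576, 512, 320, 642, 577, 578, 704, 513, 514] = true := by
  decide +kernel

theorem ok_p47_10 : stepOKDR rows1 prio1 cap p47_10 lay48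
    [449, 450, 640, 448, 386, 641] = true := by
  decide +kernel

theorem ok_p47_11 : stepOKDR rows1 prio1 cap p47_11 lay48
    [576, 512, 320, 642, 577, 578, 704, 513, 514, 512, 642, 704, 513, 514] = true := by
  decide +kernel

theorem ok_p47_12 : stepOKDR rows1 prio1 cap p47_12 lay48
    [448, 386, 576, 320, 642, 577, 578] = true := by
  decide +kernel

theorem ok_p47_13 : stepOKDR rows1 prio1 cap p47_13 lay48
    [642, 704] = true := by
  decide +kernel

theorem ok_p48_0 : stepOKDR rows1 prio1 cap p48_0 lay49
    [385, 130, 194, 384, 192, 193, 256, 257, 130, 384, 192, 193] = true := by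
  decide +kernel

theorem ok_p48_1 : stepOKDR rows1 prio1 cap p48_1 lay49
    [64, 65, 385, 194, 384, 256, 257, 258, 320] = true := by
  decide +kernel

theorem ok_p48_2 : stepOKDR rows1 prio1 cap p48_2 lay49
    [66, 128, 1, 321, 258, 2, 322, 320] = true := by
  decide +kernel

theorem ok_p48_3 : stepOKDR rows1 prio1 cap p48_3 lay49
    [129, 321, 2, 322, 130, 384, 192, 193] = true := by
  decide +kernel

theorem ok_p48_4 : stepOKDR rows1 prio1 cap p48_4 lay49
    [385, 194, 384, 256, 257, 385, 130, 194, 384, 192, 193, 256, 257] = true := by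
  decide +kernel

theorem ok_p48_5 : stepOKDR rows1 prio1 cap p48_5 lay49
    [0, 1, 2] = true := by
  decide +kernel

theorem ok_p48_6 : stepOKDR rows1 prio1 cap p48_6 lay49
    [386, 385, 384] = true := by
  decide +kernel

theorem ok_p48_7 : stepOKDR rows1 prio1 cap p48_7 lay49
    [448, 640, 448, 386, 641, 448, 386] = true := by
  decide +kernel

theorem ok_p48_8 : stepOKDR rows1 prio1 cap p48_8 lay49
    [513, 576, 642, 512, 514, 704] = true := by
  decide +kernel

theorem ok_p48_9 : stepOKDR rows1 prio1 cap p48_9 lay49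
    [577, 578, 705, 0, 512, 706] = true := by
  decide +kernel

theorem ok_p48_10 : stepOKDR rows1 prio1 cap p48_10 lay49
    [449, 450, 512] = true := by
  decide +kernel

theorem ok_p48_11 : stepOKDR rows1 prio1 cap p48_11 lay49
    [514] = true := by
  decide +kernel

theorem ok_p49_0 : stepOKDR rows1 prio1 cap p49_0 lay50
    [1, 2, 64] = true := by
  decide +kernel

theorem ok_p49_1 : stepOKDR rows1 prio1 cap p49_1 lay50
    [2, 2, 321, 258, 64, 322, 320, 64] = true := by
  decide +kernel

theorem ok_p49_2 : stepOKDR rows1 prio1 cap p49_2 lay50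
    [0, 130, 322, 64, 384] = true := by
  decide +kernel

theorem ok_p49_3 : stepOKDR rows1 prio1 cap p49_3 lay50
    [256, 193, 384, 386, 192, 385] = true := by
  decide +kernel

theorem ok_p49_4 : stepOKDR rows1 prio1 cap p49_4 lay50
    [65, 257, 194, 386, 192, 448] = true := by
  decide +kernel

theorem ok_p49_5 : stepOKDR rows1 prio1 cap p49_5 lay50
    [128, 129, 66] = true := by
  decide +kernel

theorem ok_p49_6 : stepOKDR rows1 prio1 cap p49_6 lay50
    [449, 194, 192] = true := by
  decide +kernel

end Vale.Agent.Lib.P302.helper8.Th863
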