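import Mathlib
import Vale.Agent.Lib.P302.helper8.Th863.Base
import Vale.Agent.Lib.P302.helper8.Th863.K25

/-!
# P302: chunks of the mask search of the 863-item instance (part 28)
-/

namespace Vale.Agent.Lib.P302.helper8.Th863

open Vale.Agent.Lib.P302.helper14 Vale.Agent.Lib.P302.helper8 Vale.Agent.Lib.P302.helper9

theorem ok_p44_16 : stepOKDR rows1 prio1 cap p44_16 lay45
    [768, 706, 769, 1153, 1216, 1154] = true := by
  decide +kernel

theorem ok_p44_17 : stepOKDR rows1 prio1 cap p44_17 lay45
    [1026] = true := by
  decide +kernel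

theorem ok_p45_0 : stepOKDR rows1 prio1 cap p45_0 lay46
    [1, 0, 128, 65, 66] = true := by
  decide +kernel

theorem ok_p45_1 : stepOKDR rows1 prio1 cap p45_1 lay46
    [2, 129, 256, 256, 257] = true := by
  decide +kernel

theorem ok_p45_2 : stepOKDR rows1 prio1 cap p45_2 lay46
    [64, 321, 321, 322, 385] = true := by
  decide +kernel

theorem ok_p45_3 : stepOKDR rows1 prio1 cap p45_3 lay46
    [65, 193, 384, 386] = true := by
  decide +kernel

theorem ok_p45_4 : stepOKDR rows1 prio1 cap p45_4 lay46
    [128, 194, 449, 448] = true := by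
  decide +kernel

theorem ok_p45_5 : stepOKDR rows1 prio1 cap p45_5 lay46
    [130, 258, 450, 512] = true := by
  decide +kernel

theorem ok_p45_6 : stepOKDR rows1 prio1 cap p45_6 lay46
    [192, 66, 320, 448, 513] = true := by
  decide +kernel

theorem ok_p45_7 : stepOKDR rows1 prio1 cap p45_7 lay46
    [129, 449, 449, 448] = true := by
  decide +kernel

theorem ok_p45_8 : stepOKDR rows1 prio1 cap p45_8 lay46
    [2, 514, 640, 640, 640, 641] = true := by
  decide +kernel

theorem ok_p45_9 : stepOKDR rows1 prio1 cap p45_9 lay46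
    [64, 576, 642, 642, 642, 704] = true := by
  decide +kernel

theorem ok_p45_10 : stepOKDR rows1 prio1 cap p45_10 lay46
    [128, 65, 578, 577, 448] = true := by
  decide +kernel

theorem ok_p45_11 : stepOKDR rows1 prio1 cap p45_11 lay46
    [768, 770, 832, 449] = true := by
  decide +kernel

theorem ok_p45_12 : stepOKDR rows1 prio1 cap p45_12 lay46
    [705, 706, 769, 770, 833, 897] = true := by
  decide +kernel

theorem ok_p45_13 : stepOKDR rows1 prio1 cap p45_13 lay46
    [705, 896, 834] = true := by
  decide +kernel

theorem ok_p45_14 : stepOKDR rows1 prio1 cap p45_14 lay46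
    [833, 832, 960, 898, 1024] = true := by
  decide +kernel

theorem ok_p45_15 : stepOKDR rows1 prio1 cap p45_15 lay46
    [1025, 961, 962] = true := by
  decide +kernel

theorem ok_p45_16 : stepOKDR rows1 prio1 cap p45_16 lay46
    [897, 1088, 1026] = true := by
  decide +kernel

theorem ok_p45_17 : stepOKDR rows1 prio1 cap p45_17 lay46
    [896, 834, 1025, 1024, 1024] = true := by
  decide +kernel

theorem ok_p45_18 : stepOKDR rows1 prio1 cap p45_18 lay46
    [705, 832, 1025, 1089] = true := by
  decide +kernel

theorem ok_p45_19 : stepOKDR rows1 prio1 cap p45_19 lay46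
    [833, 1090, 1025, 1024] = true := by
  decide +kernel

theorem ok_p46_0 : stepOKDR rows1 prio1 cap p46_0 lay47
    [65, 129, 128, 130] = true := by
  decide +kernel

theorem ok_p46_1 : stepOKDR rows1 prio1 cap p46_1 lay47
    [0, 1, 66, 128, 193, 256] = true := by
  decide +kernel

theorem ok_p46_2 : stepOKDR rows1 prio1 cap p46_2 lay47
    [2, 64, 129, 192, 257] = true := by
  decide +kernel

end Vale.Agent.Lib.P302.helper8.Th863
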