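import Mathlib
import Vale.Agent.Lib.P302.helper8.Th863.Base
import Vale.Agent.Lib.P302.helper8.Th863.K28

/-!
# P302: chunks of the mask search of the 863-item instance (part 31)
-/

namespace Vale.Agent.Lib.P302.helper8.Th863

open Vale.Agent.Lib.P302.helper14 Vale.Agent.Lib.P302.helper8 Vale.Agent.Lib.P302.helper9

theorem ok_p49_7 : stepOKDR rows1 prio1 cap p49_7 lay50
    [514, 512, 576, 705, 706] = true := by
  decide +kernel

theorem ok_p49_8 : stepOKDR rows1 prio1 cap p49_8 lay50
    [577, 640, 768, 577, 640, 770] = true := by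
  decide +kernel

theorem ok_p49_9 : stepOKDR rows1 prio1 cap p49_9 lay50
    [769, 1, 577, 832, 770, 1, 577, 640] = true := by
  decide +kernel

theorem ok_p49_10 : stepOKDR rows1 prio1 cap p49_10 lay50
    [450, 513, 578] = true := by
  decide +kernel

theorem ok_p49_11 : stepOKDR rows1 prio1 cap p49_11 lay50
    [642, 704, 641] = true := by
  decide +kernel

theorem ok_p50_0 : stepOKDR rows1 prio1 cap p50_0 lay51
    [0, 1, 194] = true := by
  decide +kernel

theorem ok_p50_1 : stepOKDR rows1 prio1 cap p50_1 lay51
    [66, 2, 128, 384, 385] = true := by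
  decide +kernel

theorem ok_p50_2 : stepOKDR rows1 prio1 cap p50_2 lay51
    [192, 193, 386, 448, 449, 257, 450] = true := by
  decide +kernel

theorem ok_p50_3 : stepOKDR rows1 prio1 cap p50_3 lay51
    [320, 257, 450, 257] = true := by
  decide +kernel

theorem ok_p50_4 : stepOKDR rows1 prio1 cap p50_4 lay51
    [64, 320, 320, 512, 257, 513, 257] = true := by
  decide +kernel

theorem ok_p50_5 : stepOKDR rows1 prio1 cap p50_5 lay51
    [129, 130, 65] = true := by
  decide +kernel

theorem ok_p50_6 : stepOKDR rows1 prio1 cap p50_6 lay51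
    [256, 321, 258] = true := by
  decide +kernel

theorem ok_p50_7 : stepOKDR rows1 prio1 cap p50_7 lay51
    [769, 768, 322] = true := by
  decide +kernel

theorem ok_p50_8 : stepOKDR rows1 prio1 cap p50_8 lay51
    [832, 770, 834] = true := by
  decide +kernel

theorem ok_p50_9 : stepOKDR rows1 prio1 cap p50_9 lay51
    [640, 577, 833, 896] = true := by
  decide +kernel

theorem ok_p50_10 : stepOKDR rows1 prio1 cap p50_10 lay51
    [705, 641, 642, 898, 897] = true := by
  decide +kernel

theorem ok_p50_11 : stepOKDR rows1 prio1 cap p50_11 lay51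
    [706, 832, 833, 960] = true := by
  decide +kernel

theorem ok_p50_12 : stepOKDR rows1 prio1 cap p50_12 lay51
    [576, 514, 578] = true := by
  decide +kernel

theorem ok_p50_13 : stepOKDR rows1 prio1 cap p50_13 lay51
    [704] = true := by
  decide +kernel

theorem ok_p51_0 : stepOKDR rows1 prio1 cap p51_0 lay52
    [129, 130, 256] = true := by
  decide +kernel

theorem ok_p51_1 : stepOKDR rows1 prio1 cap p51_1 lay52
    [257, 258, 321] = true := by
  decide +kernel

theorem ok_p51_2 : stepOKDR rows1 prio1 cap p51_2 lay52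
    [322, 320, 386] = true := by
  decide +kernel

theorem ok_p51_3 : stepOKDR rows1 prio1 cap p51_3 lay52
    [448, 384, 385] = true := by
  decide +kernel

theorem ok_p51_4 : stepOKDR rows1 prio1 cap p51_4 lay52
    [2, 64, 65, 449, 450] = true := by
  decide +kernel

theorem ok_p51_5 : stepOKDR rows1 prio1 cap p51_5 lay52
    [66, 193, 194, 512, 513] = true := by
  decide +kernel

end Vale.Agent.Lib.P302.helper8.Th863
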