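import Mathlib
import Vale.Agent.Lib.P302.helper8.Th863.Base
import Vale.Agent.Lib.P302.helper8.Th863.K29

/-!
# P302: chunks of the mask search of the 863-item instance (part 32)
-/

namespace Vale.Agent.Lib.P302.helper8.Th863

open Vale.Agent.Lib.P302.helper14 Vale.Agent.Lib.P302.helper8 Vale.Agent.Lib.P302.helper9

theorem ok_p51_6 : stepOKDR rows1 prio1 cap p51_6 lay52
    [384, 258, 320] = true := by
  decide +kernel

theorem ok_p51_7 : stepOKDR rows1 prio1 cap p51_7 lay52
    [0, 1, 385] = true := by
  decide +kernel

theorem ok_p51_8 : stepOKDR rows1 prio1 cap p51_8 lay52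
    [128, 577, 192] = true := by
  decide +kernel

theorem ok_p51_9 : stepOKDR rows1 prio1 cap p51_9 lay52
    [578, 640, 768] = true := by
  decide +kernel

theorem ok_p51_10 : stepOKDR rows1 prio1 cap p51_10 lay52
    [641, 642, 704] = true := by
  decide +kernel

theorem ok_p51_11 : stepOKDR rows1 prio1 cap p51_11 lay52
    [705, 706, 769] = true := by
  decide +kernel

theorem ok_p51_12 : stepOKDR rows1 prio1 cap p51_12 lay52
    [832, 833, 770] = true := by
  decide +kernel

theorem ok_p51_13 : stepOKDR rows1 prio1 cap p51_13 lay52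
    [514, 576, 832, 834, 833, 770, 834, 833, 770] = true := by
  decide +kernel

theorem ok_p51_14 : stepOKDR rows1 prio1 cap p51_14 lay52
    [705, 641, 704] = true := by
  decide +kernel

theorem ok_p51_15 : stepOKDR rows1 prio1 cap p51_15 lay52
    [706] = true := by
  decide +kernel

theorem ok_p52_0 : stepOKDR rows1 prio1 cap p52_0 lay53
    [65, 66, 130] = true := by
  decide +kernel

theorem ok_p52_1 : stepOKDR rows1 prio1 cap p52_1 lay53
    [192, 128, 129] = true := by
  decide +kernel

theorem ok_p52_2 : stepOKDR rows1 prio1 cap p52_2 lay53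
    [193, 194, 256] = true := by
  decide +kernel

theorem ok_p52_3 : stepOKDR rows1 prio1 cap p52_3 lay53
    [257, 258, 320] = true := by
  decide +kernel

theorem ok_p52_4 : stepOKDR rows1 prio1 cap p52_4 lay53
    [0, 256, 322, 322, 321, 321, 384] = true := by
  decide +kernel

theorem ok_p52_5 : stepOKDR rows1 prio1 cap p52_5 lay53
    [1, 256, 385, 384, 384, 321] = true := by
  decide +kernel

theorem ok_p52_6 : stepOKDR rows1 prio1 cap p52_6 lay53
    [2, 64, 385, 386, 321, 386, 321] = true := by
  decide +kernel

theorem ok_p52_7 : stepOKDR rows1 prio1 cap p52_7 lay53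
    [66, 129, 448] = true := by
  decide +kernel

theorem ok_p52_8 : stepOKDR rows1 prio1 cap p52_8 lay53
    [514, 257, 258] = true := by
  decide +kernel

theorem ok_p52_9 : stepOKDR rows1 prio1 cap p52_9 lay53
    [768, 577, 576] = true := by
  decide +kernel

theorem ok_p52_10 : stepOKDR rows1 prio1 cap p52_10 lay53
    [449, 576, 578, 641, 578, 641, 640] = true := by
  decide +kernel

theorem ok_p52_11 : stepOKDR rows1 prio1 cap p52_11 lay53
    [512, 513, 450, 577, 194, 578, 642, 640, 194, 578, 641] = true := by
  decide +kernel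

theorem ok_p52_12 : stepOKDR rows1 prio1 cap p52_12 lay53
    [642, 640, 704] = true := by
  decide +kernel

theorem ok_p52_13 : stepOKDR rows1 prio1 cap p52_13 lay53
    [705, 706, 768] = true := by
  decide +kernel

theorem ok_p53_0 : stepOKDR rows1 prio1 cap p53_0 lay54
    [66, 65, 321] = true := by
  decide +kernel

end Vale.Agent.Lib.P302.helper8.Th863
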