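import Mathlib
import Vale.Agent.Lib.P302.helper8.Th863.Base
import Vale.Agent.Lib.P302.helper8.Th863.K30

/-!
# P302: chunks of the mask search of the 863-item instance (part 33)
-/

namespace Vale.Agent.Lib.P302.helper8.Th863

open Vale.Agent.Lib.P302.helper14 Vale.Agent.Lib.P302.helper8 Vale.Agent.Lib.P302.helper9

theorem ok_p53_1 : stepOKDR rows1 prio1 cap p53_1 lay54
    [0, 384, 128, 128, 130, 129] = true := by
  decide +kernel

theorem ok_p53_2 : stepOKDR rows1 prio1 cap p53_2 lay54
    [1, 129, 130, 129, 130] = true := by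
  decide +kernel

theorem ok_p53_3 : stepOKDR rows1 prio1 cap p53_3 lay54
    [192, 193, 194] = true := by
  decide +kernel

theorem ok_p53_4 : stepOKDR rows1 prio1 cap p53_4 lay54
    [2, 64, 192, 192, 193, 256, 130, 257, 130] = true := by
  decide +kernel

theorem ok_p53_5 : stepOKDR rows1 prio1 cap p53_5 lay54
    [257, 320, 258] = true := by
  decide +kernel

theorem ok_p53_6 : stepOKDR rows1 prio1 cap p53_6 lay54
    [322, 384, 321] = true := by
  decide +kernel

theorem ok_p53_7 : stepOKDR rows1 prio1 cap p53_7 lay54
    [386, 578, 385] = true := by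
  decide +kernel

theorem ok_p53_8 : stepOKDR rows1 prio1 cap p53_8 lay54
    [448, 640, 449, 641] = true := by
  decide +kernel

theorem ok_p53_9 : stepOKDR rows1 prio1 cap p53_9 lay54
    [514, 513, 576] = true := by
  decide +kernel

theorem ok_p53_10 : stepOKDR rows1 prio1 cap p53_10 lay54
    [577, 640, 578] = true := by
  decide +kernel

theorem ok_p53_11 : stepOKDR rows1 prio1 cap p53_11 lay54
    [512, 450, 641] = true := by
  decide +kernel

theorem ok_p53_12 : stepOKDR rows1 prio1 cap p53_12 lay54
    [642] = true := by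
  decide +kernel

theorem ok_p54_0 : stepOKDR rows1 prio1 cap p54_0 lay55
    [0, 64, 193] = true := by
  decide +kernel

theorem ok_p54_1 : stepOKDR rows1 prio1 cap p54_1 lay55
    [257, 66, 65, 321, 258] = true := by
  decide +kernel

theorem ok_p54_2 : stepOKDR rows1 prio1 cap p54_2 lay55
    [130, 192, 193] = true := by
  decide +kernel

theorem ok_p54_3 : stepOKDR rows1 prio1 cap p54_3 lay55
    [1, 194, 256] = true := by
  decide +kernel

theorem ok_p54_4 : stepOKDR rows1 prio1 cap p54_4 lay55
    [2, 129, 257] = true := by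
  decide +kernel

theorem ok_p54_5 : stepOKDR rows1 prio1 cap p54_5 lay55
    [321, 258, 320] = true := by
  decide +kernel

theorem ok_p54_6 : stepOKDR rows1 prio1 cap p54_6 lay55
    [384, 514, 128, 322] = true := by
  decide +kernel

theorem ok_p54_7 : stepOKDR rows1 prio1 cap p54_7 lay55
    [385, 576, 449, 450] = true := by
  decide +kernel

theorem ok_p54_8 : stepOKDR rows1 prio1 cap p54_8 lay55
    [512, 576, 514] = true := by
  decide +kernel

theorem ok_p54_9 : stepOKDR rows1 prio1 cap p54_9 lay55
    [386, 448, 577] = true := by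
  decide +kernel

theorem ok_p54_10 : stepOKDR rows1 prio1 cap p54_10 lay55
    [450, 513, 578] = true := by
  decide +kernel

theorem ok_p55_0 : stepOKDR rows1 prio1 cap p55_0 lay56
    [1, 2, 0, 256] = true := by
  decide +kernel

theorem ok_p55_1 : stepOKDR rows1 prio1 cap p55_1 lay56
    [64, 258, 192, 129] = true := by
  decide +kernel

end Vale.Agent.Lib.P302.helper8.Th863
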