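import Mathlib
import Vale.Agent.Lib.P302.helper8.Th863.Base
import Vale.Agent.Lib.P302.helper8.Th863.K31

/-!
# P302: chunks of the mask search of the 863-item instance (part 34)
-/

namespace Vale.Agent.Lib.P302.helper8.Th863

open Vale.Agent.Lib.P302.helper14 Vale.Agent.Lib.P302.helper8 Vale.Agent.Lib.P302.helper9

theorem ok_p55_2 : stepOKDR rows1 prio1 cap p55_2 lay56
    [194, 128, 256] = true := by
  decide +kernel

theorem ok_p55_3 : stepOKDR rows1 prio1 cap p55_3 lay56
    [66, 65, 257] = true := by
  decide +kernel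

theorem ok_p55_4 : stepOKDR rows1 prio1 cap p55_4 lay56
    [129, 258, 320] = true := by
  decide +kernel

theorem ok_p55_5 : stepOKDR rows1 prio1 cap p55_5 lay56
    [192, 193, 130] = true := by
  decide +kernel

theorem ok_p55_6 : stepOKDR rows1 prio1 cap p55_6 lay56
    [384, 322, 321] = true := by
  decide +kernel

theorem ok_p55_7 : stepOKDR rows1 prio1 cap p55_7 lay56
    [386, 450, 449, 449, 512] = true := by
  decide +kernel

theorem ok_p55_8 : stepOKDR rows1 prio1 cap p55_8 lay56
    [321, 450, 512] = true := by
  decide +kernel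

theorem ok_p55_9 : stepOKDR rows1 prio1 cap p55_9 lay56
    [322, 448, 385] = true := by
  decide +kernel

theorem ok_p56_0 : stepOKDR rows1 prio1 cap p56_0 lay57
    [128, 129, 1] = true := by
  decide +kernel

theorem ok_p56_1 : stepOKDR rows1 prio1 cap p56_1 lay57
    [65, 64, 66] = true := by
  decide +kernel

theorem ok_p56_2 : stepOKDR rows1 prio1 cap p56_2 lay57
    [129, 192, 192, 193] = true := by
  decide +kernel

theorem ok_p56_3 : stepOKDR rows1 prio1 cap p56_3 lay57
    [0, 192, 194] = true := by
  decide +kernel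

theorem ok_p56_4 : stepOKDR rows1 prio1 cap p56_4 lay57
    [1, 66, 2] = true := by
  decide +kernel

theorem ok_p56_5 : stepOKDR rows1 prio1 cap p56_5 lay57
    [128, 320, 384, 321, 322, 130] = true := by
  decide +kernel

theorem ok_p56_6 : stepOKDR rows1 prio1 cap p56_6 lay57
    [320, 321, 322] = true := by
  decide +kernel

theorem ok_p56_7 : stepOKDR rows1 prio1 cap p56_7 lay57
    [258, 257, 384] = true := by
  decide +kernel

theorem ok_p56_8 : stepOKDR rows1 prio1 cap p56_8 lay57
    [256, 385] = true := by
  decide +kernel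

theorem ok_p57_0 : stepOKDR rows1 prio1 cap p57_0 lay58
    [65, 128, 129] = true := by
  decide +kernel

theorem ok_p57_1 : stepOKDR rows1 prio1 cap p57_1 lay58
    [130, 130, 128, 128, 192] = true := by
  decide +kernel

theorem ok_p57_2 : stepOKDR rows1 prio1 cap p57_2 lay58
    [2, 64, 192] = true := by
  decide +kernel

theorem ok_p57_3 : stepOKDR rows1 prio1 cap p57_3 lay58
    [1, 0, 66, 194, 193] = true := by
  decide +kernel

theorem ok_p57_4 : stepOKDR rows1 prio1 cap p57_4 lay58
    [258, 258, 384, 322] = true := by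
  decide +kernel

theorem ok_p57_5 : stepOKDR rows1 prio1 cap p57_5 lay58
    [256, 320, 321, 385] = true := by
  decide +kernel

theorem ok_p57_6 : stepOKDR rows1 prio1 cap p57_6 lay58
    [257, 258, 386, 448] = true := by
  decide +kernel

theorem ok_p58_0 : stepOKDR rows1 prio1 cap p58_0 lay59
    [64, 2, 64, 2, 65] = true := by
  decide +kernel

end Vale.Agent.Lib.P302.helper8.Th863
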