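import Mathlib
import Vale.Agent.Lib.P302.helper8.Th863.Base
import Vale.Agent.Lib.P302.helper8.Th863.K32

/-!
# P302: chunks of the mask search of the 863-item instance (part 35)
-/

namespace Vale.Agent.Lib.P302.helper8.Th863

open Vale.Agent.Lib.P302.helper14 Vale.Agent.Lib.P302.helper8 Vale.Agent.Lib.P302.helper9

theorem ok_p58_1 : stepOKDR rows1 prio1 cap p58_1 lay59
    [66, 192, 130] = true := by
  decide +kernel

theorem ok_p58_2 : stepOKDR rows1 prio1 cap p58_2 lay59
    [0, 129, 128, 193] = true := by
  decide +kernel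

theorem ok_p58_3 : stepOKDR rows1 prio1 cap p58_3 lay59
    [1, 64, 2, 194, 257, 256] = true := by
  decide +kernel

theorem ok_p58_4 : stepOKDR rows1 prio1 cap p58_4 lay59
    [320, 258, 320, 258, 321, 322] = true := by
  decide +kernel

theorem ok_p58_5 : stepOKDR rows1 prio1 cap p58_5 lay59
    [384, 385, 386] = true := by
  decide +kernel

theorem ok_p58_6 : stepOKDR rows1 prio1 cap p58_6 lay59
    [320, 258, 448, 450, 449] = true := by
  decide +kernel

theorem ok_p58_7 : stepOKDR rows1 prio1 cap p58_7 lay59
    [321] = true := by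
  decide +kernel

theorem ok_p59_0 : stepOKDR rows1 prio1 cap p59_0 lay60
    [0, 1, 0, 1, 2, 65] = true := by
  decide +kernel

theorem ok_p59_1 : stepOKDR rows1 prio1 cap p59_1 lay60
    [64, 66, 130, 192] = true := by
  decide +kernel

theorem ok_p59_2 : stepOKDR rows1 prio1 cap p59_2 lay60
    [129, 128, 193] = true := by
  decide +kernel

theorem ok_p59_3 : stepOKDR rows1 prio1 cap p59_3 lay60
    [0, 1, 194, 256, 257] = true := by
  decide +kernel

theorem ok_p59_4 : stepOKDR rows1 prio1 cap p59_4 lay60
    [258, 321, 64, 2] = true := by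
  decide +kernel

theorem ok_p59_5 : stepOKDR rows1 prio1 cap p59_5 lay60
    [320, 322, 385, 386, 448, 384, 449, 385, 386, 448, 384, 449] = true := by
  decide +kernel

theorem ok_p59_6 : stepOKDR rows1 prio1 cap p59_6 lay60
    [384, 450, 512] = true := by
  decide +kernel

theorem ok_p59_7 : stepOKDR rows1 prio1 cap p59_7 lay60
    [320, 258, 448] = true := by
  decide +kernel

theorem ok_p60_0 : stepOKDR rows1 prio1 cap p60_0 lay61
    [1, 2, 65, 66, 128, 130, 192, 129, 193] = true := by
  decide +kernel

theorem ok_p60_1 : stepOKDR rows1 prio1 cap p60_1 lay61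
    [65, 194, 256, 129, 257, 194, 130, 256, 192, 129, 257, 193] = true := by
  decide +kernel

theorem ok_p60_2 : stepOKDR rows1 prio1 cap p60_2 lay61
    [64, 320, 258] = true := by
  decide +kernel

theorem ok_p60_3 : stepOKDR rows1 prio1 cap p60_3 lay61
    [0, 65, 129] = true := by
  decide +kernel

theorem ok_p60_4 : stepOKDR rows1 prio1 cap p60_4 lay61
    [384, 386, 449, 450, 512, 1, 2] = true := by
  decide +kernel

theorem ok_p60_5 : stepOKDR rows1 prio1 cap p60_5 lay61
    [385, 448, 64, 449, 513, 385, 384, 448, 386, 64, 449, 513, 450, 512] = true := by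
  decide +kernel

theorem ok_p60_6 : stepOKDR rows1 prio1 cap p60_6 lay61
    [321, 514, 322, 321, 576, 577, 322, 321, 578] = true := by
  decide +kernel

theorem ok_p60_7 : stepOKDR rows1 prio1 cap p60_7 lay61
    [322, 449, 576, 578, 322, 321] = true := by
  decide +kernel

theorem ok_p60_8 : stepOKDR rows1 prio1 cap p60_8 lay61
    [450] = true := by
  decide +kernel

theorem ok_p61_0 : stepOKDR rows1 prio1 cap p61_0 lay62
    [64, 65, 130, 192, 66, 193, 128, 129, 194] = true := by
  decide +kernel

end Vale.Agent.Lib.P302.helper8.Th863
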