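import Mathlib
import Vale.Agent.Lib.P302.helper8.Th863.Base
import Vale.Agent.Lib.P302.helper8.Th863.K33

/-!
# P302: chunks of the mask search of the 863-item instance (part 36)
-/

namespace Vale.Agent.Lib.P302.helper8.Th863

open Vale.Agent.Lib.P302.helper14 Vale.Agent.Lib.P302.helper8 Vale.Agent.Lib.P302.helper9

theorem ok_p61_1 : stepOKDR rows1 prio1 cap p61_1 lay62
    [0, 1, 65, 66, 128, 129] = true := by
  decide +kernel

theorem ok_p61_2 : stepOKDR rows1 prio1 cap p61_2 lay62
    [2, 1, 130, 192, 193, 128, 194, 256, 2, 257] = true := by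
  decide +kernel

theorem ok_p61_3 : stepOKDR rows1 prio1 cap p61_3 lay62
    [1, 1, 321, 256, 2, 322, 257, 258, 2, 320, 2] = true := by
  decide +kernel

theorem ok_p61_4 : stepOKDR rows1 prio1 cap p61_4 lay62
    [128, 321, 322, 384, 2, 385, 2] = true := by
  decide +kernel

theorem ok_p61_5 : stepOKDR rows1 prio1 cap p61_5 lay62
    [513, 449, 192] = true := by
  decide +kernel

theorem ok_p61_6 : stepOKDR rows1 prio1 cap p61_6 lay62
    [577, 576, 0, 386, 640, 448, 578, 641, 386, 448, 704] = true := by
  decide +kernel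

theorem ok_p61_7 : stepOKDR rows1 prio1 cap p61_7 lay62
    [386, 448, 577, 642, 0, 386, 705] = true := by
  decide +kernel

theorem ok_p61_8 : stepOKDR rows1 prio1 cap p61_8 lay62
    [450, 640, 578, 705, 704, 0, 386, 448] = true := by
  decide +kernel

theorem ok_p61_9 : stepOKDR rows1 prio1 cap p61_9 lay62
    [512, 450, 514] = true := by
  decide +kernel

theorem ok_p62_0 : stepOKDR rows1 prio1 cap p62_0 lay63
    [2, 64, 66] = true := by
  decide +kernel

theorem ok_p62_1 : stepOKDR rows1 prio1 cap p62_1 lay63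
    [65, 256, 0, 257, 258, 0, 320] = true := by
  decide +kernel

theorem ok_p62_2 : stepOKDR rows1 prio1 cap p62_2 lay63
    [0, 1, 321, 0, 257, 322, 320, 0] = true := by
  decide +kernel

theorem ok_p62_3 : stepOKDR rows1 prio1 cap p62_3 lay63
    [1, 321, 322, 1, 1, 384, 0, 385, 0] = true := by
  decide +kernel

theorem ok_p62_4 : stepOKDR rows1 prio1 cap p62_4 lay63
    [128, 129, 128] = true := by
  decide +kernel

theorem ok_p62_5 : stepOKDR rows1 prio1 cap p62_5 lay63
    [130, 130, 193] = true := by
  decide +kernel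

theorem ok_p62_6 : stepOKDR rows1 prio1 cap p62_6 lay63
    [512, 192, 194] = true := by
  decide +kernel

theorem ok_p62_7 : stepOKDR rows1 prio1 cap p62_7 lay63
    [513, 514, 577] = true := by
  decide +kernel

theorem ok_p62_8 : stepOKDR rows1 prio1 cap p62_8 lay63
    [576, 578, 578, 640] = true := by
  decide +kernel

theorem ok_p62_9 : stepOKDR rows1 prio1 cap p62_9 lay63
    [448, 386, 386] = true := by
  decide +kernel

theorem ok_p62_10 : stepOKDR rows1 prio1 cap p62_10 lay63
    [450, 449, 448] = true := by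
  decide +kernel

theorem ok_p62_11 : stepOKDR rows1 prio1 cap p62_11 lay63
    [642, 641] = true := by
  decide +kernel

theorem ok_p63_0 : stepOKDR rows1 prio1 cap p63_0 lay64
    [1, 129, 66] = true := by
  decide +kernel

theorem ok_p63_1 : stepOKDR rows1 prio1 cap p63_1 lay64
    [0, 2, 192] = true := by
  decide +kernel

theorem ok_p63_2 : stepOKDR rows1 prio1 cap p63_2 lay64
    [256, 193, 194] = true := by
  decide +kernel

end Vale.Agent.Lib.P302.helper8.Th863
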