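import Mathlib
import Vale.Agent.Lib.P302.helper8.Th863.Base
import Vale.Agent.Lib.P302.helper8.Th863.K34

/-!
# P302: chunks of the mask search of the 863-item instance (part 37)
-/

namespace Vale.Agent.Lib.P302.helper8.Th863

open Vale.Agent.Lib.P302.helper14 Vale.Agent.Lib.P302.helper8 Vale.Agent.Lib.P302.helper9

theorem ok_p63_3 : stepOKDR rows1 prio1 cap p63_3 lay64
    [257, 257, 194, 320, 258] = true := by
  decide +kernel

theorem ok_p63_4 : stepOKDR rows1 prio1 cap p63_4 lay64
    [64, 65, 64] = true := by
  decide +kernel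

theorem ok_p63_5 : stepOKDR rows1 prio1 cap p63_5 lay64
    [128, 128, 321] = true := by
  decide +kernel

theorem ok_p63_6 : stepOKDR rows1 prio1 cap p63_6 lay64
    [512, 130, 322] = true := by
  decide +kernel

theorem ok_p63_7 : stepOKDR rows1 prio1 cap p63_7 lay64
    [513, 576, 514] = true := by
  decide +kernel

theorem ok_p63_8 : stepOKDR rows1 prio1 cap p63_8 lay64
    [384, 449, 450] = true := by
  decide +kernel

theorem ok_p63_9 : stepOKDR rows1 prio1 cap p63_9 lay64
    [385, 386, 448] = true := by
  decide +kernel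

theorem ok_p63_10 : stepOKDR rows1 prio1 cap p63_10 lay64
    [386, 576, 514, 578, 577] = true := by
  decide +kernel

theorem ok_p64_0 : stepOKDR rows1 prio1 cap p64_0 lay65
    [0, 1, 129] = true := by
  decide +kernel

theorem ok_p64_1 : stepOKDR rows1 prio1 cap p64_1 lay65
    [130, 193, 194] = true := by
  decide +kernel

theorem ok_p64_2 : stepOKDR rows1 prio1 cap p64_2 lay65
    [192, 256, 257] = true := by
  decide +kernel

theorem ok_p64_3 : stepOKDR rows1 prio1 cap p64_3 lay65
    [64, 65, 2] = true := by
  decide +kernel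

theorem ok_p64_4 : stepOKDR rows1 prio1 cap p64_4 lay65
    [66, 128, 65] = true := by
  decide +kernel

theorem ok_p64_5 : stepOKDR rows1 prio1 cap p64_5 lay65
    [128, 194, 257, 258, 320] = true := by
  decide +kernel

theorem ok_p64_6 : stepOKDR rows1 prio1 cap p64_6 lay65
    [321, 512, 322, 321] = true := by
  decide +kernel

theorem ok_p64_7 : stepOKDR rows1 prio1 cap p64_7 lay65
    [322, 449, 450] = true := by
  decide +kernel

theorem ok_p64_8 : stepOKDR rows1 prio1 cap p64_8 lay65
    [385, 384, 386] = true := by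
  decide +kernel

theorem ok_p64_9 : stepOKDR rows1 prio1 cap p64_9 lay65
    [448, 448, 386] = true := by
  decide +kernel

theorem ok_p65_0 : stepOKDR rows1 prio1 cap p65_0 lay66
    [0, 1, 2] = true := by
  decide +kernel

theorem ok_p65_1 : stepOKDR rows1 prio1 cap p65_1 lay66
    [1, 194, 193, 2] = true := by
  decide +kernel

theorem ok_p65_2 : stepOKDR rows1 prio1 cap p65_2 lay66
    [64, 128, 194, 2] = true := by
  decide +kernel

theorem ok_p65_3 : stepOKDR rows1 prio1 cap p65_3 lay66
    [65, 130, 66] = true := by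
  decide +kernel

theorem ok_p65_4 : stepOKDR rows1 prio1 cap p65_4 lay66
    [129, 192, 66] = true := by
  decide +kernel

theorem ok_p65_5 : stepOKDR rows1 prio1 cap p65_5 lay66
    [321, 258, 192] = true := by
  decide +kernel

theorem ok_p65_6 : stepOKDR rows1 prio1 cap p65_6 lay66
    [384, 322, 256, 257] = true := by
  decide +kernel

end Vale.Agent.Lib.P302.helper8.Th863
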