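import Mathlib
import Vale.Agent.Lib.P302.helper8.Th863.Base
import Vale.Agent.Lib.P302.helper8.Th863.K36

/-!
# P302: chunks of the mask search of the 863-item instance (part 39)
-/

namespace Vale.Agent.Lib.P302.helper8.Th863

open Vale.Agent.Lib.P302.helper14 Vale.Agent.Lib.P302.helper8 Vale.Agent.Lib.P302.helper9

theorem ok_p69_4 : stepOKDR rows1 prio1 cap p69_4 lay70
    [131, 130, 131, 130] = true := by
  decide +kernel

theorem ok_p69_5 : stepOKDR rows1 prio1 cap p69_5 lay70
    [192, 193, 195, 193, 194] = true := by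
  decide +kernel

theorem ok_p69_6 : stepOKDR rows1 prio1 cap p69_6 lay70
    [194] = true := by
  decide +kernel

theorem ok_p70_0 : stepOKDR rows2 prio2 cap p70_0 lay71
    [0, 1, 64, 2] = true := by
  decide +kernel

theorem ok_p70_1 : stepOKDR rows2 prio2 cap p70_1 lay71
    [65, 2, 66, 67, 128, 65] = true := by
  decide +kernel

theorem ok_p70_2 : stepOKDR rows2 prio2 cap p70_2 lay71
    [3, 193, 192, 66] = true := by
  decide +kernel

theorem ok_p70_3 : stepOKDR rows2 prio2 cap p70_3 lay71
    [129, 130, 131, 0, 130] = true := by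
  decide +kernel

theorem ok_p71_0 : stepOKDR rows2 prio2 cap p71_0 lay72
    [65, 64, 65, 67, 66] = true := by
  decide +kernel

theorem ok_p71_1 : stepOKDR rows2 prio2 cap p71_1 lay72
    [0, 3, 1, 128] = true := by
  decide +kernel

theorem ok_p71_2 : stepOKDR rows2 prio2 cap p71_2 lay72
    [129, 131, 2, 130, 131] = true := by
  decide +kernel

theorem ok_p71_3 : stepOKDR rows2 prio2 cap p71_3 lay72
    [193, 192] = true := by
  decide +kernel

theorem ok_p72_0 : stepOKDR rows2 prio2 cap p72_0 lay73
    [0, 2, 1, 65, 1] = true := by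
  decide +kernel

theorem ok_p72_1 : stepOKDR rows2 prio2 cap p72_1 lay73
    [3, 64, 64, 66, 66] = true := by
  decide +kernel

theorem ok_p72_2 : stepOKDR rows2 prio2 cap p72_2 lay73
    [128, 128, 129, 129, 67] = true := by
  decide +kernel

theorem ok_p72_3 : stepOKDR rows2 prio2 cap p72_3 lay73
    [130, 131] = true := by
  decide +kernel

theorem ok_p73_0 : stepOKDR rows2 prio2 cap p73_0 lay74
    [3, 1, 1] = true := by
  decide +kernel

theorem ok_p73_1 : stepOKDR rows2 prio2 cap p73_1 lay74
    [3, 2, 1] = true := by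
  decide +kernel

theorem ok_p73_2 : stepOKDR rows2 prio2 cap p73_2 lay74
    [0, 64, 65, 65] = true := by
  decide +kernel

theorem ok_p74_0 : stepOKDR rows2 prio2 cap p74_0 lay75
    [1, 2, 0, 3, 66] = true := by
  decide +kernel

theorem ok_p74_1 : stepOKDR rows2 prio2 cap p74_1 lay75
    [1, 64, 65, 66] = true := by
  decide +kernel

theorem ok_p75_0 : stepOKDR rows2 prio2 cap p75_0 lay76
    [2, 3, 3, 0, 64, 1, 0, 66, 67] = true := by
  decide +kernel

theorem ok_p75_1 : stepOKDR rows2 prio2 cap p75_1 lay76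
    [3, 3, 65, 128, 129, 129, 131, 130] = true := by
  decide +kernel

theorem ok_p76_0 : stepOKDR rows2 prio2 cap p76_0 lay77
    [3, 64, 0, 64, 65, 1, 1, 2] = true := by
  decide +kernel

end Vale.Agent.Lib.P302.helper8.Th863
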