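import Mathlib
import Vale.Agent.Lib.P302.helper8.Th863.Base
import Vale.Agent.Lib.P302.helper8.Th863.K37

/-!
# P302: chunks of the mask search of the 863-item instance (part 40)
-/

namespace Vale.Agent.Lib.P302.helper8.Th863

open Vale.Agent.Lib.P302.helper14 Vale.Agent.Lib.P302.helper8 Vale.Agent.Lib.P302.helper9

theorem ok_p76_1 : stepOKDR rows2 prio2 cap p76_1 lay77
    [65, 1, 66, 65, 1, 67, 128, 128, 129] = true := by
  decide +kernel

theorem ok_p76_2 : stepOKDR rows2 prio2 cap p76_2 lay77
    [64, 64, 65, 130, 192, 131, 192, 193, 131, 131] = true := by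
  decide +kernel

theorem ok_p77_0 : stepOKDR rows2 prio2 cap p77_0 lay78
    [3, 0, 64, 1, 2, 1, 2, 2] = true := by
  decide +kernel

theorem ok_p77_1 : stepOKDR rows2 prio2 cap p77_1 lay78
    [1, 65, 67, 67, 128, 66, 131] = true := by
  decide +kernel

theorem ok_p77_2 : stepOKDR rows2 prio2 cap p77_2 lay78
    [64, 66, 1, 2, 129, 193, 130, 131, 130, 192, 130] = true := by
  decide +kernel

theorem ok_p77_3 : stepOKDR rows2 prio2 cap p77_3 lay78
    [128, 194, 256, 195] = true := by
  decide +kernel

theorem ok_p78_0 : stepOKDR rows2 prio2 cap p78_0 lay79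
    [131, 66, 194, 194, 67, 129, 129, 130, 128] = true := by
  decide +kernel

theorem ok_p78_1 : stepOKDR rows2 prio2 cap p78_1 lay79
    [0, 1, 131, 193, 194, 192, 256, 256, 256] = true := by
  decide +kernel

theorem ok_p78_2 : stepOKDR rows2 prio2 cap p78_2 lay79
    [2, 67, 256, 130, 195, 128, 258, 259, 257] = true := by
  decide +kernel

theorem ok_p78_3 : stepOKDR rows2 prio2 cap p78_3 lay79
    [3, 64, 65, 192, 195, 1, 320] = true := by
  decide +kernel

theorem ok_p78_4 : stepOKDR rows2 prio2 cap p78_4 lay79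
    [320] = true := by
  decide +kernel

theorem ok_p79_0 : stepOKDR rows2 prio2 cap p79_0 lay80
    [64, 3, 67, 67, 65, 66] = true := by
  decide +kernel

theorem ok_p79_1 : stepOKDR rows2 prio2 cap p79_1 lay80
    [0, 65, 66, 131, 193, 193, 193, 192] = true := by
  decide +kernel

theorem ok_p79_2 : stepOKDR rows2 prio2 cap p79_2 lay80
    [2, 1, 257, 256, 257, 131, 195, 195, 195, 195, 194] = true := by
  decide +kernel

theorem ok_p79_3 : stepOKDR rows2 prio2 cap p79_3 lay80
    [257, 259, 258, 258, 258, 3, 320, 65] = true := by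
  decide +kernel

theorem ok_p79_4 : stepOKDR rows2 prio2 cap p79_4 lay80
    [128, 129, 130, 257, 192, 320, 320, 194, 1] = true := by
  decide +kernel

theorem ok_p79_5 : stepOKDR rows2 prio2 cap p79_5 lay80
    [259, 321] = true := by
  decide +kernel

theorem ok_p80_0 : stepOKDR rows2 prio2 cap p80_0 lay81
    [1, 67, 0, 64, 64, 2, 3] = true := by
  decide +kernel

theorem ok_p80_1 : stepOKDR rows2 prio2 cap p80_1 lay81
    [67, 65, 67, 258, 67, 128] = true := by
  decide +kernel

theorem ok_p80_2 : stepOKDR rows2 prio2 cap p80_2 lay81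
    [0, 2, 3, 131, 130, 131] = true := by
  decide +kernel

theorem ok_p80_3 : stepOKDR rows2 prio2 cap p80_3 lay81
    [131, 131, 192, 192, 192, 0, 193, 193, 193, 2] = true := by
  decide +kernel

theorem ok_p80_4 : stepOKDR rows2 prio2 cap p80_4 lay81
    [66, 65, 256, 194, 195, 258, 257] = true := by
  decide +kernel

end Vale.Agent.Lib.P302.helper8.Th863
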