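import Mathlib
import Vale.Agent.Lib.P302.helper8.Th863.Base
import Vale.Agent.Lib.P302.helper8.Th863.K35

/-!
# P302: chunks of the mask search of the 863-item instance (part 38)
-/

namespace Vale.Agent.Lib.P302.helper8.Th863

open Vale.Agent.Lib.P302.helper14 Vale.Agent.Lib.P302.helper8 Vale.Agent.Lib.P302.helper9

theorem ok_p65_7 : stepOKDR rows1 prio1 cap p65_7 lay66
    [256, 257, 384, 0, 256] = true := by
  decide +kernel

theorem ok_p65_8 : stepOKDR rows1 prio1 cap p65_8 lay66
    [320] = true := by
  decide +kernel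

theorem ok_p66_0 : stepOKDR rows1 prio1 cap p66_0 lay67
    [0, 1, 66] = true := by
  decide +kernel

theorem ok_p66_1 : stepOKDR rows1 prio1 cap p66_1 lay67
    [65, 130, 2] = true := by
  decide +kernel

theorem ok_p66_2 : stepOKDR rows1 prio1 cap p66_2 lay67
    [64, 2, 192] = true := by
  decide +kernel

theorem ok_p66_3 : stepOKDR rows1 prio1 cap p66_3 lay67
    [129, 128, 192, 64, 2] = true := by
  decide +kernel

theorem ok_p66_4 : stepOKDR rows1 prio1 cap p66_4 lay67
    [194, 320, 321] = true := by
  decide +kernel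

theorem ok_p66_5 : stepOKDR rows1 prio1 cap p66_5 lay67
    [193, 256, 257, 322] = true := by
  decide +kernel

theorem ok_p66_6 : stepOKDR rows1 prio1 cap p66_6 lay67
    [258] = true := by
  decide +kernel

theorem ok_p67_0 : stepOKDR rows1 prio1 cap p67_0 lay68
    [2, 64, 129] = true := by
  decide +kernel

theorem ok_p67_1 : stepOKDR rows1 prio1 cap p67_1 lay68
    [66, 65, 192] = true := by
  decide +kernel

theorem ok_p67_2 : stepOKDR rows1 prio1 cap p67_2 lay68
    [1, 0, 128, 194, 193] = true := by
  decide +kernel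

theorem ok_p67_3 : stepOKDR rows1 prio1 cap p67_3 lay68
    [257, 256, 130] = true := by
  decide +kernel

theorem ok_p67_4 : stepOKDR rows1 prio1 cap p67_4 lay68
    [258, 321, 320, 386, 385] = true := by
  decide +kernel

theorem ok_p67_5 : stepOKDR rows1 prio1 cap p67_5 lay68
    [257, 322, 384] = true := by
  decide +kernel

theorem ok_p68_0 : stepOKDR rows1 prio1 cap p68_0 lay69
    [1, 66, 65] = true := by
  decide +kernel

theorem ok_p68_1 : stepOKDR rows1 prio1 cap p68_1 lay69
    [0, 2, 64] = true := by
  decide +kernel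

theorem ok_p68_2 : stepOKDR rows1 prio1 cap p68_2 lay69
    [128, 129, 130, 193, 194] = true := by
  decide +kernel

theorem ok_p68_3 : stepOKDR rows1 prio1 cap p68_3 lay69
    [66, 65, 192] = true := by
  decide +kernel

theorem ok_p68_4 : stepOKDR rows1 prio1 cap p68_4 lay69
    [257, 258, 256, 256] = true := by
  decide +kernel

theorem ok_p68_5 : stepOKDR rows1 prio1 cap p68_5 lay69
    [321, 320, 322] = true := by
  decide +kernel

theorem ok_p68_6 : stepOKDR rows1 prio1 cap p68_6 lay69
    [384, 321, 320] = true := by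
  decide +kernel

theorem ok_p69_0 : stepOKDR rows1 prio1 cap p69_0 lay70
    [0, 1, 2] = true := by
  decide +kernel

theorem ok_p69_1 : stepOKDR rows1 prio1 cap p69_1 lay70
    [64, 3, 2, 129, 3] = true := by
  decide +kernel

theorem ok_p69_2 : stepOKDR rows1 prio1 cap p69_2 lay70
    [65, 67, 66] = true := by
  decide +kernel

theorem ok_p69_3 : stepOKDR rows1 prio1 cap p69_3 lay70
    [128, 65, 67] = true := by
  decide +kernel

end Vale.Agent.Lib.P302.helper8.Th863
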