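import Mathlib
import Vale.Agent.Lib.P302.helper8.Th863.Base
import Vale.Agent.Lib.P302.helper8.Th863.K38

/-!
# P302: chunks of the mask search of the 863-item instance (part 41)
-/

namespace Vale.Agent.Lib.P302.helper8.Th863

open Vale.Agent.Lib.P302.helper14 Vale.Agent.Lib.P302.helper8 Vale.Agent.Lib.P302.helper9

theorem ok_p80_5 : stepOKDR rows2 prio2 cap p80_5 lay81
    [128, 129, 257, 258] = true := by
  decide +kernel

theorem ok_p81_0 : stepOKDR rows2 prio2 cap p81_0 lay82
    [1, 1, 0, 192, 1] = true := by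
  decide +kernel

theorem ok_p81_1 : stepOKDR rows2 prio2 cap p81_1 lay82
    [64, 3, 67, 66, 65, 1, 2] = true := by
  decide +kernel

theorem ok_p81_2 : stepOKDR rows2 prio2 cap p81_2 lay82
    [65, 66, 128, 131, 129, 130] = true := by
  decide +kernel

theorem ok_p81_3 : stepOKDR rows2 prio2 cap p81_3 lay82
    [0, 2, 195, 194, 258, 193, 192, 192] = true := by
  decide +kernel

theorem ok_p81_4 : stepOKDR rows2 prio2 cap p81_4 lay82
    [257, 256, 258, 258, 65] = true := by
  decide +kernel

theorem ok_p82_0 : stepOKDR rows2 prio2 cap p82_0 lay83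
    [65, 1, 67, 0, 128, 3, 2, 2, 64] = true := by
  decide +kernel

theorem ok_p82_1 : stepOKDR rows2 prio2 cap p82_1 lay83
    [66, 130, 129, 129, 67, 129, 67, 131, 131, 192] = true := by
  decide +kernel

theorem ok_p82_2 : stepOKDR rows2 prio2 cap p82_2 lay83
    [67, 193, 194, 257, 259, 256, 320, 320, 195] = true := by
  decide +kernel

theorem ok_p82_3 : stepOKDR rows2 prio2 cap p82_3 lay83
    [131, 321, 323, 386, 322, 258, 322, 322, 320] = true := by
  decide +kernel

theorem ok_p82_4 : stepOKDR rows2 prio2 cap p82_4 lay83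
    [385, 384, 387, 386, 386, 386, 386, 131] = true := by
  decide +kernel

theorem ok_p83_0 : stepOKDR rows2 prio2 cap p83_0 lay84
    [1, 0, 65, 64, 2, 64, 2, 3, 64, 2, 66, 66] = true := by
  decide +kernel

theorem ok_p83_1 : stepOKDR rows2 prio2 cap p83_1 lay84
    [130, 129, 256, 193, 192, 256, 194, 2, 67, 128] = true := by
  decide +kernel

theorem ok_p83_2 : stepOKDR rows2 prio2 cap p83_2 lay84
    [130, 129, 194, 257, 257, 194, 257, 256, 194, 258] = true := by
  decide +kernel

theorem ok_p83_3 : stepOKDR rows2 prio2 cap p83_3 lay84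
    [131, 131, 192, 66, 195, 256, 320, 320] = true := by
  decide +kernel

theorem ok_p83_4 : stepOKDR rows2 prio2 cap p83_4 lay84
    [323, 259, 322, 321, 384, 385, 384, 320, 384] = true := by
  decide +kernel

theorem ok_p83_5 : stepOKDR rows2 prio2 cap p83_5 lay84
    [194, 387, 386, 512, 450, 450, 384, 384, 66] = true := by
  decide +kernel

theorem ok_p83_6 : stepOKDR rows2 prio2 cap p83_6 lay84
    [448, 449, 448, 512, 451, 451, 512, 194, 512] = true := by
  decide +kernel

theorem ok_p84_0 : stepOKDR rows2 prio2 cap p84_0 lay85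
    [1, 0, 0, 66, 64, 3, 66, 65, 66] = true := by
  decide +kernel

theorem ok_p84_1 : stepOKDR rows2 prio2 cap p84_1 lay85
    [1, 65, 67, 2, 3, 67, 65, 67, 65, 128] = true := by
  decide +kernel

end Vale.Agent.Lib.P302.helper8.Th863
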