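import Mathlib
import Vale.Agent.Lib.P302.helper8.Th863.Base
import Vale.Agent.Lib.P302.helper8.Th863.K39

/-!
# P302: chunks of the mask search of the 863-item instance (part 42)
-/

namespace Vale.Agent.Lib.P302.helper8.Th863

open Vale.Agent.Lib.P302.helper14 Vale.Agent.Lib.P302.helper8 Vale.Agent.Lib.P302.helper9

theorem ok_p84_2 : stepOKDR rows2 prio2 cap p84_2 lay85
    [193, 129, 194, 192, 130, 131, 130, 195, 256, 2, 66] = true := by
  decide +kernel

theorem ok_p84_3 : stepOKDR rows2 prio2 cap p84_3 lay85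
    [192, 130, 320, 192, 130, 257, 257, 258, 192, 130, 320, 259, 320, 321] = true := by
  decide +kernel

theorem ok_p84_4 : stepOKDR rows2 prio2 cap p84_4 lay85
    [192, 130, 259, 192, 130, 192, 130, 320, 320, 259, 259, 322, 386] = true := by
  decide +kernel

theorem ok_p84_5 : stepOKDR rows2 prio2 cap p84_5 lay85
    [65, 323, 384, 385, 387, 448, 387, 386] = true := by
  decide +kernel

theorem ok_p84_6 : stepOKDR rows2 prio2 cap p84_6 lay85
    [450, 451, 512, 449, 384, 448, 448, 65, 448] = true := by
  decide +kernel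

theorem ok_p84_7 : stepOKDR rows2 prio2 cap p84_7 lay85
    [257, 513, 515, 449, 514, 512, 512, 512, 449, 512, 257, 512, 449] = true := by
  decide +kernel

theorem ok_p84_8 : stepOKDR rows2 prio2 cap p84_8 lay85
    [512, 512, 512, 320] = true := by
  decide +kernel

theorem ok_p85_0 : stepOKDR rows2 prio2 cap p85_0 lay86
    [64, 0, 65, 3, 1, 1, 2, 1, 66, 67, 1, 128, 1] = true := by
  decide +kernel

theorem ok_p85_1 : stepOKDR rows2 prio2 cap p85_1 lay86
    [3, 130, 3, 1, 3, 128, 3, 130, 3, 1, 3, 1, 129, 130, 130, 130] = true := by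
  decide +kernel

theorem ok_p85_2 : stepOKDR rows2 prio2 cap p85_2 lay86
    [193, 194, 195, 131, 131, 194, 129, 129, 129] = true := by
  decide +kernel

theorem ok_p85_3 : stepOKDR rows2 prio2 cap p85_3 lay86
    [258, 256, 193, 258, 257, 131, 131, 259] = true := by
  decide +kernel

theorem ok_p85_4 : stepOKDR rows2 prio2 cap p85_4 lay86
    [192, 131, 259, 321, 320, 322] = true := by
  decide +kernel

theorem ok_p85_5 : stepOKDR rows2 prio2 cap p85_5 lay86
    [192, 321, 323, 385, 386, 387, 384] = true := by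
  decide +kernel

theorem ok_p85_6 : stepOKDR rows2 prio2 cap p85_6 lay86
    [128, 448, 450, 384, 449, 387, 387, 387, 384, 387, 128, 387, 384] = true := by
  decide +kernel

theorem ok_p85_7 : stepOKDR rows2 prio2 cap p85_7 lay86
    [131, 514, 513, 515, 451, 512, 387, 387, 387, 130] = true := by
  decide +kernel

theorem ok_p85_8 : stepOKDR rows2 prio2 cap p85_8 lay86
    [578, 577, 515, 515, 577, 576, 131, 131] = true := by
  decide +kernel

theorem ok_p86_0 : stepOKDR rows2 prio2 cap p86_0 lay87
    [1, 2, 65, 3, 0, 0, 0, 2] = true := by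
  decide +kernel

theorem ok_p86_1 : stepOKDR rows2 prio2 cap p86_1 lay87
    [66, 64, 1, 66, 0, 0, 67, 67] = true := by
  decide +kernel

theorem ok_p86_2 : stepOKDR rows2 prio2 cap p86_2 lay87
    [192, 195, 129, 128, 130, 131] = true := by
  decide +kernel

theorem ok_p86_3 : stepOKDR rows2 prio2 cap p86_3 lay87
    [193, 258, 257, 192, 259, 194, 257, 256] = true := by
  decide +kernel

end Vale.Agent.Lib.P302.helper8.Th863
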