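import Mathlib
import Vale.Agent.Lib.P302.helper8.Th863.Base
import Vale.Agent.Lib.P302.helper8.Th863.K40

/-!
# P302: chunks of the mask search of the 863-item instance (part 43)
-/

namespace Vale.Agent.Lib.P302.helper8.Th863

open Vale.Agent.Lib.P302.helper14 Vale.Agent.Lib.P302.helper8 Vale.Agent.Lib.P302.helper9

theorem ok_p86_4 : stepOKDR rows2 prio2 cap p86_4 lay87
    [322, 321, 320, 192, 257, 194, 320, 323] = true := by
  decide +kernel

theorem ok_p86_5 : stepOKDR rows2 prio2 cap p86_5 lay87
    [194, 195, 195, 195, 195, 384, 195] = true := by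
  decide +kernel

theorem ok_p86_6 : stepOKDR rows2 prio2 cap p86_6 lay87
    [0, 448, 387, 449, 385, 386, 450, 0] = true := by
  decide +kernel

theorem ok_p86_7 : stepOKDR rows2 prio2 cap p86_7 lay87
    [192, 512, 451, 449, 449, 514, 451, 0] = true := by
  decide +kernel

theorem ok_p86_8 : stepOKDR rows2 prio2 cap p86_8 lay87
    [194, 576, 515, 577, 513, 578, 513, 192] = true := by
  decide +kernel

theorem ok_p86_9 : stepOKDR rows2 prio2 cap p86_9 lay87
    [640, 579, 577, 577, 194, 577] = true := by
  decide +kernel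

theorem ok_p87_0 : stepOKDR rows2 prio2 cap p87_0 lay88
    [64, 3, 0, 65, 1, 3, 0, 2] = true := by
  decide +kernel

theorem ok_p87_1 : stepOKDR rows2 prio2 cap p87_1 lay88
    [128, 67, 66, 0, 3, 1, 66, 129] = true := by
  decide +kernel

theorem ok_p87_2 : stepOKDR rows2 prio2 cap p87_2 lay88
    [1, 2, 2, 2, 2, 130, 2] = true := by
  decide +kernel

theorem ok_p87_3 : stepOKDR rows2 prio2 cap p87_3 lay88
    [131, 195, 194, 193, 195, 194, 256, 194, 257, 257] = true := by
  decide +kernel

theorem ok_p87_4 : stepOKDR rows2 prio2 cap p87_4 lay88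
    [192, 259, 258, 195, 258, 131, 256] = true := by
  decide +kernel

theorem ok_p87_5 : stepOKDR rows2 prio2 cap p87_5 lay88
    [320, 322, 321, 195, 321, 131, 258, 323] = true := by
  decide +kernel

theorem ok_p87_6 : stepOKDR rows2 prio2 cap p87_6 lay88
    [0, 1, 257, 257, 257, 386, 384, 385, 384] = true := by
  decide +kernel

theorem ok_p87_7 : stepOKDR rows2 prio2 cap p87_7 lay88
    [387, 448, 450, 449, 448, 0, 1, 448] = true := by
  decide +kernel

theorem ok_p87_8 : stepOKDR rows2 prio2 cap p87_8 lay88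
    [195, 131, 576, 512, 451, 513, 512, 448] = true := by
  decide +kernel

theorem ok_p87_9 : stepOKDR rows2 prio2 cap p87_9 lay88
    [514, 515, 576, 515, 195, 515, 131] = true := by
  decide +kernel

theorem ok_p87_10 : stepOKDR rows2 prio2 cap p87_10 lay88
    [576, 515] = true := by
  decide +kernel

theorem ok_p88_0 : stepOKDR rows2 prio2 cap p88_0 lay89
    [0, 64, 3, 66, 2, 64, 64, 3, 3, 65, 65] = true := by
  decide +kernel

theorem ok_p88_1 : stepOKDR rows2 prio2 cap p88_1 lay89
    [1, 130, 67, 129, 64, 66, 0, 0] = true := by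
  decide +kernel

theorem ok_p88_2 : stepOKDR rows2 prio2 cap p88_2 lay89
    [128, 192, 256, 129, 66, 65, 131, 65, 65] = true := by
  decide +kernel

theorem ok_p88_3 : stepOKDR rows2 prio2 cap p88_3 lay89
    [193, 195, 192, 194, 256, 257, 257, 192] = true := by
  decide +kernel

end Vale.Agent.Lib.P302.helper8.Th863
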