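import Mathlib
import Vale.Agent.Lib.P302.helper8.Th863.Base
import Vale.Agent.Lib.P302.helper8.Th863.K41

/-!
# P302: chunks of the mask search of the 863-item instance (part 44)
-/

namespace Vale.Agent.Lib.P302.helper8.Th863

open Vale.Agent.Lib.P302.helper14 Vale.Agent.Lib.P302.helper8 Vale.Agent.Lib.P302.helper9

theorem ok_p88_4 : stepOKDR rows2 prio2 cap p88_4 lay89
    [193, 257, 195, 256, 258, 257] = true := by
  decide +kernel

theorem ok_p88_5 : stepOKDR rows2 prio2 cap p88_5 lay89
    [259, 193, 195, 256] = true := by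
  decide +kernel

theorem ok_p88_6 : stepOKDR rows2 prio2 cap p88_6 lay89
    [64, 0, 384, 323, 320, 321, 320] = true := by
  decide +kernel

theorem ok_p88_7 : stepOKDR rows2 prio2 cap p88_7 lay89
    [384, 322, 384, 323, 323, 64, 323, 0] = true := by
  decide +kernel

theorem ok_p88_8 : stepOKDR rows2 prio2 cap p88_8 lay89
    [195, 256, 256, 385, 195] = true := by
  decide +kernel

theorem ok_p88_9 : stepOKDR rows2 prio2 cap p88_9 lay89
    [256] = true := by
  decide +kernel

theorem ok_p89_0 : stepOKDR rows2 prio2 cap p89_0 lay90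
    [1, 0, 0, 64, 2, 64, 65, 0] = true := by
  decide +kernel

theorem ok_p89_1 : stepOKDR rows2 prio2 cap p89_1 lay90
    [1, 65, 3, 3, 64, 65, 65] = true := by
  decide +kernel

theorem ok_p89_2 : stepOKDR rows2 prio2 cap p89_2 lay90
    [66, 1, 3, 64] = true := by
  decide +kernel

theorem ok_p89_3 : stepOKDR rows2 prio2 cap p89_3 lay90
    [128, 67, 130, 131, 192] = true := by
  decide +kernel

theorem ok_p89_4 : stepOKDR rows2 prio2 cap p89_4 lay90
    [128, 129, 131, 192] = true := by
  decide +kernel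

theorem ok_p89_5 : stepOKDR rows2 prio2 cap p89_5 lay90
    [3, 64, 64, 193, 3] = true := by
  decide +kernel

theorem ok_p89_6 : stepOKDR rows2 prio2 cap p89_6 lay90
    [128, 64] = true := by
  decide +kernel

theorem ok_p90_0 : stepOKDR rows2 prio2 cap p90_0 lay91
    [1, 0, 2, 3, 64] = true := by
  decide +kernel

theorem ok_p90_1 : stepOKDR rows2 prio2 cap p90_1 lay91
    [65, 66, 1, 67, 128, 3, 64] = true := by
  decide +kernel

theorem ok_p90_2 : stepOKDR rows2 prio2 cap p90_2 lay91
    [65, 65, 65, 66, 67, 128, 66, 66, 67, 128, 66, 67, 128] = true := by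
  decide +kernel

theorem ok_p90_3 : stepOKDR rows2 prio2 cap p90_3 lay91
    [65, 66, 67, 128, 1] = true := by
  decide +kernel

theorem ok_p91_0 : stepOKDR rows2 prio2 cap p91_0 lay92
    [0, 0, 0, 0, 1, 1, 2, 2, 1, 2, 1, 2] = true := by
  decide +kernel

theorem ok_p91_1 : stepOKDR rows2 prio2 cap p91_1 lay92
    [3, 66, 64, 65, 0, 66, 66, 67, 1, 2] = true := by
  decide +kernel

theorem ok_p91_2 : stepOKDR rows2 prio2 cap p91_2 lay92
    [65, 66, 67] = true := by
  decide +kernel

theorem ok_p92_0 : stepOKDR rows2 prio2 cap p92_0 lay93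
    [66, 0, 1, 2, 3] = true := by
  decide +kernel

theorem ok_p92_1 : stepOKDR rows2 prio2 cap p92_1 lay93
    [64, 65, 67, 128, 130, 129] = true := by
  decide +kernel

theorem ok_p93_0 : stepOKDR rows2 prio2 cap p93_0 lay94
    [0, 1, 2, 3, 64, 65] = true := by
  decide +kernel

end Vale.Agent.Lib.P302.helper8.Th863
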