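import Mathlib
import Vale.Agent.Lib.P302.helper8.Th863.Base
import Vale.Agent.Lib.P302.helper8.Th863.K42

/-!
# P302: chunks of the mask search of the 863-item instance (part 45)
-/

namespace Vale.Agent.Lib.P302.helper8.Th863

open Vale.Agent.Lib.P302.helper14 Vale.Agent.Lib.P302.helper8 Vale.Agent.Lib.P302.helper9

theorem ok_p93_1 : stepOKDR rows2 prio2 cap p93_1 lay94
    [66, 66, 66, 67, 67, 129, 128] = true := by
  decide +kernel

theorem ok_p93_2 : stepOKDR rows2 prio2 cap p93_2 lay94
    [67, 130, 192, 131] = true := by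
  decide +kernel

theorem ok_p94_0 : stepOKDR rows2 prio2 cap p94_0 lay95
    [0, 0, 0, 1, 1, 3, 2] = true := by
  decide +kernel

theorem ok_p94_1 : stepOKDR rows2 prio2 cap p94_1 lay95
    [67, 66, 129, 128, 1, 64, 65] = true := by
  decide +kernel

theorem ok_p94_2 : stepOKDR rows2 prio2 cap p94_2 lay95
    [66, 128, 130, 131] = true := by
  decide +kernel

theorem ok_p94_3 : stepOKDR rows2 prio2 cap p94_3 lay95
    [192] = true := by
  decide +kernel

theorem ok_p95_0 : stepOKDR rows2 prio2 cap p95_0 lay96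
    [1, 0, 0, 3, 2, 64] = true := by
  decide +kernel

theorem ok_p95_1 : stepOKDR rows2 prio2 cap p95_1 lay96
    [67, 66, 130, 130, 2, 65] = true := by
  decide +kernel

theorem ok_p95_2 : stepOKDR rows2 prio2 cap p95_2 lay96
    [128, 129, 193, 192, 194, 194] = true := by
  decide +kernel

theorem ok_p95_3 : stepOKDR rows2 prio2 cap p95_3 lay96
    [131] = true := by
  decide +kernel

theorem ok_p96_0 : stepOKDR rows2 prio2 cap p96_0 lay97
    [1, 0, 4, 4, 65, 64, 66, 66] = true := by
  decide +kernel

theorem ok_p96_1 : stepOKDR rows2 prio2 cap p96_1 lay97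
    [129, 130, 129, 128, 2, 3] = true := by
  decide +kernel

theorem ok_p96_2 : stepOKDR rows2 prio2 cap p96_2 lay97
    [67, 129, 68, 131, 132] = true := by
  decide +kernel

theorem ok_p96_3 : stepOKDR rows2 prio2 cap p96_3 lay97
    [193, 193, 194, 193, 192, 195] = true := by
  decide +kernel

theorem ok_p97_0 : stepOKDR rows3 prio3 cap p97_0 lay98
    [0, 3, 3, 4, 1, 3, 2, 64] = true := by
  decide +kernel

theorem ok_p97_1 : stepOKDR rows3 prio3 cap p97_1 lay98
    [128, 131, 66, 66, 67, 66, 65, 68] = true := by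
  decide +kernel

theorem ok_p97_2 : stepOKDR rows3 prio3 cap p97_2 lay98
    [192, 129, 129, 130, 193, 129, 132, 196] = true := by
  decide +kernel

theorem ok_p97_3 : stepOKDR rows3 prio3 cap p97_3 lay98
    [257, 194, 194, 195, 258, 194, 256] = true := by
  decide +kernel

theorem ok_p98_0 : stepOKDR rows3 prio3 cap p98_0 lay99
    [0, 64, 1, 2, 65, 3, 1, 4] = true := by
  decide +kernel

theorem ok_p98_1 : stepOKDR rows3 prio3 cap p98_1 lay99
    [1, 128, 66, 66, 67, 129, 66, 68] = true := by
  decide +kernel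

theorem ok_p98_2 : stepOKDR rows3 prio3 cap p98_2 lay99
    [130, 132, 131, 131, 192, 193] = true := by
  decide +kernel

theorem ok_p98_3 : stepOKDR rows3 prio3 cap p98_3 lay99
    [193, 193, 131, 195, 194, 194, 196] = true := by
  decide +kernel

end Vale.Agent.Lib.P302.helper8.Th863
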