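import Mathlib
import Vale.Agent.Lib.P302.helper8.Th863.Base
import Vale.Agent.Lib.P302.helper8.Th863.K43

/-!
# P302: chunks of the mask search of the 863-item instance (part 46)
-/

namespace Vale.Agent.Lib.P302.helper8.Th863

open Vale.Agent.Lib.P302.helper14 Vale.Agent.Lib.P302.helper8 Vale.Agent.Lib.P302.helper9

theorem ok_p98_4 : stepOKDR rows3 prio3 cap p98_4 lay99
    [256, 256, 194, 256] = true := by
  decide +kernel

theorem ok_p99_0 : stepOKDR rows3 prio3 cap p99_0 lay100
    [0, 2, 1, 1, 3, 4] = true := by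
  decide +kernel

theorem ok_p99_1 : stepOKDR rows3 prio3 cap p99_1 lay100
    [4, 4, 1, 65, 64, 64, 66] = true := by
  decide +kernel

theorem ok_p99_2 : stepOKDR rows3 prio3 cap p99_2 lay100
    [67, 68, 68, 66, 66, 64] = true := by
  decide +kernel

theorem ok_p99_3 : stepOKDR rows3 prio3 cap p99_3 lay100
    [68, 128, 129, 130, 130] = true := by
  decide +kernel

theorem ok_p99_4 : stepOKDR rows3 prio3 cap p99_4 lay100
    [130] = true := by
  decide +kernel

theorem ok_p100_0 : stepOKDR rows3 prio3 cap p100_0 lay101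
    [0, 1, 2, 1] = true := by
  decide +kernel

theorem ok_p100_1 : stepOKDR rows3 prio3 cap p100_1 lay101
    [4, 4, 64, 3, 3] = true := by
  decide +kernel

theorem ok_p100_2 : stepOKDR rows3 prio3 cap p100_2 lay101
    [65, 65, 67, 66] = true := by
  decide +kernel

theorem ok_p101_0 : stepOKDR rows3 prio3 cap p101_0 lay102
    [64, 0, 0, 1, 2, 2, 3] = true := by
  decide +kernel

theorem ok_p101_1 : stepOKDR rows3 prio3 cap p101_1 lay102
    [4, 64, 65, 66, 4, 66, 67, 4] = true := by
  decide +kernel

theorem ok_p102_0 : stepOKDR rows3 prio3 cap p102_0 lay103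
    [67, 0, 0, 1, 2, 2, 3] = true := by
  decide +kernel

theorem ok_p102_1 : stepOKDR rows3 prio3 cap p102_1 lay103
    [4, 64, 65, 66, 68, 128] = true := by
  decide +kernel

theorem ok_p103_0 : stepOKDR rows3 prio3 cap p103_0 lay104
    [65, 0, 1, 2, 3, 4, 64] = true := by
  decide +kernel

theorem ok_p103_1 : stepOKDR rows3 prio3 cap p103_1 lay104
    [66, 66, 67, 68, 128] = true := by
  decide +kernel

theorem ok_p103_2 : stepOKDR rows3 prio3 cap p103_2 lay104
    [68] = true := by
  decide +kernel

theorem ok_p104_0 : stepOKDR rows3 prio3 cap p104_0 lay105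
    [0, 1, 1, 2, 3] = true := by
  decide +kernel

theorem ok_p104_1 : stepOKDR rows3 prio3 cap p104_1 lay105
    [4, 64, 4, 65, 67, 64, 66, 67, 3] = true := by
  decide +kernel

theorem ok_p104_2 : stepOKDR rows3 prio3 cap p104_2 lay105
    [67] = true := by
  decide +kernel

theorem ok_p105_0 : stepOKDR rows3 prio3 cap p105_0 lay106
    [4, 0, 1, 0, 2, 1, 3] = true := by
  decide +kernel

theorem ok_p105_1 : stepOKDR rows3 prio3 cap p105_1 lay106
    [64, 65, 66, 64] = true := by
  decide +kernel

theorem ok_p106_0 : stepOKDR rows3 prio3 cap p106_0 lay107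
    [0, 3, 4, 64, 4] = true := by
  decide +kernel

theorem ok_p106_1 : stepOKDR rows3 prio3 cap p106_1 lay107
    [1, 2, 65, 0] = true := by
  decide +kernel

end Vale.Agent.Lib.P302.helper8.Th863
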