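import Mathlib
import Vale.Agent.Lib.P302.helper8.Th863.Base
import Vale.Agent.Lib.P302.helper8.Th863.K44

/-!
# P302: chunks of the mask search of the 863-item instance (part 47)
-/

namespace Vale.Agent.Lib.P302.helper8.Th863

open Vale.Agent.Lib.P302.helper14 Vale.Agent.Lib.P302.helper8 Vale.Agent.Lib.P302.helper9

theorem ok_p107_0 : stepOKDR rows3 prio3 cap p107_0 lay108
    [2, 0, 3, 1, 4] = true := by
  decide +kernel

theorem ok_p107_1 : stepOKDR rows3 prio3 cap p107_1 lay108
    [2, 64, 0] = true := by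
  decide +kernel

theorem ok_p108_0 : stepOKDR rows3 prio3 cap p108_0 lay109
    [2, 2, 0, 3, 1] = true := by
  decide +kernel

theorem ok_p108_1 : stepOKDR rows3 prio3 cap p108_1 lay109
    [0] = true := by
  decide +kernel

theorem ok_p109_0 : stepOKDR rows3 prio3 cap p109_0 lay110
    [0, 1, 3, 2] = true := by
  decide +kernel

theorem ok_p110_0 : stepOKDR rows3 prio3 cap p110_0 lay111
    [0, 1, 1, 2, 3, 4] = true := by
  decide +kernel

theorem ok_p111_0 : stepOKDR rows3 prio3 cap p111_0 lay112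
    [0, 1, 2, 3, 3, 4, 2, 3, 64] = true := by
  decide +kernel

theorem ok_p112_0 : stepOKDR rows3 prio3 cap p112_0 lay113
    [0, 1, 2, 3, 4, 4, 64, 65, 66] = true := by
  decide +kernel

theorem ok_p112_1 : stepOKDR rows3 prio3 cap p112_1 lay113
    [1, 67] = true := by
  decide +kernel

theorem ok_p113_0 : stepOKDR rows3 prio3 cap p113_0 lay114
    [65, 1, 3, 4, 4, 64, 4, 66, 67] = true := by
  decide +kernel

theorem ok_p113_1 : stepOKDR rows3 prio3 cap p113_1 lay114
    [0, 2, 3, 65, 66, 68] = true := by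
  decide +kernel

theorem ok_p114_0 : stepOKDR rows3 prio3 cap p114_0 lay115
    [0, 1, 1, 3, 4, 64, 65, 66, 66, 67] = true := by
  decide +kernel

theorem ok_p114_1 : stepOKDR rows3 prio3 cap p114_1 lay115
    [1, 2, 4, 68, 128, 129, 129, 130, 131] = true := by
  decide +kernel

theorem ok_p115_0 : stepOKDR rows3 prio3 cap p115_0 lay116
    [68, 1, 3, 4, 3, 66, 65, 66, 67] = true := by
  decide +kernel

theorem ok_p115_1 : stepOKDR rows3 prio3 cap p115_1 lay116
    [0, 66, 66, 68, 128, 128] = true := by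
  decide +kernel

theorem ok_p115_2 : stepOKDR rows3 prio3 cap p115_2 lay116
    [2, 3, 64, 65, 129, 130] = true := by
  decide +kernel

theorem ok_p116_0 : stepOKDR rows3 prio3 cap p116_0 lay117
    [0, 0, 2, 3, 4, 64, 65, 66, 66] = true := by
  decide +kernel

theorem ok_p116_1 : stepOKDR rows3 prio3 cap p116_1 lay117
    [0, 66, 67, 68, 128, 67, 129] = true := by
  decide +kernel

theorem ok_p116_2 : stepOKDR rows3 prio3 cap p116_2 lay117
    [1, 3, 65, 129, 130] = true := by
  decide +kernel

theorem ok_p117_0 : stepOKDR rows3 prio3 cap p117_0 lay118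
    [0, 3, 1, 0, 3, 2, 3, 4] = true := by
  decide +kernel

theorem ok_p117_1 : stepOKDR rows3 prio3 cap p117_1 lay118
    [3, 64, 64, 64, 66, 65, 67, 66, 65, 67, 65, 66, 65, 67] = true := by
  decide +kernel

theorem ok_p117_2 : stepOKDR rows3 prio3 cap p117_2 lay118
    [0, 2, 64, 66, 65, 67, 68] = true := by
  decide +kernel

end Vale.Agent.Lib.P302.helper8.Th863
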