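import Mathlib
import Vale.Agent.Lib.P302.helper8.Th863.Base
import Vale.Agent.Lib.P302.helper8.Th863.K46

/-!
# P302: chunks of the mask search of the 863-item instance (part 49)
-/

namespace Vale.Agent.Lib.P302.helper8.Th863

open Vale.Agent.Lib.P302.helper14 Vale.Agent.Lib.P302.helper8 Vale.Agent.Lib.P302.helper9

theorem ok_p131_0 : stepOKDR rows4 prio4 cap p131_0 lay132
    [0, 1, 0, 2, 3, 64, 65, 4] = true := by
  decide +kernel

theorem ok_p131_1 : stepOKDR rows4 prio4 cap p131_1 lay132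
    [3, 65, 4] = true := by
  decide +kernel

theorem ok_p132_0 : stepOKDR rows4 prio4 cap p132_0 lay133
    [0, 1, 2, 0, 1, 2, 3, 4, 64, 65, 4] = true := by
  decide +kernel

theorem ok_p132_1 : stepOKDR rows4 prio4 cap p132_1 lay133
    [65, 65, 4] = true := by
  decide +kernel

theorem ok_p133_0 : stepOKDR rows4 prio4 cap p133_0 lay134
    [0, 1, 2, 3, 4, 64, 65] = true := by
  decide +kernel

theorem ok_p133_1 : stepOKDR rows4 prio4 cap p133_1 lay134
    [65, 66] = true := by
  decide +kernel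

theorem ok_p134_0 : stepOKDR rows4 prio4 cap p134_0 lay135
    [0, 1, 2, 2, 3] = true := by
  decide +kernel

theorem ok_p134_1 : stepOKDR rows4 prio4 cap p134_1 lay135
    [3, 64, 4] = true := by
  decide +kernel

theorem ok_p135_0 : stepOKDR rows4 prio4 cap p135_0 lay136
    [0, 1, 1, 2, 3, 4, 3] = true := by
  decide +kernel

theorem ok_p135_1 : stepOKDR rows4 prio4 cap p135_1 lay136
    [4] = true := by
  decide +kernel

theorem ok_p136_0 : stepOKDR rows4 prio4 cap p136_0 lay137
    [0, 1, 0, 2, 3] = true := by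
  decide +kernel

theorem ok_p137_0 : stepOKDR rows4 prio4 cap p137_0 lay138
    [0, 1, 2, 3] = true := by
  decide +kernel

theorem ok_p138_0 : stepOKDR rows4 prio4 cap p138_0 lay139
    [0, 2, 1, 2] = true := by
  decide +kernel

theorem ok_p139_0 : stepOKDR rows4 prio4 cap p139_0 lay140
    [0, 1, 2, 3, 2] = true := by
  decide +kernel

theorem ok_p140_0 : stepOKDR rows4 prio4 cap p140_0 lay141
    [0, 0, 1, 1] = true := by
  decide +kernel

theorem ok_p141_0 : stepOKDR rows5 prio5 cap p141_0 lay142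
    [0, 1] = true := by
  decide +kernel

theorem ok_p142_0 : stepOKDR rows5 prio5 cap p142_0 lay143
    [0, 1] = true := by
  decide +kernel

theorem ok_p143_0 : stepOKDR rows5 prio5 cap p143_0 lay144
    [0, 1] = true := by
  decide +kernel

theorem ok_p144_0 : stepOKDR rows5 prio5 cap p144_0 lay145
    [0, 1, 2] = true := by
  decide +kernel

theorem ok_p145_0 : stepOKDR rows5 prio5 cap p145_0 lay146
    [0, 1, 2, 3, 4, 3, 5, 64, 64] = true := by
  decide +kernel

theorem ok_p146_0 : stepOKDR rows5 prio5 cap p146_0 lay147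
    [1, 1, 0, 2, 2, 1, 5, 5, 64, 3, 4, 64, 65, 1, 66, 67, 64] = true := by
  decide +kernel

theorem ok_p146_1 : stepOKDR rows5 prio5 cap p146_1 lay147
    [64, 66, 68] = true := by
  decide +kernel

theorem ok_p147_0 : stepOKDR rows5 prio5 cap p147_0 lay148
    [2, 3, 0, 0, 4, 0, 5, 1, 0, 1, 66, 67, 64, 65, 64, 65, 65] = true := by
  decide +kernel

theorem ok_p147_1 : stepOKDR rows5 prio5 cap p147_1 lay148
    [3, 4, 4, 66, 68, 69, 69, 65, 3, 128, 3, 4, 69, 66, 69] = true := by
  decide +kernel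

theorem ok_p148_0 : stepOKDR rows5 prio5 cap p148_0 lay149
    [2, 3, 4, 4, 1, 0, 5, 1, 5, 1, 1, 1, 1, 1] = true := by
  decide +kernel

theorem ok_p148_1 : stepOKDR rows5 prio5 cap p148_1 lay149
    [2, 3, 4, 5, 0, 1, 67, 68, 64, 69, 68, 128, 128, 129, 65, 66, 65, 66] = true := by
  decide +kernel

theorem ok_p148_2 : stepOKDR rows5 prio5 cap p148_2 lay149
    [5, 5] = true := by
  decide +kernel

theorem ok_p149_0 : stepOKDR rows5 prio5 cap p149_0 lay150
    [4, 5, 64, 0, 5, 65, 66, 65, 65, 67, 1, 5, 2, 1, 3, 1, 3] = true := by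
  decide +kernel

end Vale.Agent.Lib.P302.helper8.Th863
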