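import Mathlib
import Vale.Agent.Lib.P302.helper8.Th863.Base
import Vale.Agent.Lib.P302.helper8.Th863.K47

/-!
# P302: chunks of the mask search of the 863-item instance (part 50)
-/

namespace Vale.Agent.Lib.P302.helper8.Th863

open Vale.Agent.Lib.P302.helper14 Vale.Agent.Lib.P302.helper8 Vale.Agent.Lib.P302.helper9

theorem ok_p149_1 : stepOKDR rows5 prio5 cap p149_1 lay150
    [4, 5, 0, 64, 1, 3, 130, 131, 132, 129, 68, 68, 132, 69, 133, 128, 129, 129, 129, 194] = true := by
  decide +kernel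

theorem ok_p149_2 : stepOKDR rows5 prio5 cap p149_2 lay150
    [65, 67, 130, 192, 193, 193, 193, 194] = true := by
  decide +kernel

theorem ok_p150_0 : stepOKDR rows5 prio5 cap p150_0 lay151
    [4, 5, 3, 0, 0, 64, 1, 1, 2, 3, 0, 3, 3, 68] = true := by
  decide +kernel

theorem ok_p150_1 : stepOKDR rows5 prio5 cap p150_1 lay151
    [4, 5, 64, 0, 1, 65, 66, 67, 4, 67, 67, 68, 69, 128, 69] = true := by
  decide +kernel

theorem ok_p150_2 : stepOKDR rows5 prio5 cap p150_2 lay151
    [4, 5, 64, 65, 2, 3, 131, 132, 131, 130, 69, 133, 128, 193, 130, 128] = true := by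
  decide +kernel

theorem ok_p150_3 : stepOKDR rows5 prio5 cap p150_3 lay151
    [66, 67, 68, 131, 132, 192, 193, 132, 193, 193, 129] = true := by
  decide +kernel

theorem ok_p151_0 : stepOKDR rows5 prio5 cap p151_0 lay152
    [5, 4, 65, 0, 4, 1, 2, 68, 4] = true := by
  decide +kernel

theorem ok_p151_1 : stepOKDR rows5 prio5 cap p151_1 lay152
    [5, 64, 66, 4, 4, 2, 67, 68, 3, 133] = true := by
  decide +kernel

theorem ok_p151_2 : stepOKDR rows5 prio5 cap p151_2 lay152
    [4, 64, 2, 1, 3, 1, 130, 133, 132, 69, 132, 132, 128, 133] = true := by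
  decide +kernel

theorem ok_p151_3 : stepOKDR rows5 prio5 cap p151_3 lay152
    [64, 68, 130, 131, 133, 129] = true := by
  decide +kernel

theorem ok_p152_0 : stepOKDR rows5 prio5 cap p152_0 lay153
    [5, 5, 5, 3, 5, 4, 5, 1, 5, 5, 5, 5, 2, 2, 64, 5] = true := by
  decide +kernel

theorem ok_p152_1 : stepOKDR rows5 prio5 cap p152_1 lay153
    [5, 4, 5, 5, 5, 5, 0, 0, 5, 64, 5, 2, 5, 65] = true := by
  decide +kernel

theorem ok_p152_2 : stepOKDR rows5 prio5 cap p152_2 lay153
    [3, 4, 5, 1, 64, 2, 68, 69, 128, 66, 67, 129] = true := by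
  decide +kernel

theorem ok_p153_0 : stepOKDR rows5 prio5 cap p153_0 lay154
    [1, 64, 65, 66, 66, 0, 1, 1, 64, 67, 67, 2, 65, 3, 3, 5, 5] = true := by
  decide +kernel

theorem ok_p153_1 : stepOKDR rows5 prio5 cap p153_1 lay154
    [64, 66, 2, 3, 5, 4, 68, 68, 131, 132, 69, 192, 128, 129, 130] = true := by
  decide +kernel

theorem ok_p153_2 : stepOKDR rows5 prio5 cap p153_2 lay154
    [67, 68, 133, 193, 194, 195] = true := by
  decide +kernel

theorem ok_p154_0 : stepOKDR rows5 prio5 cap p154_0 lay155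
    [1, 3, 5, 0, 3, 3, 2, 2, 2, 1, 3, 128, 5, 65, 64, 65] = true := by
  decide +kernel

theorem ok_p154_1 : stepOKDR rows5 prio5 cap p154_1 lay155
    [69, 129, 128, 0, 1, 66, 2, 128, 128, 69, 3, 129, 131, 65, 131, 132] = true := by
  decide +kernel

theorem ok_p154_2 : stepOKDR rows5 prio5 cap p154_2 lay155
    [66, 67, 68, 4, 5, 64, 193, 194, 195, 133, 133, 192] = true := by
  decide +kernel

theorem ok_p154_3 : stepOKDR rows5 prio5 cap p154_3 lay155
    [69, 129, 130, 131, 193, 195, 196, 196] = true := by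
  decide +kernel

theorem ok_p155_0 : stepOKDR rows5 prio5 cap p155_0 lay156
    [0, 2, 5, 64, 1, 1, 64, 4, 5, 2, 64, 5, 5, 129, 1, 130, 1] = true := by
  decide +kernel

end Vale.Agent.Lib.P302.helper8.Th863
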