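import Mathlib
import Vale.Agent.Lib.P302.helper8.Th863.Base
import Vale.Agent.Lib.P302.helper8.Th863.K45

/-!
# P302: chunks of the mask search of the 863-item instance (part 48)
-/

namespace Vale.Agent.Lib.P302.helper8.Th863

open Vale.Agent.Lib.P302.helper14 Vale.Agent.Lib.P302.helper8 Vale.Agent.Lib.P302.helper9

theorem ok_p118_0 : stepOKDR rows3 prio3 cap p118_0 lay119
    [0, 1, 2, 1, 3, 2] = true := by
  decide +kernel

theorem ok_p118_1 : stepOKDR rows3 prio3 cap p118_1 lay119
    [0, 4, 64, 66, 65, 67, 65] = true := by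
  decide +kernel

theorem ok_p119_0 : stepOKDR rows3 prio3 cap p119_0 lay120
    [0, 0, 0, 0, 1, 2, 1, 2, 1, 2, 1, 2, 3, 64, 65] = true := by
  decide +kernel

theorem ok_p119_1 : stepOKDR rows3 prio3 cap p119_1 lay120
    [4, 64, 65, 66, 65] = true := by
  decide +kernel

theorem ok_p120_0 : stepOKDR rows4 prio4 cap p120_0 lay121
    [0, 1, 2, 3, 4, 64, 66] = true := by
  decide +kernel

theorem ok_p120_1 : stepOKDR rows4 prio4 cap p120_1 lay121
    [65, 67, 68, 128] = true := by
  decide +kernel

theorem ok_p121_0 : stepOKDR rows4 prio4 cap p121_0 lay122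
    [0, 1, 2, 3, 4] = true := by
  decide +kernel

theorem ok_p121_1 : stepOKDR rows4 prio4 cap p121_1 lay122
    [64, 65, 64, 66, 67] = true := by
  decide +kernel

theorem ok_p121_2 : stepOKDR rows4 prio4 cap p121_2 lay122
    [67] = true := by
  decide +kernel

theorem ok_p122_0 : stepOKDR rows4 prio4 cap p122_0 lay123
    [0, 1, 2, 3, 4, 64, 67] = true := by
  decide +kernel

theorem ok_p122_1 : stepOKDR rows4 prio4 cap p122_1 lay123
    [65, 66, 67, 68, 68, 128, 128, 128] = true := by
  decide +kernel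

theorem ok_p123_0 : stepOKDR rows4 prio4 cap p123_0 lay124
    [0, 1, 2, 1, 3] = true := by
  decide +kernel

theorem ok_p123_1 : stepOKDR rows4 prio4 cap p123_1 lay124
    [4, 65, 3, 64, 65] = true := by
  decide +kernel

theorem ok_p123_2 : stepOKDR rows4 prio4 cap p123_2 lay124
    [66] = true := by
  decide +kernel

theorem ok_p124_0 : stepOKDR rows4 prio4 cap p124_0 lay125
    [0, 1, 65, 4, 2, 2, 3, 3] = true := by
  decide +kernel

theorem ok_p124_1 : stepOKDR rows4 prio4 cap p124_1 lay125
    [64, 65, 66] = true := by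
  decide +kernel

theorem ok_p125_0 : stepOKDR rows4 prio4 cap p125_0 lay126
    [0, 2, 3, 1, 2] = true := by
  decide +kernel

theorem ok_p125_1 : stepOKDR rows4 prio4 cap p125_1 lay126
    [3, 4, 64] = true := by
  decide +kernel

theorem ok_p126_0 : stepOKDR rows4 prio4 cap p126_0 lay127
    [1, 0, 4, 3, 1, 2] = true := by
  decide +kernel

theorem ok_p126_1 : stepOKDR rows4 prio4 cap p126_1 lay127
    [3] = true := by
  decide +kernel

theorem ok_p127_0 : stepOKDR rows4 prio4 cap p127_0 lay128
    [0, 1, 1, 2, 3, 4] = true := by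
  decide +kernel

theorem ok_p128_0 : stepOKDR rows4 prio4 cap p128_0 lay129
    [0, 1, 2, 1, 3] = true := by
  decide +kernel

theorem ok_p129_0 : stepOKDR rows4 prio4 cap p129_0 lay130
    [0, 2, 1, 3, 2, 4] = true := by
  decide +kernel

theorem ok_p130_0 : stepOKDR rows4 prio4 cap p130_0 lay131
    [0, 1, 0, 2, 4, 3, 3, 64, 2, 4, 3, 64] = true := by
  decide +kernel

end Vale.Agent.Lib.P302.helper8.Th863
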