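import Mathlib
import Vale.Agent.Lib.P302.helper8.Th863.Base
import Vale.Agent.Lib.P302.helper8.Th863.K48

/-!
# P302: chunks of the mask search of the 863-item instance (part 51)
-/

namespace Vale.Agent.Lib.P302.helper8.Th863

open Vale.Agent.Lib.P302.helper14 Vale.Agent.Lib.P302.helper8 Vale.Agent.Lib.P302.helper9

theorem ok_p155_1 : stepOKDR rows5 prio5 cap p155_1 lay156
    [69, 68, 128, 68, 68, 2, 3, 69, 128, 129, 3, 130, 68, 5, 65, 67, 65, 67] = true := by
  decide +kernel

theorem ok_p155_2 : stepOKDR rows5 prio5 cap p155_2 lay156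
    [0, 128, 130, 1, 130, 64, 128, 5, 131, 131, 131, 66, 67, 131, 132, 133, 192] = true := by
  decide +kernel

theorem ok_p155_3 : stepOKDR rows5 prio5 cap p155_3 lay156
    [68, 69, 128, 131, 65, 194, 195, 197, 196, 256, 257, 193, 258] = true := by
  decide +kernel

theorem ok_p156_0 : stepOKDR rows5 prio5 cap p156_0 lay157
    [0, 1, 3, 4, 65, 66, 4, 3, 4, 65, 66, 130, 5, 64, 3, 4, 64, 65, 65, 66] = true := by
  decide +kernel

theorem ok_p156_1 : stepOKDR rows5 prio5 cap p156_1 lay157
    [68, 69, 4, 2, 67, 67, 130, 131, 3, 4, 4, 64, 66, 66, 4, 67, 67, 67, 67] = true := by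
  decide +kernel

theorem ok_p156_2 : stepOKDR rows5 prio5 cap p156_2 lay157
    [128, 130, 130, 129, 4, 132, 130, 0, 130, 1, 130, 64, 66, 130, 67, 133, 192, 193, 194] = true := by
  decide +kernel

theorem ok_p156_3 : stepOKDR rows5 prio5 cap p156_3 lay157
    [68, 69, 128, 131, 5, 2, 196, 197, 256, 257, 194, 195, 197, 258] = true := by
  decide +kernel

theorem ok_p156_4 : stepOKDR rows5 prio5 cap p156_4 lay157
    [132, 129, 133, 258, 259, 260, 260] = true := by
  decide +kernel

theorem ok_p157_0 : stepOKDR rows5 prio5 cap p157_0 lay158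
    [1, 1, 2, 130, 3, 5, 64, 66, 65, 65, 65, 3] = true := by
  decide +kernel

theorem ok_p157_1 : stepOKDR rows5 prio5 cap p157_1 lay158
    [130, 131, 132, 0, 65, 67, 68, 69, 128, 129] = true := by
  decide +kernel

theorem ok_p157_2 : stepOKDR rows5 prio5 cap p157_2 lay158
    [133, 1, 192, 4, 193, 131, 133, 65, 65, 65, 192, 65] = true := by
  decide +kernel

theorem ok_p157_3 : stepOKDR rows5 prio5 cap p157_3 lay158
    [131, 1, 2, 3, 1, 5, 194, 258, 259, 259, 196, 196, 258, 197, 197, 257] = true := by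
  decide +kernel

theorem ok_p157_4 : stepOKDR rows5 prio5 cap p157_4 lay158
    [132, 133, 1, 192, 1, 260, 261, 195, 196, 261, 320, 256, 320] = true := by
  decide +kernel

theorem ok_p158_0 : stepOKDR rows5 prio5 cap p158_0 lay159
    [0, 1, 2, 3, 4, 4, 65, 65, 4, 64, 66, 194, 67, 68, 128] = true := by
  decide +kernel

theorem ok_p158_1 : stepOKDR rows5 prio5 cap p158_1 lay159
    [5, 65, 4, 129, 130, 130, 129, 4, 129, 65, 129, 130, 130, 130, 130, 131] = true := by
  decide +kernel

theorem ok_p158_2 : stepOKDR rows5 prio5 cap p158_2 lay159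
    [132, 133, 192, 193, 130, 194, 4, 195, 5, 65, 69, 129, 130, 130, 69] = true := by
  decide +kernel

theorem ok_p158_3 : stepOKDR rows5 prio5 cap p158_3 lay159
    [194, 2, 64, 66, 3, 196, 69, 129, 194, 197, 256, 257] = true := by
  decide +kernel

theorem ok_p158_4 : stepOKDR rows5 prio5 cap p158_4 lay159
    [195, 133, 192, 193, 128, 68, 259, 260, 256, 261, 258, 256] = true := by
  decide +kernel

theorem ok_p158_5 : stepOKDR rows5 prio5 cap p158_5 lay159
    [196, 320] = true := by
  decide +kernel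

theorem ok_p159_0 : stepOKDR rows5 prio5 cap p159_0 lay160
    [0, 0, 65, 1, 0, 64, 66, 130, 2, 4, 3, 5] = true := by
  decide +kernel

end Vale.Agent.Lib.P302.helper8.Th863
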