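import Mathlib
import Vale.Agent.Lib.P302.helper8.Th863.Base
import Vale.Agent.Lib.P302.helper8.Th863.K49

/-!
# P302: chunks of the mask search of the 863-item instance (part 52)
-/

namespace Vale.Agent.Lib.P302.helper8.Th863

open Vale.Agent.Lib.P302.helper14 Vale.Agent.Lib.P302.helper8 Vale.Agent.Lib.P302.helper9

theorem ok_p159_1 : stepOKDR rows5 prio5 cap p159_1 lay160
    [0, 65, 4, 0, 4, 0, 65, 64, 66, 68, 66, 67] = true := by
  decide +kernel

theorem ok_p159_2 : stepOKDR rows5 prio5 cap p159_2 lay160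
    [130, 0, 131, 128, 4, 0, 3, 69, 68, 4, 3, 69, 69, 69, 69] = true := by
  decide +kernel

theorem ok_p159_3 : stepOKDR rows5 prio5 cap p159_3 lay160
    [1, 65, 66, 129, 64, 4, 0, 130, 131, 67, 132] = true := by
  decide +kernel

theorem ok_p159_4 : stepOKDR rows5 prio5 cap p159_4 lay160
    [131, 128, 129, 66, 2, 68] = true := by
  decide +kernel

theorem ok_p159_5 : stepOKDR rows5 prio5 cap p159_5 lay160
    [132] = true := by
  decide +kernel

theorem ok_p160_0 : stepOKDR rows5 prio5 cap p160_0 lay161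
    [6, 5, 0, 1, 0, 66, 3, 4, 6, 5, 5, 64] = true := by
  decide +kernel

theorem ok_p160_1 : stepOKDR rows5 prio5 cap p160_1 lay161
    [2, 3, 6, 64, 64, 6, 64, 65] = true := by
  decide +kernel

theorem ok_p160_2 : stepOKDR rows5 prio5 cap p160_2 lay161
    [66, 2, 6, 64, 65] = true := by
  decide +kernel

theorem ok_p161_0 : stepOKDR rows6 prio6 cap p161_0 lay162
    [2, 2, 2, 0, 0, 4, 4, 3, 3, 5, 5, 0, 4, 3, 5, 6, 6, 6, 6, 1,
     65, 64, 66, 1, 1, 1, 65, 65, 65, 64, 64, 64, 66, 66, 66] = true := by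
  decide +kernel

theorem ok_p161_1 : stepOKDR rows6 prio6 cap p161_1 lay162
    [2, 0, 4, 3, 5, 2, 0, 4, 3, 5, 2, 0, 4, 3, 5] = true := by
  decide +kernel

theorem ok_p162_0 : stepOKDR rows6 prio6 cap p162_0 lay163
    [0, 2, 1, 3, 4, 65, 67, 66, 68, 65, 67, 66, 68] = true := by
  decide +kernel

theorem ok_p162_1 : stepOKDR rows6 prio6 cap p162_1 lay163
    [6, 5, 64, 67, 66, 68] = true := by
  decide +kernel

theorem ok_p163_0 : stepOKDR rows6 prio6 cap p163_0 lay164
    [1, 0, 2, 3, 4, 6, 5, 1, 0, 2, 3, 4, 6, 5] = true := by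
  decide +kernel

theorem ok_p163_1 : stepOKDR rows6 prio6 cap p163_1 lay164
    [2, 6, 5, 64, 67, 66, 65, 69, 68] = true := by
  decide +kernel

theorem ok_p164_0 : stepOKDR rows6 prio6 cap p164_0 lay165
    [2, 1, 3, 4, 6, 5, 64, 65] = true := by
  decide +kernel

theorem ok_p164_1 : stepOKDR rows6 prio6 cap p164_1 lay165
    [0, 66, 128, 70, 67, 130, 129, 69, 68, 131, 132] = true := by
  decide +kernel

theorem ok_p165_0 : stepOKDR rows6 prio6 cap p165_0 lay166
    [0, 2, 1, 5, 64, 6, 67, 68, 69] = true := by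
  decide +kernel

theorem ok_p165_1 : stepOKDR rows6 prio6 cap p165_1 lay166
    [3, 4, 65, 66, 128, 133, 128, 130, 129, 70, 131, 128] = true := by
  decide +kernel

theorem ok_p165_2 : stepOKDR rows6 prio6 cap p165_2 lay166
    [134, 134, 133, 192, 193, 132, 134, 133] = true := by
  decide +kernel

theorem ok_p166_0 : stepOKDR rows6 prio6 cap p166_0 lay167
    [0, 5, 64, 6, 65, 66, 6, 2, 1, 3, 4, 6] = true := by
  decide +kernel

theorem ok_p166_1 : stepOKDR rows6 prio6 cap p166_1 lay167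
    [64, 65, 66, 67, 68, 69, 64, 65, 66, 130] = true := by
  decide +kernel

end Vale.Agent.Lib.P302.helper8.Th863
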