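import Mathlib
import Vale.Agent.Lib.P302.helper8.Th863.Base
import Vale.Agent.Lib.P302.helper8.Th863.K50

/-!
# P302: chunks of the mask search of the 863-item instance (part 53)
-/

namespace Vale.Agent.Lib.P302.helper8.Th863

open Vale.Agent.Lib.P302.helper14 Vale.Agent.Lib.P302.helper8 Vale.Agent.Lib.P302.helper9

theorem ok_p166_2 : stepOKDR rows6 prio6 cap p166_2 lay167
    [70, 129, 128, 130, 134, 133, 134, 133, 132, 131] = true := by
  decide +kernel

theorem ok_p166_3 : stepOKDR rows6 prio6 cap p166_3 lay167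
    [192, 193] = true := by
  decide +kernel

theorem ok_p167_0 : stepOKDR rows6 prio6 cap p167_0 lay168
    [0, 1, 5, 6, 64, 6, 65, 66] = true := by
  decide +kernel

theorem ok_p167_1 : stepOKDR rows6 prio6 cap p167_1 lay168
    [2, 3, 4, 64, 65, 66, 67, 68, 69, 129, 130] = true := by
  decide +kernel

theorem ok_p167_2 : stepOKDR rows6 prio6 cap p167_2 lay168
    [134, 133, 193, 192, 128, 70, 129, 134, 133, 194, 196, 195] = true := by
  decide +kernel

theorem ok_p167_3 : stepOKDR rows6 prio6 cap p167_3 lay168
    [131, 132] = true := by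
  decide +kernel

theorem ok_p168_0 : stepOKDR rows6 prio6 cap p168_0 lay169
    [0, 1, 6, 5, 64, 65, 67, 66, 68, 69, 5, 70] = true := by
  decide +kernel

theorem ok_p168_1 : stepOKDR rows6 prio6 cap p168_1 lay169
    [2, 3, 4, 6, 64, 65, 128, 129, 130, 132] = true := by
  decide +kernel

theorem ok_p168_2 : stepOKDR rows6 prio6 cap p168_2 lay169
    [134, 192, 257, 256, 131, 194, 193, 192, 133, 195, 196] = true := by
  decide +kernel

theorem ok_p168_3 : stepOKDR rows6 prio6 cap p168_3 lay169
    [198, 197, 257, 256, 258, 260, 259, 192, 257, 256] = true := by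
  decide +kernel

theorem ok_p169_0 : stepOKDR rows6 prio6 cap p169_0 lay170
    [66, 67, 194, 193, 69, 68, 129, 130, 131] = true := by
  decide +kernel

theorem ok_p169_1 : stepOKDR rows6 prio6 cap p169_1 lay170
    [133, 132, 134, 192, 195, 196, 70, 128, 194, 193, 195, 196, 197, 193] = true := by
  decide +kernel

theorem ok_p169_2 : stepOKDR rows6 prio6 cap p169_2 lay170
    [0, 198, 256, 257, 194, 195, 196, 261, 259, 258, 260, 260] = true := by
  decide +kernel

theorem ok_p169_3 : stepOKDR rows6 prio6 cap p169_3 lay170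
    [3, 2, 1, 261, 324, 323, 262, 320, 260, 322, 321, 322, 321] = true := by
  decide +kernel

theorem ok_p169_4 : stepOKDR rows6 prio6 cap p169_4 lay170
    [5, 4, 6, 65, 64, 324, 323, 322, 321, 261, 324, 323] = true := by
  decide +kernel

theorem ok_p170_0 : stepOKDR rows6 prio6 cap p170_0 lay171
    [130, 193, 192, 129, 134, 133, 130] = true := by
  decide +kernel

theorem ok_p170_1 : stepOKDR rows6 prio6 cap p170_1 lay171
    [0, 193, 192, 194, 256, 198, 257, 256, 198, 257] = true := by
  decide +kernel

theorem ok_p170_2 : stepOKDR rows6 prio6 cap p170_2 lay171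
    [2, 1, 3, 260, 259, 261, 195, 196, 197, 258, 258] = true := by
  decide +kernel

theorem ok_p170_3 : stepOKDR rows6 prio6 cap p170_3 lay171
    [4, 6, 5, 64, 65, 67, 66, 260, 259, 261, 262, 262, 256, 198, 257, 258, 260, 259] = true := by
  decide +kernel

theorem ok_p170_4 : stepOKDR rows6 prio6 cap p170_4 lay171
    [68, 69, 128, 70, 131, 261, 262, 320, 320, 130, 320] = true := by
  decide +kernel

theorem ok_p170_5 : stepOKDR rows6 prio6 cap p170_5 lay171
    [132, 322, 321, 322, 321, 193, 192, 322, 321] = true := by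
  decide +kernel

end Vale.Agent.Lib.P302.helper8.Th863
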