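import Mathlib
import Vale.Agent.Lib.P302.helper8.Th863.Base
import Vale.Agent.Lib.P302.helper8.Th863.K51

/-!
# P302: chunks of the mask search of the 863-item instance (part 54)
-/

namespace Vale.Agent.Lib.P302.helper8.Th863

open Vale.Agent.Lib.P302.helper14 Vale.Agent.Lib.P302.helper8 Vale.Agent.Lib.P302.helper9

theorem ok_p171_0 : stepOKDR rows6 prio6 cap p171_0 lay172
    [0, 67, 66, 68, 69, 6, 5] = true := by
  decide +kernel

theorem ok_p171_1 : stepOKDR rows6 prio6 cap p171_1 lay172
    [68, 69, 64, 65, 67, 66, 68, 69, 128] = true := by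
  decide +kernel

theorem ok_p171_2 : stepOKDR rows6 prio6 cap p171_2 lay172
    [70, 70, 131, 130, 129, 132, 133] = true := by
  decide +kernel

theorem ok_p171_3 : stepOKDR rows6 prio6 cap p171_3 lay172
    [1, 2, 3, 4, 131, 130, 134, 134] = true := by
  decide +kernel

theorem ok_p171_4 : stepOKDR rows6 prio6 cap p171_4 lay172
    [192, 134, 192, 193, 194, 193, 194, 67, 66, 68, 69, 192, 193, 194] = true := by
  decide +kernel

theorem ok_p171_5 : stepOKDR rows6 prio6 cap p171_5 lay172
    [70, 131, 130] = true := by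
  decide +kernel

theorem ok_p172_0 : stepOKDR rows6 prio6 cap p172_0 lay173
    [0, 1, 3, 2, 6, 64, 65] = true := by
  decide +kernel

theorem ok_p172_1 : stepOKDR rows6 prio6 cap p172_1 lay173
    [0, 3, 2, 4, 5, 4, 5, 66, 68, 67] = true := by
  decide +kernel

theorem ok_p172_2 : stepOKDR rows6 prio6 cap p172_2 lay173
    [2, 70, 69, 68, 67, 68, 67, 128, 129, 128, 129] = true := by
  decide +kernel

theorem ok_p172_3 : stepOKDR rows6 prio6 cap p172_3 lay173
    [3, 4, 5] = true := by
  decide +kernel

theorem ok_p173_0 : stepOKDR rows6 prio6 cap p173_0 lay174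
    [0, 2, 1, 3, 4, 5, 5, 6, 6, 64, 65] = true := by
  decide +kernel

theorem ok_p173_1 : stepOKDR rows6 prio6 cap p173_1 lay174
    [64, 65, 66, 70, 69, 68, 67] = true := by
  decide +kernel

theorem ok_p173_2 : stepOKDR rows6 prio6 cap p173_2 lay174
    [128, 129] = true := by
  decide +kernel

theorem ok_p174_0 : stepOKDR rows6 prio6 cap p174_0 lay175
    [0, 2, 1, 3, 4, 5, 6] = true := by
  decide +kernel

theorem ok_p174_1 : stepOKDR rows6 prio6 cap p174_1 lay175
    [64, 65, 66, 67, 128, 70, 130, 129, 69, 68] = true := by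
  decide +kernel

theorem ok_p174_2 : stepOKDR rows6 prio6 cap p174_2 lay175
    [131, 132] = true := by
  decide +kernel

theorem ok_p175_0 : stepOKDR rows6 prio6 cap p175_0 lay176
    [0, 2, 1, 4, 3, 5, 6, 64, 65, 66, 67] = true := by
  decide +kernel

theorem ok_p175_1 : stepOKDR rows6 prio6 cap p175_1 lay176
    [68, 69, 70, 130, 70, 129, 128] = true := by
  decide +kernel

theorem ok_p175_2 : stepOKDR rows6 prio6 cap p175_2 lay176
    [131, 131, 130, 132, 133] = true := by
  decide +kernel

theorem ok_p176_0 : stepOKDR rows6 prio6 cap p176_0 lay177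
    [0, 2, 1, 3, 4, 2, 1] = true := by
  decide +kernel

theorem ok_p176_1 : stepOKDR rows6 prio6 cap p176_1 lay177
    [3, 4, 5, 6, 7, 64, 66, 65] = true := by
  decide +kernel

theorem ok_p176_2 : stepOKDR rows6 prio6 cap p176_2 lay177
    [65, 68, 69, 70, 71, 65, 68, 69, 67] = true := by
  decide +kernel

end Vale.Agent.Lib.P302.helper8.Th863
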