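import Mathlib
import Vale.Agent.Lib.P302.helper8.Th863.Base
import Vale.Agent.Lib.P302.helper8.Th863.K52

/-!
# P302: chunks of the mask search of the 863-item instance (part 55)
-/

namespace Vale.Agent.Lib.P302.helper8.Th863

open Vale.Agent.Lib.P302.helper14 Vale.Agent.Lib.P302.helper8 Vale.Agent.Lib.P302.helper9

theorem ok_p177_0 : stepOKDR rows7 prio7 cap p177_0 lay178
    [0, 1, 2, 3, 1, 5, 6, 7, 64, 2, 3, 4] = true := by
  decide +kernel

theorem ok_p177_1 : stepOKDR rows7 prio7 cap p177_1 lay178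
    [0, 4, 65, 66, 67, 68, 66, 68, 69, 65, 66, 67, 68] = true := by
  decide +kernel

theorem ok_p178_0 : stepOKDR rows7 prio7 cap p178_0 lay179
    [0, 1, 2, 3, 4, 2, 4, 3, 5, 2, 3, 2, 7, 4] = true := by
  decide +kernel

theorem ok_p178_1 : stepOKDR rows7 prio7 cap p178_1 lay179
    [6, 4, 64, 65, 66, 67, 68] = true := by
  decide +kernel

theorem ok_p179_0 : stepOKDR rows7 prio7 cap p179_0 lay180
    [0, 1, 2, 3, 4, 5, 6, 7] = true := by
  decide +kernel

theorem ok_p179_1 : stepOKDR rows7 prio7 cap p179_1 lay180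
    [65, 64, 66, 67, 66] = true := by
  decide +kernel

theorem ok_p180_0 : stepOKDR rows7 prio7 cap p180_0 lay181
    [0, 1, 2, 1, 3, 3, 1, 3] = true := by
  decide +kernel

theorem ok_p180_1 : stepOKDR rows7 prio7 cap p180_1 lay181
    [4, 5, 6] = true := by
  decide +kernel

theorem ok_p181_0 : stepOKDR rows7 prio7 cap p181_0 lay182
    [1, 0, 2, 1, 1, 3] = true := by
  decide +kernel

theorem ok_p182_0 : stepOKDR rows7 prio7 cap p182_0 lay183
    [0, 1, 3, 2, 4, 4, 5] = true := by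
  decide +kernel

theorem ok_p183_0 : stepOKDR rows7 prio7 cap p183_0 lay184
    [0, 1, 1, 2, 4, 4, 3, 4, 5, 6, 6] = true := by
  decide +kernel

theorem ok_p184_0 : stepOKDR rows7 prio7 cap p184_0 lay185
    [0, 1, 1, 2, 2, 2, 3, 4, 4, 6, 5, 7, 64] = true := by
  decide +kernel

theorem ok_p185_0 : stepOKDR rows7 prio7 cap p185_0 lay186
    [0, 1, 2, 3, 5, 6, 6, 0, 7, 1, 7, 64, 65, 66, 67] = true := by
  decide +kernel

theorem ok_p185_1 : stepOKDR rows7 prio7 cap p185_1 lay186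
    [4, 1] = true := by
  decide +kernel

theorem ok_p186_0 : stepOKDR rows7 prio7 cap p186_0 lay187
    [0, 1, 2, 3, 2, 2, 2, 4, 2, 64, 65, 66, 67, 67, 68, 69] = true := by
  decide +kernel

theorem ok_p186_1 : stepOKDR rows7 prio7 cap p186_1 lay187
    [5, 6, 7, 0, 1, 1, 70] = true := by
  decide +kernel

theorem ok_p187_0 : stepOKDR rows7 prio7 cap p187_0 lay188
    [0, 1, 0, 0, 0, 2, 0, 3, 4, 6, 5, 7, 6, 64, 65, 66] = true := by
  decide +kernel

theorem ok_p187_1 : stepOKDR rows7 prio7 cap p187_1 lay188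
    [3, 7, 4, 6, 5, 67, 68, 69, 70, 5] = true := by
  decide +kernel

theorem ok_p188_0 : stepOKDR rows7 prio7 cap p188_0 lay189
    [0, 1, 3, 2, 4, 3, 6, 5, 6, 7, 64, 64] = true := by
  decide +kernel

theorem ok_p188_1 : stepOKDR rows7 prio7 cap p188_1 lay189
    [0, 4, 1, 3, 2, 7, 65, 66, 2] = true := by
  decide +kernel

theorem ok_p189_0 : stepOKDR rows7 prio7 cap p189_0 lay190
    [1, 0, 1, 2, 3, 3, 4, 4, 4, 6, 6, 6, 5, 5, 7, 7, 5, 7] = true := by
  decide +kernel

theorem ok_p189_1 : stepOKDR rows7 prio7 cap p189_1 lay190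
    [2, 4, 6, 5, 5, 7] = true := by
  decide +kernel

end Vale.Agent.Lib.P302.helper8.Th863
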