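import Mathlib
import Vale.Agent.Lib.P302.helper8.Th863.Base
import Vale.Agent.Lib.P302.helper8.Th863.K53

/-!
# P302: chunks of the mask search of the 863-item instance (part 56)
-/

namespace Vale.Agent.Lib.P302.helper8.Th863

open Vale.Agent.Lib.P302.helper14 Vale.Agent.Lib.P302.helper8 Vale.Agent.Lib.P302.helper9

theorem ok_p190_0 : stepOKDR rows7 prio7 cap p190_0 lay191
    [0, 0, 0, 0, 1, 1, 1, 1, 2, 2, 2, 2, 3, 4, 6, 5, 6, 7, 6, 6] = true := by
  decide +kernel

theorem ok_p191_0 : stepOKDR rows8 prio8 cap p191_0 lay192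
    [0, 1, 2, 3, 4, 5, 6, 8, 7] = true := by
  decide +kernel

theorem ok_p192_0 : stepOKDR rows8 prio8 cap p192_0 lay193
    [0, 1, 2, 3, 4, 5, 6, 7, 9, 64, 8] = true := by
  decide +kernel

theorem ok_p193_0 : stepOKDR rows8 prio8 cap p193_0 lay194
    [0, 1, 2, 3, 4, 5, 6, 7, 8, 8, 64, 9] = true := by
  decide +kernel

theorem ok_p193_1 : stepOKDR rows8 prio8 cap p193_1 lay194
    [64] = true := by
  decide +kernel

theorem ok_p194_0 : stepOKDR rows8 prio8 cap p194_0 lay195
    [0, 1, 2, 2, 3, 3, 4, 4, 5, 5, 6, 7, 7] = true := by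
  decide +kernel

theorem ok_p194_1 : stepOKDR rows8 prio8 cap p194_1 lay195
    [5, 8, 7] = true := by
  decide +kernel

theorem ok_p195_0 : stepOKDR rows8 prio8 cap p195_0 lay196
    [0, 0, 1, 1, 2, 3, 4, 4, 5, 5, 6, 7] = true := by
  decide +kernel

theorem ok_p196_0 : stepOKDR rows8 prio8 cap p196_0 lay197
    [0, 0, 1, 1, 2, 3, 4, 5, 6] = true := by
  decide +kernel

theorem ok_p197_0 : stepOKDR rows8 prio8 cap p197_0 lay198
    [0, 1, 2, 3, 3, 4, 5] = true := by
  decide +kernel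

theorem ok_p198_0 : stepOKDR rows8 prio8 cap p198_0 lay199
    [0, 0, 1, 3, 2, 2] = true := by
  decide +kernel

theorem ok_p199_0 : stepOKDR rows8 prio8 cap p199_0 lay200
    [0, 2, 3, 1] = true := by
  decide +kernel

theorem ok_p200_0 : stepOKDR rows8 prio8 cap p200_0 lay201
    [0, 1, 3, 3, 4, 3, 2] = true := by
  decide +kernel

theorem ok_p201_0 : stepOKDR rows8 prio8 cap p201_0 lay202
    [0, 0, 1, 0, 3, 4, 4, 2] = true := by
  decide +kernel

theorem ok_p202_0 : stepOKDR rows8 prio8 cap p202_0 lay203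
    [0, 1, 1, 3, 4, 5, 5, 2] = true := by
  decide +kernel

theorem ok_p203_0 : stepOKDR rows8 prio8 cap p203_0 lay204
    [0, 1, 2, 2, 4, 4, 3, 5, 3, 5, 6, 3] = true := by
  decide +kernel

theorem ok_p204_0 : stepOKDR rows8 prio8 cap p204_0 lay205
    [0, 0, 1, 1, 2, 3, 4, 5, 5, 6, 7, 4] = true := by
  decide +kernel

theorem ok_p205_0 : stepOKDR rows9 prio9 cap p205_0 lay206
    [0, 1, 1, 2, 3, 4, 6, 5, 6, 7, 7, 5] = true := by
  decide +kernel

theorem ok_p206_0 : stepOKDR rows9 prio9 cap p206_0 lay207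
    [0, 2, 1, 2, 1, 3, 3, 5, 4] = true := by
  decide +kernel

theorem ok_p207_0 : stepOKDR rows9 prio9 cap p207_0 lay208
    [0, 0, 1, 3, 2, 2] = true := by
  decide +kernel

theorem ok_p208_0 : stepOKDR rows9 prio9 cap p208_0 lay209
    [0, 2, 1] = true := by
  decide +kernel

theorem ok_p209_0 : stepOKDR rows9 prio9 cap p209_0 lay210
    [1, 0, 2, 3] = true := by
  decide +kernel

theorem ok_p210_0 : stepOKDR rows9 prio9 cap p210_0 lay211
    [0, 2, 2, 1, 3] = true := by
  decide +kernel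

theorem ok_p211_0 : stepOKDR rows9 prio9 cap p211_0 lay212
    [0, 0, 1, 2, 1] = true := by
  decide +kernel

theorem ok_p212_0 : stepOKDR rows9 prio9 cap p212_0 lay213
    [0, 1, 1] = true := by
  decide +kernel

theorem ok_p213_0 : stepOKDR rows9 prio9 cap p213_0 lay214
    [0, 1] = true := by
  decide +kernel

theorem ok_p214_0 : stepOKDR rows9 prio9 cap p214_0 lay215
    [0, 1] = true := by
  decide +kernel

theorem ok_p215_0 : stepOKDR rows10 prio10 cap p215_0 lay216
    [0] = true := by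
  decide +kernel

theorem ok_p216_0 : stepOKDR rows10 prio10 cap p216_0 lay217
    [0, 1] = true := by
  decide +kernel

theorem ok_p217_0 : stepOKDR rows10 prio10 cap p217_0 lay218
    [0, 1, 2, 0, 3] = true := by
  decide +kernel

theorem ok_p218_0 : stepOKDR rows10 prio10 cap p218_0 lay219
    [0, 1, 2, 2, 2, 3, 3, 4, 2, 5] = true := by
  decide +kernel

theorem ok_p219_0 : stepOKDR rows10 prio10 cap p219_0 lay220
    [0, 0, 0, 0, 1, 1, 1, 2, 3, 2, 0, 4, 5, 4, 0] = true := by
  decide +kernel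

theorem ok_p220_0 : stepOKDR rows10 prio10 cap p220_0 lay221
    [0, 0, 1, 2, 0, 3, 4, 0, 5, 0, 6, 7] = true := by
  decide +kernel

end Vale.Agent.Lib.P302.helper8.Th863
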