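import Mathlib
import Vale.Agent.Lib.P302.helper8.Th863.Base
import Vale.Agent.Lib.P302.helper8.Th863.K54

/-!
# P302: chunks of the mask search of the 863-item instance (part 57)
-/

namespace Vale.Agent.Lib.P302.helper8.Th863

open Vale.Agent.Lib.P302.helper14 Vale.Agent.Lib.P302.helper8 Vale.Agent.Lib.P302.helper9

theorem ok_p221_0 : stepOKDR rows10 prio10 cap p221_0 lay222
    [0, 0, 1, 1, 2, 3, 4, 5, 5, 6, 7, 7, 8, 8, 9, 10] = true := by
  decide +kernel

theorem ok_p222_0 : stepOKDR rows10 prio10 cap p222_0 lay223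
    [0, 0, 1, 2, 2, 2, 3, 3, 3, 4, 5, 5, 6, 4, 7, 4, 8, 4] = true := by
  decide +kernel

theorem ok_p223_0 : stepOKDR rows10 prio10 cap p223_0 lay224
    [0, 1, 2, 1, 3, 3, 3, 4, 2, 2, 5, 6] = true := by
  decide +kernel

theorem ok_p224_0 : stepOKDR rows10 prio10 cap p224_0 lay225
    [1, 2, 3, 0, 4, 1, 1, 1, 1, 1, 1, 2, 3, 0, 4, 2, 3, 0, 4, 2,
     3, 0, 4, 2, 3, 0, 4, 2, 3, 0, 4, 2, 3, 0, 4] = true := by
  decide +kernel

theorem ok_p225_0 : stepOKDR rows11 prio11 cap p225_0 lay226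
    [1, 2, 3, 0, 5, 6, 7, 8, 4] = true := by
  decide +kernel

theorem ok_p226_0 : stepOKDR rows11 prio11 cap p226_0 lay227
    [3, 0, 4, 5, 1, 2, 9, 6, 10, 11, 7, 8] = true := by
  decide +kernel

theorem ok_p227_0 : stepOKDR rows11 prio11 cap p227_0 lay228
    [5, 6, 7, 0, 1, 2, 8, 3, 4, 12, 13, 14, 9, 64, 10, 11] = true := by
  decide +kernel

theorem ok_p228_0 : stepOKDR rows11 prio11 cap p228_0 lay229
    [0, 1, 2, 11, 12, 13, 14, 3, 4, 5, 6, 7, 8, 9, 10, 64, 65, 66] = true := by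
  decide +kernel

theorem ok_p228_1 : stepOKDR rows11 prio11 cap p228_1 lay229
    [67] = true := by
  decide +kernel

theorem ok_p229_0 : stepOKDR rows11 prio11 cap p229_0 lay230
    [0, 1, 2, 3, 4, 5, 6, 7, 0, 1, 2, 12, 13, 14, 65] = true := by
  decide +kernel

theorem ok_p229_1 : stepOKDR rows11 prio11 cap p229_1 lay230
    [8, 9, 10, 11, 64, 66, 67, 68] = true := by
  decide +kernel

theorem ok_p230_0 : stepOKDR rows11 prio11 cap p230_0 lay231
    [0, 1, 2, 8, 9, 10, 3, 3, 4, 4, 5, 5, 11, 6, 6, 7, 7, 12, 13, 14] = true := by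
  decide +kernel

theorem ok_p230_1 : stepOKDR rows11 prio11 cap p230_1 lay231
    [64, 8, 9, 10, 11] = true := by
  decide +kernel

theorem ok_p231_0 : stepOKDR rows11 prio11 cap p231_0 lay232
    [3, 4, 5, 8, 0, 9, 6, 1, 2, 10, 10, 11, 11, 12, 12, 13, 7, 8, 9] = true := by
  decide +kernel

theorem ok_p231_1 : stepOKDR rows11 prio11 cap p231_1 lay232
    [13] = true := by
  decide +kernel

theorem ok_p232_0 : stepOKDR rows11 prio11 cap p232_0 lay233
    [0, 1, 2, 5, 6, 12, 7, 8, 3, 4, 9, 10, 11, 12, 8] = true := by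
  decide +kernel

theorem ok_p233_0 : stepOKDR rows11 prio11 cap p233_0 lay234
    [5, 6, 7, 0, 0, 1, 1, 2, 2, 3, 4, 8, 9, 11, 9, 10, 11] = true := by
  decide +kernel

theorem ok_p234_0 : stepOKDR rows11 prio11 cap p234_0 lay235
    [4, 4, 4, 5, 5, 5, 6, 6, 0, 1, 2, 3, 4, 5] = true := by
  decide +kernel

theorem ok_p235_0 : stepOKDR rows12 prio12 cap p235_0 lay236
    [3, 0, 0, 0, 1, 2] = true := by
  decide +kernel

theorem ok_p236_0 : stepOKDR rows12 prio12 cap p236_0 lay237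
    [1, 3, 4, 0, 1, 1, 2] = true := by
  decide +kernel

theorem ok_p237_0 : stepOKDR rows12 prio12 cap p237_0 lay238
    [0, 3, 3, 3, 4, 1, 2, 2] = true := by
  decide +kernel

theorem ok_p238_0 : stepOKDR rows12 prio12 cap p238_0 lay239
    [0, 0, 1, 3, 2, 4, 5, 5] = true := by
  decide +kernel

theorem ok_p239_0 : stepOKDR rows12 prio12 cap p239_0 lay240
    [0, 0, 2, 1, 0, 2, 3, 5, 4, 6, 7] = true := by
  decide +kernel

theorem ok_p240_0 : stepOKDR rows12 prio12 cap p240_0 lay241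
    [2, 0, 0, 1, 2, 3, 4, 0, 2, 6, 5, 7, 9, 8] = true := by
  decide +kernel

theorem ok_p241_0 : stepOKDR rows12 prio12 cap p241_0 lay242
    [2, 0, 1, 3, 3, 4, 2, 2, 0, 5, 3, 0, 7, 6, 8] = true := by
  decide +kernel

theorem ok_p242_0 : stepOKDR rows12 prio12 cap p242_0 lay243
    [3, 1, 2, 0, 0, 3, 3, 1, 1, 4] = true := by
  decide +kernel

theorem ok_p243_0 : stepOKDR rows13 prio13 cap p243_0 lay244
    [2, 2, 0, 0, 1] = true := by
  decide +kernel

theorem ok_p244_0 : stepOKDR rows13 prio13 cap p244_0 lay245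
    [0, 1, 2] = true := by
  decide +kernel

theorem ok_p245_0 : stepOKDR rows13 prio13 cap p245_0 lay246
    [0, 1, 2, 1] = true := by
  decide +kernel

theorem ok_p246_0 : stepOKDR rows13 prio13 cap p246_0 lay247
    [0, 2, 1, 4, 3] = true := by
  decide +kernel

theorem ok_p247_0 : stepOKDR rows13 prio13 cap p247_0 lay248
    [2, 2, 0, 1, 1] = true := by
  decide +kernel

theorem ok_p248_0 : stepOKDR rows14 prio14 cap p248_0 lay249
    [0, 1, 0] = true := by
  decide +kernel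

theorem ok_p249_0 : stepOKDR rows14 prio14 cap p249_0 lay250
    [0, 1] = true := by
  decide +kernel

theorem ok_p250_0 : stepOKDR rows14 prio14 cap p250_0 lay251
    [0, 1] = true := by
  decide +kernel

end Vale.Agent.Lib.P302.helper8.Th863
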