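import Mathlib
import Vale.Agent.Lib.P302.helper8.Th863.Base

/-!
# P302: checks on the row lists of the 863-item instance

The row lists are sorted with distinct positions (`rows_ok0`, ...), each shrunk row list consists
of the rows of the previous one inside its mask (`seg1`, ...), the layer at which it starts lies
inside the mask (`ins1`, ...), and `rows` lists the lightest items of `sizes` (`prep_ok`).
-/

namespace Vale.Agent.Lib.P302.helper8.Th863

open Vale.Agent.Lib.P302.helper14 Vale.Agent.Lib.P302.helper8 Vale.Agent.Lib.P302.helper9

theorem rows_ok0 : rowsOK rows = true := by decide +kernel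

theorem rows_ok1 : rowsOK rows1 = true := by decide +kernel

theorem seg1 : rowEqB rows1 (sel rows msk1) = true := by decide +kernel

theorem ins1 : insideB2 msk1 lay38 = true := by decide +kernel

theorem rows_ok2 : rowsOK rows2 = true := by decide +kernel

theorem seg2 : rowEqB rows2 (sel rows1 msk2) = true := by decide +kernel

theorem ins2 : insideB2 msk2 lay70 = true := by decide +kernel

theorem rows_ok3 : rowsOK rows3 = true := by decide +kernel

theorem seg3 : rowEqB rows3 (sel rows2 msk3) = true := by decide +kernel

theorem ins3 : insideB2 msk3 lay97 = true := by decide +kernel

theorem rows_ok4 : rowsOK rows4 = true := by decide +kernel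

theorem seg4 : rowEqB rows4 (sel rows3 msk4) = true := by decide +kernel

theorem ins4 : insideB2 msk4 lay120 = true := by decide +kernel

theorem rows_ok5 : rowsOK rows5 = true := by decide +kernel

theorem seg5 : rowEqB rows5 (sel rows4 msk5) = true := by decide +kernel

theorem ins5 : insideB2 msk5 lay141 = true := by decide +kernel

theorem rows_ok6 : rowsOK rows6 = true := by decide +kernel

theorem seg6 : rowEqB rows6 (sel rows5 msk6) = true := by decide +kernel

theorem ins6 : insideB2 msk6 lay161 = true := by decide +kernel

theorem rows_ok7 : rowsOK rows7 = true := by decide +kernel

theorem seg7 : rowEqB rows7 (sel rows6 msk7) = true := by decide +kernel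

theorem ins7 : insideB2 msk7 lay177 = true := by decide +kernel

theorem rows_ok8 : rowsOK rows8 = true := by decide +kernel

theorem seg8 : rowEqB rows8 (sel rows7 msk8) = true := by decide +kernel

theorem ins8 : insideB2 msk8 lay191 = true := by decide +kernel

theorem rows_ok9 : rowsOK rows9 = true := by decide +kernel

theorem seg9 : rowEqB rows9 (sel rows8 msk9) = true := by decide +kernel

theorem ins9 : insideB2 msk9 lay205 = true := by decide +kernel

theorem rows_ok10 : rowsOK rows10 = true := by decide +kernel

theorem seg10 : rowEqB rows10 (sel rows9 msk10) = true := by decide +kernel

theorem ins10 : insideB2 msk10 lay215 = true := by decide +kernel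

theorem rows_ok11 : rowsOK rows11 = true := by decide +kernel

theorem seg11 : rowEqB rows11 (sel rows10 msk11) = true := by decide +kernel

theorem ins11 : insideB2 msk11 lay225 = true := by decide +kernel

theorem rows_ok12 : rowsOK rows12 = true := by decide +kernel

theorem seg12 : rowEqB rows12 (sel rows11 msk12) = true := by decide +kernel

theorem ins12 : insideB2 msk12 lay235 = true := by decide +kernel

theorem rows_ok13 : rowsOK rows13 = true := by decide +kernel

theorem seg13 : rowEqB rows13 (sel rows12 msk13) = true := by decide +kernel

theorem ins13 : insideB2 msk13 lay243 = true := by decide +kernel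

theorem rows_ok14 : rowsOK rows14 = true := by decide +kernel

theorem seg14 : rowEqB rows14 (sel rows13 msk14) = true := by decide +kernel

theorem ins14 : insideB2 msk14 lay248 = true := by decide +kernel

theorem rows_ok15 : rowsOK rows15 = true := by decide +kernel

theorem seg15 : rowEqB rows15 (sel rows14 msk15) = true := by decide +kernel

theorem ins15 : insideB2 msk15 lay252 = true := by decide +kernel

theorem rows_ok16 : rowsOK rows16 = true := by decide +kernel

theorem seg16 : rowEqB rows16 (sel rows15 msk16) = true := by decide +kernel

theorem ins16 : insideB2 msk16 lay259 = true := by decide +kernel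

theorem rows_ok17 : rowsOK rows17 = true := by decide +kernel

theorem seg17 : rowEqB rows17 (sel rows16 msk17) = true := by decide +kernel

theorem ins17 : insideB2 msk17 lay261 = true := by decide +kernel

theorem rows_ok18 : rowsOK rows18 = true := by decide +kernel

theorem seg18 : rowEqB rows18 (sel rows17 msk18) = true := by decide +kernel

theorem ins18 : insideB2 msk18 lay266 = true := by decide +kernel

theorem rows_ok19 : rowsOK rows19 = true := by decide +kernel

theorem seg19 : rowEqB rows19 (sel rows18 msk19) = true := by decide +kernel

theorem ins19 : insideB2 msk19 lay269 = true := by decide +kernel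

theorem rows_ok20 : rowsOK rows20 = true := by decide +kernel

theorem seg20 : rowEqB rows20 (sel rows19 msk20) = true := by decide +kernel

theorem ins20 : insideB2 msk20 lay271 = true := by decide +kernel

theorem rows_ok21 : rowsOK rows21 = true := by decide +kernel

theorem seg21 : rowEqB rows21 (sel rows20 msk21) = true := by decide +kernel

theorem ins21 : insideB2 msk21 lay273 = true := by decide +kernel

theorem rows_ok22 : rowsOK rows22 = true := by decide +kernel

theorem seg22 : rowEqB rows22 (sel rows21 msk22) = true := by decide +kernel

theorem ins22 : insideB2 msk22 lay276 = true := by decide +kernel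

theorem rows_ok23 : rowsOK rows23 = true := by decide +kernel

theorem seg23 : rowEqB rows23 (sel rows22 msk23) = true := by decide +kernel

theorem ins23 : insideB2 msk23 lay278 = true := by decide +kernel

theorem rows_ok24 : rowsOK rows24 = true := by decide +kernel

theorem seg24 : rowEqB rows24 (sel rows23 msk24) = true := by decide +kernel

theorem ins24 : insideB2 msk24 lay279 = true := by decide +kernel

theorem rows_ok25 : rowsOK rows25 = true := by decide +kernel

theorem seg25 : rowEqB rows25 (sel rows24 msk25) = true := by decide +kernel

theorem ins25 : insideB2 msk25 lay280 = true := by decide +kernel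

theorem rows_ok26 : rowsOK rows26 = true := by decide +kernel

theorem seg26 : rowEqB rows26 (sel rows25 msk26) = true := by decide +kernel

theorem ins26 : insideB2 msk26 lay282 = true := by decide +kernel

theorem rows_ok27 : rowsOK rows27 = true := by decide +kernel

theorem seg27 : rowEqB rows27 (sel rows26 msk27) = true := by decide +kernel

theorem ins27 : insideB2 msk27 lay283 = true := by decide +kernel

theorem rows_ok28 : rowsOK rows28 = true := by decide +kernel

theorem seg28 : rowEqB rows28 (sel rows27 msk28) = true := by decide +kernel

theorem ins28 : insideB2 msk28 lay284 = true := by decide +kernel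

theorem prep_ok : prepF sizes cap 288 rows m0 = true := by decide +kernel

end Vale.Agent.Lib.P302.helper8.Th863
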