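import Mathlib
import Vale.Agent.Lib.P302.helper8.Th863.Seg
import Vale.Agent.Lib.P302.helper8.Th863.K0
import Vale.Agent.Lib.P302.helper8.Th863.K1
import Vale.Agent.Lib.P302.helper8.Th863.K2
import Vale.Agent.Lib.P302.helper8.Th863.K3
import Vale.Agent.Lib.P302.helper8.Th863.K4
import Vale.Agent.Lib.P302.helper8.Th863.K5
import Vale.Agent.Lib.P302.helper8.Th863.K6
import Vale.Agent.Lib.P302.helper8.Th863.K7
import Vale.Agent.Lib.P302.helper8.Th863.K8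
import Vale.Agent.Lib.P302.helper8.Th863.K9
import Vale.Agent.Lib.P302.helper8.Th863.K10
import Vale.Agent.Lib.P302.helper8.Th863.K11
import Vale.Agent.Lib.P302.helper8.Th863.K12
import Vale.Agent.Lib.P302.helper8.Th863.K13
import Vale.Agent.Lib.P302.helper8.Th863.K14
import Vale.Agent.Lib.P302.helper8.Th863.K15
import Vale.Agent.Lib.P302.helper8.Th863.K16
import Vale.Agent.Lib.P302.helper8.Th863.K17
import Vale.Agent.Lib.P302.helper8.Th863.K18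
import Vale.Agent.Lib.P302.helper8.Th863.K19
import Vale.Agent.Lib.P302.helper8.Th863.K20
import Vale.Agent.Lib.P302.helper8.Th863.K21
import Vale.Agent.Lib.P302.helper8.Th863.K22
import Vale.Agent.Lib.P302.helper8.Th863.K23
import Vale.Agent.Lib.P302.helper8.Th863.K24
import Vale.Agent.Lib.P302.helper8.Th863.K25
import Vale.Agent.Lib.P302.helper8.Th863.K26
import Vale.Agent.Lib.P302.helper8.Th863.K27
import Vale.Agent.Lib.P302.helper8.Th863.K28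
import Vale.Agent.Lib.P302.helper8.Th863.K29
import Vale.Agent.Lib.P302.helper8.Th863.K30
import Vale.Agent.Lib.P302.helper8.Th863.K31
import Vale.Agent.Lib.P302.helper8.Th863.K32
import Vale.Agent.Lib.P302.helper8.Th863.K33
import Vale.Agent.Lib.P302.helper8.Th863.K34
import Vale.Agent.Lib.P302.helper8.Th863.K35
import Vale.Agent.Lib.P302.helper8.Th863.K36
import Vale.Agent.Lib.P302.helper8.Th863.K37
import Vale.Agent.Lib.P302.helper8.Th863.K38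
import Vale.Agent.Lib.P302.helper8.Th863.K39
import Vale.Agent.Lib.P302.helper8.Th863.K40
import Vale.Agent.Lib.P302.helper8.Th863.K41
import Vale.Agent.Lib.P302.helper8.Th863.K42
import Vale.Agent.Lib.P302.helper8.Th863.K43
import Vale.Agent.Lib.P302.helper8.Th863.K44
import Vale.Agent.Lib.P302.helper8.Th863.K45
import Vale.Agent.Lib.P302.helper8.Th863.K46
import Vale.Agent.Lib.P302.helper8.Th863.K47
import Vale.Agent.Lib.P302.helper8.Th863.K48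
import Vale.Agent.Lib.P302.helper8.Th863.K49
import Vale.Agent.Lib.P302.helper8.Th863.K50
import Vale.Agent.Lib.P302.helper8.Th863.K51
import Vale.Agent.Lib.P302.helper8.Th863.K52
import Vale.Agent.Lib.P302.helper8.Th863.K53
import Vale.Agent.Lib.P302.helper8.Th863.K54
import Vale.Agent.Lib.P302.helper8.Th863.K55
import Vale.Agent.Lib.P302.helper8.Th863.K56
import Vale.Agent.Lib.P302.helper8.Th863.K57
import Vale.Agent.Lib.P302.helper8.Th863.K58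

/-!
# P302: the mask search of the 863-item instance, put together

No state of any layer can be split into triples of total size at most `cap`.
-/

namespace Vale.Agent.Lib.P302.helper8.Th863

open Vale.Agent.Lib.P302.helper14 Vale.Agent.Lib.P302.helper8 Vale.Agent.Lib.P302.helper9

theorem no285 : ∀ p ∈ lay285, ∀ m ∈ p, ¬ TriPart cap (szs (sel rows28 m)) :=
  nil_no2 _ cap

theorem no284 : ∀ p ∈ lay284, ∀ m ∈ p, ¬ TriPart cap (szs (sel rows28 m)) :=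
  cons_no2 (stepOKDR_sound rows_ok28 ok_p284_0 no285)
    (nil_no2 _ cap)

theorem no284r : ∀ p ∈ lay284, ∀ m ∈ p, ¬ TriPart cap (szs (sel rows27 m)) :=
  restrict_no2 seg28 ins28 no284

theorem no283 : ∀ p ∈ lay283, ∀ m ∈ p, ¬ TriPart cap (szs (sel rows27 m)) :=
  cons_no2 (stepOKDR_sound rows_ok27 ok_p283_0 no284r)
    (nil_no2 _ cap)

theorem no283r : ∀ p ∈ lay283, ∀ m ∈ p, ¬ TriPart cap (szs (sel rows26 m)) :=
  restrict_no2 seg27 ins27 no283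

theorem no282 : ∀ p ∈ lay282, ∀ m ∈ p, ¬ TriPart cap (szs (sel rows26 m)) :=
  cons_no2 (stepOKDR_sound rows_ok26 ok_p282_0 no283r)
    (nil_no2 _ cap)

theorem no282r : ∀ p ∈ lay282, ∀ m ∈ p, ¬ TriPart cap (szs (sel rows25 m)) :=
  restrict_no2 seg26 ins26 no282

theorem no281 : ∀ p ∈ lay281, ∀ m ∈ p, ¬ TriPart cap (szs (sel rows25 m)) :=
  cons_no2 (stepOKDR_sound rows_ok25 ok_p281_0 no282r)
    (nil_no2 _ cap)

theorem no280 : ∀ p ∈ lay280, ∀ m ∈ p, ¬ TriPart cap (szs (sel rows25 m)) :=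
  cons_no2 (stepOKDR_sound rows_ok25 ok_p280_0 no281)
    (nil_no2 _ cap)

theorem no280r : ∀ p ∈ lay280, ∀ m ∈ p, ¬ TriPart cap (szs (sel rows24 m)) :=
  restrict_no2 seg25 ins25 no280

theorem no279 : ∀ p ∈ lay279, ∀ m ∈ p, ¬ TriPart cap (szs (sel rows24 m)) :=
  cons_no2 (stepOKDR_sound rows_ok24 ok_p279_0 no280r)
    (nil_no2 _ cap)

theorem no279r : ∀ p ∈ lay279, ∀ m ∈ p, ¬ TriPart cap (szs (sel rows23 m)) :=
  restrict_no2 seg24 ins24 no279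

theorem no278 : ∀ p ∈ lay278, ∀ m ∈ p, ¬ TriPart cap (szs (sel rows23 m)) :=
  cons_no2 (stepOKDR_sound rows_ok23 ok_p278_0 no279r)
    (nil_no2 _ cap)

theorem no278r : ∀ p ∈ lay278, ∀ m ∈ p, ¬ TriPart cap (szs (sel rows22 m)) :=
  restrict_no2 seg23 ins23 no278

theorem no277 : ∀ p ∈ lay277, ∀ m ∈ p, ¬ TriPart cap (szs (sel rows22 m)) :=
  cons_no2 (stepOKDR_sound rows_ok22 ok_p277_0 no278r)
    (nil_no2 _ cap)

theorem no276 : ∀ p ∈ lay276, ∀ m ∈ p, ¬ TriPart cap (szs (sel rows22 m)) :=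
  cons_no2 (stepOKDR_sound rows_ok22 ok_p276_0 no277)
    (nil_no2 _ cap)

theorem no276r : ∀ p ∈ lay276, ∀ m ∈ p, ¬ TriPart cap (szs (sel rows21 m)) :=
  restrict_no2 seg22 ins22 no276

theorem no275 : ∀ p ∈ lay275, ∀ m ∈ p, ¬ TriPart cap (szs (sel rows21 m)) :=
  cons_no2 (stepOKDR_sound rows_ok21 ok_p275_0 no276r)
    (nil_no2 _ cap)

theorem no274 : ∀ p ∈ lay274, ∀ m ∈ p, ¬ TriPart cap (szs (sel rows21 m)) :=
  cons_no2 (stepOKDR_sound rows_ok21 ok_p274_0 no275)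
    (nil_no2 _ cap)

theorem no273 : ∀ p ∈ lay273, ∀ m ∈ p, ¬ TriPart cap (szs (sel rows21 m)) :=
  cons_no2 (stepOKDR_sound rows_ok21 ok_p273_0 no274)
    (nil_no2 _ cap)

theorem no273r : ∀ p ∈ lay273, ∀ m ∈ p, ¬ TriPart cap (szs (sel rows20 m)) :=
  restrict_no2 seg21 ins21 no273

theorem no272 : ∀ p ∈ lay272, ∀ m ∈ p, ¬ TriPart cap (szs (sel rows20 m)) :=
  cons_no2 (stepOKDR_sound rows_ok20 ok_p272_0 no273r)
    (nil_no2 _ cap)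

theorem no271 : ∀ p ∈ lay271, ∀ m ∈ p, ¬ TriPart cap (szs (sel rows20 m)) :=
  cons_no2 (stepOKDR_sound rows_ok20 ok_p271_0 no272)
    (nil_no2 _ cap)

theorem no271r : ∀ p ∈ lay271, ∀ m ∈ p, ¬ TriPart cap (szs (sel rows19 m)) :=
  restrict_no2 seg20 ins20 no271

theorem no270 : ∀ p ∈ lay270, ∀ m ∈ p, ¬ TriPart cap (szs (sel rows19 m)) :=
  cons_no2 (stepOKDR_sound rows_ok19 ok_p270_0 no271r)
    (nil_no2 _ cap)

theorem no269 : ∀ p ∈ lay269, ∀ m ∈ p, ¬ TriPart cap (szs (sel rows19 m)) :=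
  cons_no2 (stepOKDR_sound rows_ok19 ok_p269_0 no270)
    (nil_no2 _ cap)

theorem no269r : ∀ p ∈ lay269, ∀ m ∈ p, ¬ TriPart cap (szs (sel rows18 m)) :=
  restrict_no2 seg19 ins19 no269

theorem no268 : ∀ p ∈ lay268, ∀ m ∈ p, ¬ TriPart cap (szs (sel rows18 m)) :=
  cons_no2 (stepOKDR_sound rows_ok18 ok_p268_0 no269r)
    (nil_no2 _ cap)

theorem no267 : ∀ p ∈ lay267, ∀ m ∈ p, ¬ TriPart cap (szs (sel rows18 m)) :=
  cons_no2 (stepOKDR_sound rows_ok18 ok_p267_0 no268)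
    (nil_no2 _ cap)

theorem no266 : ∀ p ∈ lay266, ∀ m ∈ p, ¬ TriPart cap (szs (sel rows18 m)) :=
  cons_no2 (stepOKDR_sound rows_ok18 ok_p266_0 no267)
    (nil_no2 _ cap)

theorem no266r : ∀ p ∈ lay266, ∀ m ∈ p, ¬ TriPart cap (szs (sel rows17 m)) :=
  restrict_no2 seg18 ins18 no266

theorem no265 : ∀ p ∈ lay265, ∀ m ∈ p, ¬ TriPart cap (szs (sel rows17 m)) :=
  cons_no2 (stepOKDR_sound rows_ok17 ok_p265_0 no266r)
    (nil_no2 _ cap)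

theorem no264 : ∀ p ∈ lay264, ∀ m ∈ p, ¬ TriPart cap (szs (sel rows17 m)) :=
  cons_no2 (stepOKDR_sound rows_ok17 ok_p264_0 no265)
    (nil_no2 _ cap)

theorem no263 : ∀ p ∈ lay263, ∀ m ∈ p, ¬ TriPart cap (szs (sel rows17 m)) :=
  cons_no2 (stepOKDR_sound rows_ok17 ok_p263_0 no264)
    (nil_no2 _ cap)

theorem no262 : ∀ p ∈ lay262, ∀ m ∈ p, ¬ TriPart cap (szs (sel rows17 m)) :=
  cons_no2 (stepOKDR_sound rows_ok17 ok_p262_0 no263)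
    (nil_no2 _ cap)

theorem no261 : ∀ p ∈ lay261, ∀ m ∈ p, ¬ TriPart cap (szs (sel rows17 m)) :=
  cons_no2 (stepOKDR_sound rows_ok17 ok_p261_0 no262)
    (nil_no2 _ cap)

theorem no261r : ∀ p ∈ lay261, ∀ m ∈ p, ¬ TriPart cap (szs (sel rows16 m)) :=
  restrict_no2 seg17 ins17 no261

theorem no260 : ∀ p ∈ lay260, ∀ m ∈ p, ¬ TriPart cap (szs (sel rows16 m)) :=
  cons_no2 (stepOKDR_sound rows_ok16 ok_p260_0 no261r)
    (nil_no2 _ cap)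

theorem no259 : ∀ p ∈ lay259, ∀ m ∈ p, ¬ TriPart cap (szs (sel rows16 m)) :=
  cons_no2 (stepOKDR_sound rows_ok16 ok_p259_0 no260)
    (nil_no2 _ cap)

theorem no259r : ∀ p ∈ lay259, ∀ m ∈ p, ¬ TriPart cap (szs (sel rows15 m)) :=
  restrict_no2 seg16 ins16 no259

theorem no258 : ∀ p ∈ lay258, ∀ m ∈ p, ¬ TriPart cap (szs (sel rows15 m)) :=
  cons_no2 (stepOKDR_sound rows_ok15 ok_p258_0 no259r)
    (nil_no2 _ cap)

theorem no257 : ∀ p ∈ lay257, ∀ m ∈ p, ¬ TriPart cap (szs (sel rows15 m)) :=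
  cons_no2 (stepOKDR_sound rows_ok15 ok_p257_0 no258)
    (nil_no2 _ cap)

theorem no256 : ∀ p ∈ lay256, ∀ m ∈ p, ¬ TriPart cap (szs (sel rows15 m)) :=
  cons_no2 (stepOKDR_sound rows_ok15 ok_p256_0 no257)
    (nil_no2 _ cap)

theorem no255 : ∀ p ∈ lay255, ∀ m ∈ p, ¬ TriPart cap (szs (sel rows15 m)) :=
  cons_no2 (stepOKDR_sound rows_ok15 ok_p255_0 no256)
    (nil_no2 _ cap)

theorem no254 : ∀ p ∈ lay254, ∀ m ∈ p, ¬ TriPart cap (szs (sel rows15 m)) :=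
  cons_no2 (stepOKDR_sound rows_ok15 ok_p254_0 no255)
    (nil_no2 _ cap)

theorem no253 : ∀ p ∈ lay253, ∀ m ∈ p, ¬ TriPart cap (szs (sel rows15 m)) :=
  cons_no2 (stepOKDR_sound rows_ok15 ok_p253_0 no254)
    (nil_no2 _ cap)

theorem no252 : ∀ p ∈ lay252, ∀ m ∈ p, ¬ TriPart cap (szs (sel rows15 m)) :=
  cons_no2 (stepOKDR_sound rows_ok15 ok_p252_0 no253)
    (nil_no2 _ cap)

theorem no252r : ∀ p ∈ lay252, ∀ m ∈ p, ¬ TriPart cap (szs (sel rows14 m)) :=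
  restrict_no2 seg15 ins15 no252

theorem no251 : ∀ p ∈ lay251, ∀ m ∈ p, ¬ TriPart cap (szs (sel rows14 m)) :=
  cons_no2 (stepOKDR_sound rows_ok14 ok_p251_0 no252r)
    (nil_no2 _ cap)

theorem no250 : ∀ p ∈ lay250, ∀ m ∈ p, ¬ TriPart cap (szs (sel rows14 m)) :=
  cons_no2 (stepOKDR_sound rows_ok14 ok_p250_0 no251)
    (nil_no2 _ cap)

theorem no249 : ∀ p ∈ lay249, ∀ m ∈ p, ¬ TriPart cap (szs (sel rows14 m)) :=
  cons_no2 (stepOKDR_sound rows_ok14 ok_p249_0 no250)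
    (nil_no2 _ cap)

theorem no248 : ∀ p ∈ lay248, ∀ m ∈ p, ¬ TriPart cap (szs (sel rows14 m)) :=
  cons_no2 (stepOKDR_sound rows_ok14 ok_p248_0 no249)
    (nil_no2 _ cap)

theorem no248r : ∀ p ∈ lay248, ∀ m ∈ p, ¬ TriPart cap (szs (sel rows13 m)) :=
  restrict_no2 seg14 ins14 no248

theorem no247 : ∀ p ∈ lay247, ∀ m ∈ p, ¬ TriPart cap (szs (sel rows13 m)) :=
  cons_no2 (stepOKDR_sound rows_ok13 ok_p247_0 no248r)
    (nil_no2 _ cap)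

theorem no246 : ∀ p ∈ lay246, ∀ m ∈ p, ¬ TriPart cap (szs (sel rows13 m)) :=
  cons_no2 (stepOKDR_sound rows_ok13 ok_p246_0 no247)
    (nil_no2 _ cap)

theorem no245 : ∀ p ∈ lay245, ∀ m ∈ p, ¬ TriPart cap (szs (sel rows13 m)) :=
  cons_no2 (stepOKDR_sound rows_ok13 ok_p245_0 no246)
    (nil_no2 _ cap)

theorem no244 : ∀ p ∈ lay244, ∀ m ∈ p, ¬ TriPart cap (szs (sel rows13 m)) :=
  cons_no2 (stepOKDR_sound rows_ok13 ok_p244_0 no245)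
    (nil_no2 _ cap)

theorem no243 : ∀ p ∈ lay243, ∀ m ∈ p, ¬ TriPart cap (szs (sel rows13 m)) :=
  cons_no2 (stepOKDR_sound rows_ok13 ok_p243_0 no244)
    (nil_no2 _ cap)

theorem no243r : ∀ p ∈ lay243, ∀ m ∈ p, ¬ TriPart cap (szs (sel rows12 m)) :=
  restrict_no2 seg13 ins13 no243

theorem no242 : ∀ p ∈ lay242, ∀ m ∈ p, ¬ TriPart cap (szs (sel rows12 m)) :=
  cons_no2 (stepOKDR_sound rows_ok12 ok_p242_0 no243r)
    (nil_no2 _ cap)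

theorem no241 : ∀ p ∈ lay241, ∀ m ∈ p, ¬ TriPart cap (szs (sel rows12 m)) :=
  cons_no2 (stepOKDR_sound rows_ok12 ok_p241_0 no242)
    (nil_no2 _ cap)

theorem no240 : ∀ p ∈ lay240, ∀ m ∈ p, ¬ TriPart cap (szs (sel rows12 m)) :=
  cons_no2 (stepOKDR_sound rows_ok12 ok_p240_0 no241)
    (nil_no2 _ cap)

theorem no239 : ∀ p ∈ lay239, ∀ m ∈ p, ¬ TriPart cap (szs (sel rows12 m)) :=
  cons_no2 (stepOKDR_sound rows_ok12 ok_p239_0 no240)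
    (nil_no2 _ cap)

theorem no238 : ∀ p ∈ lay238, ∀ m ∈ p, ¬ TriPart cap (szs (sel rows12 m)) :=
  cons_no2 (stepOKDR_sound rows_ok12 ok_p238_0 no239)
    (nil_no2 _ cap)

theorem no237 : ∀ p ∈ lay237, ∀ m ∈ p, ¬ TriPart cap (szs (sel rows12 m)) :=
  cons_no2 (stepOKDR_sound rows_ok12 ok_p237_0 no238)
    (nil_no2 _ cap)

theorem no236 : ∀ p ∈ lay236, ∀ m ∈ p, ¬ TriPart cap (szs (sel rows12 m)) :=
  cons_no2 (stepOKDR_sound rows_ok12 ok_p236_0 no237)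
    (nil_no2 _ cap)

theorem no235 : ∀ p ∈ lay235, ∀ m ∈ p, ¬ TriPart cap (szs (sel rows12 m)) :=
  cons_no2 (stepOKDR_sound rows_ok12 ok_p235_0 no236)
    (nil_no2 _ cap)

theorem no235r : ∀ p ∈ lay235, ∀ m ∈ p, ¬ TriPart cap (szs (sel rows11 m)) :=
  restrict_no2 seg12 ins12 no235

theorem no234 : ∀ p ∈ lay234, ∀ m ∈ p, ¬ TriPart cap (szs (sel rows11 m)) :=
  cons_no2 (stepOKDR_sound rows_ok11 ok_p234_0 no235r)
    (nil_no2 _ cap)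

theorem no233 : ∀ p ∈ lay233, ∀ m ∈ p, ¬ TriPart cap (szs (sel rows11 m)) :=
  cons_no2 (stepOKDR_sound rows_ok11 ok_p233_0 no234)
    (nil_no2 _ cap)

theorem no232 : ∀ p ∈ lay232, ∀ m ∈ p, ¬ TriPart cap (szs (sel rows11 m)) :=
  cons_no2 (stepOKDR_sound rows_ok11 ok_p232_0 no233)
    (nil_no2 _ cap)

theorem no231 : ∀ p ∈ lay231, ∀ m ∈ p, ¬ TriPart cap (szs (sel rows11 m)) :=
  cons_no2 (stepOKDR_sound rows_ok11 ok_p231_0 no232)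
    (cons_no2 (stepOKDR_sound rows_ok11 ok_p231_1 no232)
    (nil_no2 _ cap))

theorem no230 : ∀ p ∈ lay230, ∀ m ∈ p, ¬ TriPart cap (szs (sel rows11 m)) :=
  cons_no2 (stepOKDR_sound rows_ok11 ok_p230_0 no231)
    (cons_no2 (stepOKDR_sound rows_ok11 ok_p230_1 no231)
    (nil_no2 _ cap))

theorem no229 : ∀ p ∈ lay229, ∀ m ∈ p, ¬ TriPart cap (szs (sel rows11 m)) :=
  cons_no2 (stepOKDR_sound rows_ok11 ok_p229_0 no230)
    (cons_no2 (stepOKDR_sound rows_ok11 ok_p229_1 no230)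
    (nil_no2 _ cap))

theorem no228 : ∀ p ∈ lay228, ∀ m ∈ p, ¬ TriPart cap (szs (sel rows11 m)) :=
  cons_no2 (stepOKDR_sound rows_ok11 ok_p228_0 no229)
    (cons_no2 (stepOKDR_sound rows_ok11 ok_p228_1 no229)
    (nil_no2 _ cap))

theorem no227 : ∀ p ∈ lay227, ∀ m ∈ p, ¬ TriPart cap (szs (sel rows11 m)) :=
  cons_no2 (stepOKDR_sound rows_ok11 ok_p227_0 no228)
    (nil_no2 _ cap)

theorem no226 : ∀ p ∈ lay226, ∀ m ∈ p, ¬ TriPart cap (szs (sel rows11 m)) :=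
  cons_no2 (stepOKDR_sound rows_ok11 ok_p226_0 no227)
    (nil_no2 _ cap)

theorem no225 : ∀ p ∈ lay225, ∀ m ∈ p, ¬ TriPart cap (szs (sel rows11 m)) :=
  cons_no2 (stepOKDR_sound rows_ok11 ok_p225_0 no226)
    (nil_no2 _ cap)

theorem no225r : ∀ p ∈ lay225, ∀ m ∈ p, ¬ TriPart cap (szs (sel rows10 m)) :=
  restrict_no2 seg11 ins11 no225

theorem no224 : ∀ p ∈ lay224, ∀ m ∈ p, ¬ TriPart cap (szs (sel rows10 m)) :=
  cons_no2 (stepOKDR_sound rows_ok10 ok_p224_0 no225r)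
    (nil_no2 _ cap)

theorem no223 : ∀ p ∈ lay223, ∀ m ∈ p, ¬ TriPart cap (szs (sel rows10 m)) :=
  cons_no2 (stepOKDR_sound rows_ok10 ok_p223_0 no224)
    (nil_no2 _ cap)

theorem no222 : ∀ p ∈ lay222, ∀ m ∈ p, ¬ TriPart cap (szs (sel rows10 m)) :=
  cons_no2 (stepOKDR_sound rows_ok10 ok_p222_0 no223)
    (nil_no2 _ cap)

theorem no221 : ∀ p ∈ lay221, ∀ m ∈ p, ¬ TriPart cap (szs (sel rows10 m)) :=
  cons_no2 (stepOKDR_sound rows_ok10 ok_p221_0 no222)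
    (nil_no2 _ cap)

theorem no220 : ∀ p ∈ lay220, ∀ m ∈ p, ¬ TriPart cap (szs (sel rows10 m)) :=
  cons_no2 (stepOKDR_sound rows_ok10 ok_p220_0 no221)
    (nil_no2 _ cap)

theorem no219 : ∀ p ∈ lay219, ∀ m ∈ p, ¬ TriPart cap (szs (sel rows10 m)) :=
  cons_no2 (stepOKDR_sound rows_ok10 ok_p219_0 no220)
    (nil_no2 _ cap)

theorem no218 : ∀ p ∈ lay218, ∀ m ∈ p, ¬ TriPart cap (szs (sel rows10 m)) :=
  cons_no2 (stepOKDR_sound rows_ok10 ok_p218_0 no219)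
    (nil_no2 _ cap)

theorem no217 : ∀ p ∈ lay217, ∀ m ∈ p, ¬ TriPart cap (szs (sel rows10 m)) :=
  cons_no2 (stepOKDR_sound rows_ok10 ok_p217_0 no218)
    (nil_no2 _ cap)

theorem no216 : ∀ p ∈ lay216, ∀ m ∈ p, ¬ TriPart cap (szs (sel rows10 m)) :=
  cons_no2 (stepOKDR_sound rows_ok10 ok_p216_0 no217)
    (nil_no2 _ cap)

theorem no215 : ∀ p ∈ lay215, ∀ m ∈ p, ¬ TriPart cap (szs (sel rows10 m)) :=
  cons_no2 (stepOKDR_sound rows_ok10 ok_p215_0 no216)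
    (nil_no2 _ cap)

theorem no215r : ∀ p ∈ lay215, ∀ m ∈ p, ¬ TriPart cap (szs (sel rows9 m)) :=
  restrict_no2 seg10 ins10 no215

theorem no214 : ∀ p ∈ lay214, ∀ m ∈ p, ¬ TriPart cap (szs (sel rows9 m)) :=
  cons_no2 (stepOKDR_sound rows_ok9 ok_p214_0 no215r)
    (nil_no2 _ cap)

theorem no213 : ∀ p ∈ lay213, ∀ m ∈ p, ¬ TriPart cap (szs (sel rows9 m)) :=
  cons_no2 (stepOKDR_sound rows_ok9 ok_p213_0 no214)
    (nil_no2 _ cap)

theorem no212 : ∀ p ∈ lay212, ∀ m ∈ p, ¬ TriPart cap (szs (sel rows9 m)) :=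
  cons_no2 (stepOKDR_sound rows_ok9 ok_p212_0 no213)
    (nil_no2 _ cap)

theorem no211 : ∀ p ∈ lay211, ∀ m ∈ p, ¬ TriPart cap (szs (sel rows9 m)) :=
  cons_no2 (stepOKDR_sound rows_ok9 ok_p211_0 no212)
    (nil_no2 _ cap)

theorem no210 : ∀ p ∈ lay210, ∀ m ∈ p, ¬ TriPart cap (szs (sel rows9 m)) :=
  cons_no2 (stepOKDR_sound rows_ok9 ok_p210_0 no211)
    (nil_no2 _ cap)

theorem no209 : ∀ p ∈ lay209, ∀ m ∈ p, ¬ TriPart cap (szs (sel rows9 m)) :=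
  cons_no2 (stepOKDR_sound rows_ok9 ok_p209_0 no210)
    (nil_no2 _ cap)

theorem no208 : ∀ p ∈ lay208, ∀ m ∈ p, ¬ TriPart cap (szs (sel rows9 m)) :=
  cons_no2 (stepOKDR_sound rows_ok9 ok_p208_0 no209)
    (nil_no2 _ cap)

theorem no207 : ∀ p ∈ lay207, ∀ m ∈ p, ¬ TriPart cap (szs (sel rows9 m)) :=
  cons_no2 (stepOKDR_sound rows_ok9 ok_p207_0 no208)
    (nil_no2 _ cap)

theorem no206 : ∀ p ∈ lay206, ∀ m ∈ p, ¬ TriPart cap (szs (sel rows9 m)) :=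
  cons_no2 (stepOKDR_sound rows_ok9 ok_p206_0 no207)
    (nil_no2 _ cap)

theorem no205 : ∀ p ∈ lay205, ∀ m ∈ p, ¬ TriPart cap (szs (sel rows9 m)) :=
  cons_no2 (stepOKDR_sound rows_ok9 ok_p205_0 no206)
    (nil_no2 _ cap)

theorem no205r : ∀ p ∈ lay205, ∀ m ∈ p, ¬ TriPart cap (szs (sel rows8 m)) :=
  restrict_no2 seg9 ins9 no205

theorem no204 : ∀ p ∈ lay204, ∀ m ∈ p, ¬ TriPart cap (szs (sel rows8 m)) :=
  cons_no2 (stepOKDR_sound rows_ok8 ok_p204_0 no205r)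
    (nil_no2 _ cap)

theorem no203 : ∀ p ∈ lay203, ∀ m ∈ p, ¬ TriPart cap (szs (sel rows8 m)) :=
  cons_no2 (stepOKDR_sound rows_ok8 ok_p203_0 no204)
    (nil_no2 _ cap)

theorem no202 : ∀ p ∈ lay202, ∀ m ∈ p, ¬ TriPart cap (szs (sel rows8 m)) :=
  cons_no2 (stepOKDR_sound rows_ok8 ok_p202_0 no203)
    (nil_no2 _ cap)

theorem no201 : ∀ p ∈ lay201, ∀ m ∈ p, ¬ TriPart cap (szs (sel rows8 m)) :=
  cons_no2 (stepOKDR_sound rows_ok8 ok_p201_0 no202)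
    (nil_no2 _ cap)

theorem no200 : ∀ p ∈ lay200, ∀ m ∈ p, ¬ TriPart cap (szs (sel rows8 m)) :=
  cons_no2 (stepOKDR_sound rows_ok8 ok_p200_0 no201)
    (nil_no2 _ cap)

theorem no199 : ∀ p ∈ lay199, ∀ m ∈ p, ¬ TriPart cap (szs (sel rows8 m)) :=
  cons_no2 (stepOKDR_sound rows_ok8 ok_p199_0 no200)
    (nil_no2 _ cap)

theorem no198 : ∀ p ∈ lay198, ∀ m ∈ p, ¬ TriPart cap (szs (sel rows8 m)) :=
  cons_no2 (stepOKDR_sound rows_ok8 ok_p198_0 no199)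
    (nil_no2 _ cap)

theorem no197 : ∀ p ∈ lay197, ∀ m ∈ p, ¬ TriPart cap (szs (sel rows8 m)) :=
  cons_no2 (stepOKDR_sound rows_ok8 ok_p197_0 no198)
    (nil_no2 _ cap)

theorem no196 : ∀ p ∈ lay196, ∀ m ∈ p, ¬ TriPart cap (szs (sel rows8 m)) :=
  cons_no2 (stepOKDR_sound rows_ok8 ok_p196_0 no197)
    (nil_no2 _ cap)

theorem no195 : ∀ p ∈ lay195, ∀ m ∈ p, ¬ TriPart cap (szs (sel rows8 m)) :=
  cons_no2 (stepOKDR_sound rows_ok8 ok_p195_0 no196)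
    (nil_no2 _ cap)

theorem no194 : ∀ p ∈ lay194, ∀ m ∈ p, ¬ TriPart cap (szs (sel rows8 m)) :=
  cons_no2 (stepOKDR_sound rows_ok8 ok_p194_0 no195)
    (cons_no2 (stepOKDR_sound rows_ok8 ok_p194_1 no195)
    (nil_no2 _ cap))

theorem no193 : ∀ p ∈ lay193, ∀ m ∈ p, ¬ TriPart cap (szs (sel rows8 m)) :=
  cons_no2 (stepOKDR_sound rows_ok8 ok_p193_0 no194)
    (cons_no2 (stepOKDR_sound rows_ok8 ok_p193_1 no194)
    (nil_no2 _ cap))

theorem no192 : ∀ p ∈ lay192, ∀ m ∈ p, ¬ TriPart cap (szs (sel rows8 m)) :=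
  cons_no2 (stepOKDR_sound rows_ok8 ok_p192_0 no193)
    (nil_no2 _ cap)

theorem no191 : ∀ p ∈ lay191, ∀ m ∈ p, ¬ TriPart cap (szs (sel rows8 m)) :=
  cons_no2 (stepOKDR_sound rows_ok8 ok_p191_0 no192)
    (nil_no2 _ cap)

theorem no191r : ∀ p ∈ lay191, ∀ m ∈ p, ¬ TriPart cap (szs (sel rows7 m)) :=
  restrict_no2 seg8 ins8 no191

theorem no190 : ∀ p ∈ lay190, ∀ m ∈ p, ¬ TriPart cap (szs (sel rows7 m)) :=
  cons_no2 (stepOKDR_sound rows_ok7 ok_p190_0 no191r)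
    (nil_no2 _ cap)

theorem no189 : ∀ p ∈ lay189, ∀ m ∈ p, ¬ TriPart cap (szs (sel rows7 m)) :=
  cons_no2 (stepOKDR_sound rows_ok7 ok_p189_0 no190)
    (cons_no2 (stepOKDR_sound rows_ok7 ok_p189_1 no190)
    (nil_no2 _ cap))

theorem no188 : ∀ p ∈ lay188, ∀ m ∈ p, ¬ TriPart cap (szs (sel rows7 m)) :=
  cons_no2 (stepOKDR_sound rows_ok7 ok_p188_0 no189)
    (cons_no2 (stepOKDR_sound rows_ok7 ok_p188_1 no189)
    (nil_no2 _ cap))

theorem no187 : ∀ p ∈ lay187, ∀ m ∈ p, ¬ TriPart cap (szs (sel rows7 m)) :=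
  cons_no2 (stepOKDR_sound rows_ok7 ok_p187_0 no188)
    (cons_no2 (stepOKDR_sound rows_ok7 ok_p187_1 no188)
    (nil_no2 _ cap))

theorem no186 : ∀ p ∈ lay186, ∀ m ∈ p, ¬ TriPart cap (szs (sel rows7 m)) :=
  cons_no2 (stepOKDR_sound rows_ok7 ok_p186_0 no187)
    (cons_no2 (stepOKDR_sound rows_ok7 ok_p186_1 no187)
    (nil_no2 _ cap))

theorem no185 : ∀ p ∈ lay185, ∀ m ∈ p, ¬ TriPart cap (szs (sel rows7 m)) :=
  cons_no2 (stepOKDR_sound rows_ok7 ok_p185_0 no186)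
    (cons_no2 (stepOKDR_sound rows_ok7 ok_p185_1 no186)
    (nil_no2 _ cap))

theorem no184 : ∀ p ∈ lay184, ∀ m ∈ p, ¬ TriPart cap (szs (sel rows7 m)) :=
  cons_no2 (stepOKDR_sound rows_ok7 ok_p184_0 no185)
    (nil_no2 _ cap)

theorem no183 : ∀ p ∈ lay183, ∀ m ∈ p, ¬ TriPart cap (szs (sel rows7 m)) :=
  cons_no2 (stepOKDR_sound rows_ok7 ok_p183_0 no184)
    (nil_no2 _ cap)

theorem no182 : ∀ p ∈ lay182, ∀ m ∈ p, ¬ TriPart cap (szs (sel rows7 m)) :=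
  cons_no2 (stepOKDR_sound rows_ok7 ok_p182_0 no183)
    (nil_no2 _ cap)

theorem no181 : ∀ p ∈ lay181, ∀ m ∈ p, ¬ TriPart cap (szs (sel rows7 m)) :=
  cons_no2 (stepOKDR_sound rows_ok7 ok_p181_0 no182)
    (nil_no2 _ cap)

theorem no180 : ∀ p ∈ lay180, ∀ m ∈ p, ¬ TriPart cap (szs (sel rows7 m)) :=
  cons_no2 (stepOKDR_sound rows_ok7 ok_p180_0 no181)
    (cons_no2 (stepOKDR_sound rows_ok7 ok_p180_1 no181)
    (nil_no2 _ cap))

theorem no179 : ∀ p ∈ lay179, ∀ m ∈ p, ¬ TriPart cap (szs (sel rows7 m)) :=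
  cons_no2 (stepOKDR_sound rows_ok7 ok_p179_0 no180)
    (cons_no2 (stepOKDR_sound rows_ok7 ok_p179_1 no180)
    (nil_no2 _ cap))

theorem no178 : ∀ p ∈ lay178, ∀ m ∈ p, ¬ TriPart cap (szs (sel rows7 m)) :=
  cons_no2 (stepOKDR_sound rows_ok7 ok_p178_0 no179)
    (cons_no2 (stepOKDR_sound rows_ok7 ok_p178_1 no179)
    (nil_no2 _ cap))

theorem no177 : ∀ p ∈ lay177, ∀ m ∈ p, ¬ TriPart cap (szs (sel rows7 m)) :=
  cons_no2 (stepOKDR_sound rows_ok7 ok_p177_0 no178)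
    (cons_no2 (stepOKDR_sound rows_ok7 ok_p177_1 no178)
    (nil_no2 _ cap))

theorem no177r : ∀ p ∈ lay177, ∀ m ∈ p, ¬ TriPart cap (szs (sel rows6 m)) :=
  restrict_no2 seg7 ins7 no177

theorem no176 : ∀ p ∈ lay176, ∀ m ∈ p, ¬ TriPart cap (szs (sel rows6 m)) :=
  cons_no2 (stepOKDR_sound rows_ok6 ok_p176_0 no177r)
    (cons_no2 (stepOKDR_sound rows_ok6 ok_p176_1 no177r)
    (cons_no2 (stepOKDR_sound rows_ok6 ok_p176_2 no177r)
    (nil_no2 _ cap)))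

theorem no175 : ∀ p ∈ lay175, ∀ m ∈ p, ¬ TriPart cap (szs (sel rows6 m)) :=
  cons_no2 (stepOKDR_sound rows_ok6 ok_p175_0 no176)
    (cons_no2 (stepOKDR_sound rows_ok6 ok_p175_1 no176)
    (cons_no2 (stepOKDR_sound rows_ok6 ok_p175_2 no176)
    (nil_no2 _ cap)))

theorem no174 : ∀ p ∈ lay174, ∀ m ∈ p, ¬ TriPart cap (szs (sel rows6 m)) :=
  cons_no2 (stepOKDR_sound rows_ok6 ok_p174_0 no175)
    (cons_no2 (stepOKDR_sound rows_ok6 ok_p174_1 no175)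
    (cons_no2 (stepOKDR_sound rows_ok6 ok_p174_2 no175)
    (nil_no2 _ cap)))

theorem no173 : ∀ p ∈ lay173, ∀ m ∈ p, ¬ TriPart cap (szs (sel rows6 m)) :=
  cons_no2 (stepOKDR_sound rows_ok6 ok_p173_0 no174)
    (cons_no2 (stepOKDR_sound rows_ok6 ok_p173_1 no174)
    (cons_no2 (stepOKDR_sound rows_ok6 ok_p173_2 no174)
    (nil_no2 _ cap)))

theorem no172 : ∀ p ∈ lay172, ∀ m ∈ p, ¬ TriPart cap (szs (sel rows6 m)) :=
  cons_no2 (stepOKDR_sound rows_ok6 ok_p172_0 no173)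
    (cons_no2 (stepOKDR_sound rows_ok6 ok_p172_1 no173)
    (cons_no2 (stepOKDR_sound rows_ok6 ok_p172_2 no173)
    (cons_no2 (stepOKDR_sound rows_ok6 ok_p172_3 no173)
    (nil_no2 _ cap))))

theorem no171 : ∀ p ∈ lay171, ∀ m ∈ p, ¬ TriPart cap (szs (sel rows6 m)) :=
  cons_no2 (stepOKDR_sound rows_ok6 ok_p171_0 no172)
    (cons_no2 (stepOKDR_sound rows_ok6 ok_p171_1 no172)
    (cons_no2 (stepOKDR_sound rows_ok6 ok_p171_2 no172)
    (cons_no2 (stepOKDR_sound rows_ok6 ok_p171_3 no172)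
    (cons_no2 (stepOKDR_sound rows_ok6 ok_p171_4 no172)
    (cons_no2 (stepOKDR_sound rows_ok6 ok_p171_5 no172)
    (nil_no2 _ cap))))))

theorem no170 : ∀ p ∈ lay170, ∀ m ∈ p, ¬ TriPart cap (szs (sel rows6 m)) :=
  cons_no2 (stepOKDR_sound rows_ok6 ok_p170_0 no171)
    (cons_no2 (stepOKDR_sound rows_ok6 ok_p170_1 no171)
    (cons_no2 (stepOKDR_sound rows_ok6 ok_p170_2 no171)
    (cons_no2 (stepOKDR_sound rows_ok6 ok_p170_3 no171)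
    (cons_no2 (stepOKDR_sound rows_ok6 ok_p170_4 no171)
    (cons_no2 (stepOKDR_sound rows_ok6 ok_p170_5 no171)
    (nil_no2 _ cap))))))

theorem no169 : ∀ p ∈ lay169, ∀ m ∈ p, ¬ TriPart cap (szs (sel rows6 m)) :=
  cons_no2 (stepOKDR_sound rows_ok6 ok_p169_0 no170)
    (cons_no2 (stepOKDR_sound rows_ok6 ok_p169_1 no170)
    (cons_no2 (stepOKDR_sound rows_ok6 ok_p169_2 no170)
    (cons_no2 (stepOKDR_sound rows_ok6 ok_p169_3 no170)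
    (cons_no2 (stepOKDR_sound rows_ok6 ok_p169_4 no170)
    (nil_no2 _ cap)))))

theorem no168 : ∀ p ∈ lay168, ∀ m ∈ p, ¬ TriPart cap (szs (sel rows6 m)) :=
  cons_no2 (stepOKDR_sound rows_ok6 ok_p168_0 no169)
    (cons_no2 (stepOKDR_sound rows_ok6 ok_p168_1 no169)
    (cons_no2 (stepOKDR_sound rows_ok6 ok_p168_2 no169)
    (cons_no2 (stepOKDR_sound rows_ok6 ok_p168_3 no169)
    (nil_no2 _ cap))))

theorem no167 : ∀ p ∈ lay167, ∀ m ∈ p, ¬ TriPart cap (szs (sel rows6 m)) :=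
  cons_no2 (stepOKDR_sound rows_ok6 ok_p167_0 no168)
    (cons_no2 (stepOKDR_sound rows_ok6 ok_p167_1 no168)
    (cons_no2 (stepOKDR_sound rows_ok6 ok_p167_2 no168)
    (cons_no2 (stepOKDR_sound rows_ok6 ok_p167_3 no168)
    (nil_no2 _ cap))))

theorem no166 : ∀ p ∈ lay166, ∀ m ∈ p, ¬ TriPart cap (szs (sel rows6 m)) :=
  cons_no2 (stepOKDR_sound rows_ok6 ok_p166_0 no167)
    (cons_no2 (stepOKDR_sound rows_ok6 ok_p166_1 no167)
    (cons_no2 (stepOKDR_sound rows_ok6 ok_p166_2 no167)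
    (cons_no2 (stepOKDR_sound rows_ok6 ok_p166_3 no167)
    (nil_no2 _ cap))))

theorem no165 : ∀ p ∈ lay165, ∀ m ∈ p, ¬ TriPart cap (szs (sel rows6 m)) :=
  cons_no2 (stepOKDR_sound rows_ok6 ok_p165_0 no166)
    (cons_no2 (stepOKDR_sound rows_ok6 ok_p165_1 no166)
    (cons_no2 (stepOKDR_sound rows_ok6 ok_p165_2 no166)
    (nil_no2 _ cap)))

theorem no164 : ∀ p ∈ lay164, ∀ m ∈ p, ¬ TriPart cap (szs (sel rows6 m)) :=
  cons_no2 (stepOKDR_sound rows_ok6 ok_p164_0 no165)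
    (cons_no2 (stepOKDR_sound rows_ok6 ok_p164_1 no165)
    (nil_no2 _ cap))

theorem no163 : ∀ p ∈ lay163, ∀ m ∈ p, ¬ TriPart cap (szs (sel rows6 m)) :=
  cons_no2 (stepOKDR_sound rows_ok6 ok_p163_0 no164)
    (cons_no2 (stepOKDR_sound rows_ok6 ok_p163_1 no164)
    (nil_no2 _ cap))

theorem no162 : ∀ p ∈ lay162, ∀ m ∈ p, ¬ TriPart cap (szs (sel rows6 m)) :=
  cons_no2 (stepOKDR_sound rows_ok6 ok_p162_0 no163)
    (cons_no2 (stepOKDR_sound rows_ok6 ok_p162_1 no163)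
    (nil_no2 _ cap))

theorem no161 : ∀ p ∈ lay161, ∀ m ∈ p, ¬ TriPart cap (szs (sel rows6 m)) :=
  cons_no2 (stepOKDR_sound rows_ok6 ok_p161_0 no162)
    (cons_no2 (stepOKDR_sound rows_ok6 ok_p161_1 no162)
    (nil_no2 _ cap))

theorem no161r : ∀ p ∈ lay161, ∀ m ∈ p, ¬ TriPart cap (szs (sel rows5 m)) :=
  restrict_no2 seg6 ins6 no161

theorem no160 : ∀ p ∈ lay160, ∀ m ∈ p, ¬ TriPart cap (szs (sel rows5 m)) :=
  cons_no2 (stepOKDR_sound rows_ok5 ok_p160_0 no161r)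
    (cons_no2 (stepOKDR_sound rows_ok5 ok_p160_1 no161r)
    (cons_no2 (stepOKDR_sound rows_ok5 ok_p160_2 no161r)
    (nil_no2 _ cap)))

theorem no159 : ∀ p ∈ lay159, ∀ m ∈ p, ¬ TriPart cap (szs (sel rows5 m)) :=
  cons_no2 (stepOKDR_sound rows_ok5 ok_p159_0 no160)
    (cons_no2 (stepOKDR_sound rows_ok5 ok_p159_1 no160)
    (cons_no2 (stepOKDR_sound rows_ok5 ok_p159_2 no160)
    (cons_no2 (stepOKDR_sound rows_ok5 ok_p159_3 no160)
    (cons_no2 (stepOKDR_sound rows_ok5 ok_p159_4 no160)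
    (cons_no2 (stepOKDR_sound rows_ok5 ok_p159_5 no160)
    (nil_no2 _ cap))))))

theorem no158 : ∀ p ∈ lay158, ∀ m ∈ p, ¬ TriPart cap (szs (sel rows5 m)) :=
  cons_no2 (stepOKDR_sound rows_ok5 ok_p158_0 no159)
    (cons_no2 (stepOKDR_sound rows_ok5 ok_p158_1 no159)
    (cons_no2 (stepOKDR_sound rows_ok5 ok_p158_2 no159)
    (cons_no2 (stepOKDR_sound rows_ok5 ok_p158_3 no159)
    (cons_no2 (stepOKDR_sound rows_ok5 ok_p158_4 no159)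
    (cons_no2 (stepOKDR_sound rows_ok5 ok_p158_5 no159)
    (nil_no2 _ cap))))))

theorem no157 : ∀ p ∈ lay157, ∀ m ∈ p, ¬ TriPart cap (szs (sel rows5 m)) :=
  cons_no2 (stepOKDR_sound rows_ok5 ok_p157_0 no158)
    (cons_no2 (stepOKDR_sound rows_ok5 ok_p157_1 no158)
    (cons_no2 (stepOKDR_sound rows_ok5 ok_p157_2 no158)
    (cons_no2 (stepOKDR_sound rows_ok5 ok_p157_3 no158)
    (cons_no2 (stepOKDR_sound rows_ok5 ok_p157_4 no158)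
    (nil_no2 _ cap)))))

theorem no156 : ∀ p ∈ lay156, ∀ m ∈ p, ¬ TriPart cap (szs (sel rows5 m)) :=
  cons_no2 (stepOKDR_sound rows_ok5 ok_p156_0 no157)
    (cons_no2 (stepOKDR_sound rows_ok5 ok_p156_1 no157)
    (cons_no2 (stepOKDR_sound rows_ok5 ok_p156_2 no157)
    (cons_no2 (stepOKDR_sound rows_ok5 ok_p156_3 no157)
    (cons_no2 (stepOKDR_sound rows_ok5 ok_p156_4 no157)
    (nil_no2 _ cap)))))

theorem no155 : ∀ p ∈ lay155, ∀ m ∈ p, ¬ TriPart cap (szs (sel rows5 m)) :=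
  cons_no2 (stepOKDR_sound rows_ok5 ok_p155_0 no156)
    (cons_no2 (stepOKDR_sound rows_ok5 ok_p155_1 no156)
    (cons_no2 (stepOKDR_sound rows_ok5 ok_p155_2 no156)
    (cons_no2 (stepOKDR_sound rows_ok5 ok_p155_3 no156)
    (nil_no2 _ cap))))

theorem no154 : ∀ p ∈ lay154, ∀ m ∈ p, ¬ TriPart cap (szs (sel rows5 m)) :=
  cons_no2 (stepOKDR_sound rows_ok5 ok_p154_0 no155)
    (cons_no2 (stepOKDR_sound rows_ok5 ok_p154_1 no155)
    (cons_no2 (stepOKDR_sound rows_ok5 ok_p154_2 no155)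
    (cons_no2 (stepOKDR_sound rows_ok5 ok_p154_3 no155)
    (nil_no2 _ cap))))

theorem no153 : ∀ p ∈ lay153, ∀ m ∈ p, ¬ TriPart cap (szs (sel rows5 m)) :=
  cons_no2 (stepOKDR_sound rows_ok5 ok_p153_0 no154)
    (cons_no2 (stepOKDR_sound rows_ok5 ok_p153_1 no154)
    (cons_no2 (stepOKDR_sound rows_ok5 ok_p153_2 no154)
    (nil_no2 _ cap)))

theorem no152 : ∀ p ∈ lay152, ∀ m ∈ p, ¬ TriPart cap (szs (sel rows5 m)) :=
  cons_no2 (stepOKDR_sound rows_ok5 ok_p152_0 no153)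
    (cons_no2 (stepOKDR_sound rows_ok5 ok_p152_1 no153)
    (cons_no2 (stepOKDR_sound rows_ok5 ok_p152_2 no153)
    (nil_no2 _ cap)))

theorem no151 : ∀ p ∈ lay151, ∀ m ∈ p, ¬ TriPart cap (szs (sel rows5 m)) :=
  cons_no2 (stepOKDR_sound rows_ok5 ok_p151_0 no152)
    (cons_no2 (stepOKDR_sound rows_ok5 ok_p151_1 no152)
    (cons_no2 (stepOKDR_sound rows_ok5 ok_p151_2 no152)
    (cons_no2 (stepOKDR_sound rows_ok5 ok_p151_3 no152)
    (nil_no2 _ cap))))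

theorem no150 : ∀ p ∈ lay150, ∀ m ∈ p, ¬ TriPart cap (szs (sel rows5 m)) :=
  cons_no2 (stepOKDR_sound rows_ok5 ok_p150_0 no151)
    (cons_no2 (stepOKDR_sound rows_ok5 ok_p150_1 no151)
    (cons_no2 (stepOKDR_sound rows_ok5 ok_p150_2 no151)
    (cons_no2 (stepOKDR_sound rows_ok5 ok_p150_3 no151)
    (nil_no2 _ cap))))

theorem no149 : ∀ p ∈ lay149, ∀ m ∈ p, ¬ TriPart cap (szs (sel rows5 m)) :=
  cons_no2 (stepOKDR_sound rows_ok5 ok_p149_0 no150)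
    (cons_no2 (stepOKDR_sound rows_ok5 ok_p149_1 no150)
    (cons_no2 (stepOKDR_sound rows_ok5 ok_p149_2 no150)
    (nil_no2 _ cap)))

theorem no148 : ∀ p ∈ lay148, ∀ m ∈ p, ¬ TriPart cap (szs (sel rows5 m)) :=
  cons_no2 (stepOKDR_sound rows_ok5 ok_p148_0 no149)
    (cons_no2 (stepOKDR_sound rows_ok5 ok_p148_1 no149)
    (cons_no2 (stepOKDR_sound rows_ok5 ok_p148_2 no149)
    (nil_no2 _ cap)))

theorem no147 : ∀ p ∈ lay147, ∀ m ∈ p, ¬ TriPart cap (szs (sel rows5 m)) :=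
  cons_no2 (stepOKDR_sound rows_ok5 ok_p147_0 no148)
    (cons_no2 (stepOKDR_sound rows_ok5 ok_p147_1 no148)
    (nil_no2 _ cap))

theorem no146 : ∀ p ∈ lay146, ∀ m ∈ p, ¬ TriPart cap (szs (sel rows5 m)) :=
  cons_no2 (stepOKDR_sound rows_ok5 ok_p146_0 no147)
    (cons_no2 (stepOKDR_sound rows_ok5 ok_p146_1 no147)
    (nil_no2 _ cap))

theorem no145 : ∀ p ∈ lay145, ∀ m ∈ p, ¬ TriPart cap (szs (sel rows5 m)) :=
  cons_no2 (stepOKDR_sound rows_ok5 ok_p145_0 no146)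
    (nil_no2 _ cap)

theorem no144 : ∀ p ∈ lay144, ∀ m ∈ p, ¬ TriPart cap (szs (sel rows5 m)) :=
  cons_no2 (stepOKDR_sound rows_ok5 ok_p144_0 no145)
    (nil_no2 _ cap)

theorem no143 : ∀ p ∈ lay143, ∀ m ∈ p, ¬ TriPart cap (szs (sel rows5 m)) :=
  cons_no2 (stepOKDR_sound rows_ok5 ok_p143_0 no144)
    (nil_no2 _ cap)

theorem no142 : ∀ p ∈ lay142, ∀ m ∈ p, ¬ TriPart cap (szs (sel rows5 m)) :=
  cons_no2 (stepOKDR_sound rows_ok5 ok_p142_0 no143)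
    (nil_no2 _ cap)

theorem no141 : ∀ p ∈ lay141, ∀ m ∈ p, ¬ TriPart cap (szs (sel rows5 m)) :=
  cons_no2 (stepOKDR_sound rows_ok5 ok_p141_0 no142)
    (nil_no2 _ cap)

theorem no141r : ∀ p ∈ lay141, ∀ m ∈ p, ¬ TriPart cap (szs (sel rows4 m)) :=
  restrict_no2 seg5 ins5 no141

theorem no140 : ∀ p ∈ lay140, ∀ m ∈ p, ¬ TriPart cap (szs (sel rows4 m)) :=
  cons_no2 (stepOKDR_sound rows_ok4 ok_p140_0 no141r)
    (nil_no2 _ cap)

theorem no139 : ∀ p ∈ lay139, ∀ m ∈ p, ¬ TriPart cap (szs (sel rows4 m)) :=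
  cons_no2 (stepOKDR_sound rows_ok4 ok_p139_0 no140)
    (nil_no2 _ cap)

theorem no138 : ∀ p ∈ lay138, ∀ m ∈ p, ¬ TriPart cap (szs (sel rows4 m)) :=
  cons_no2 (stepOKDR_sound rows_ok4 ok_p138_0 no139)
    (nil_no2 _ cap)

theorem no137 : ∀ p ∈ lay137, ∀ m ∈ p, ¬ TriPart cap (szs (sel rows4 m)) :=
  cons_no2 (stepOKDR_sound rows_ok4 ok_p137_0 no138)
    (nil_no2 _ cap)

theorem no136 : ∀ p ∈ lay136, ∀ m ∈ p, ¬ TriPart cap (szs (sel rows4 m)) :=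
  cons_no2 (stepOKDR_sound rows_ok4 ok_p136_0 no137)
    (nil_no2 _ cap)

theorem no135 : ∀ p ∈ lay135, ∀ m ∈ p, ¬ TriPart cap (szs (sel rows4 m)) :=
  cons_no2 (stepOKDR_sound rows_ok4 ok_p135_0 no136)
    (cons_no2 (stepOKDR_sound rows_ok4 ok_p135_1 no136)
    (nil_no2 _ cap))

theorem no134 : ∀ p ∈ lay134, ∀ m ∈ p, ¬ TriPart cap (szs (sel rows4 m)) :=
  cons_no2 (stepOKDR_sound rows_ok4 ok_p134_0 no135)
    (cons_no2 (stepOKDR_sound rows_ok4 ok_p134_1 no135)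
    (nil_no2 _ cap))

theorem no133 : ∀ p ∈ lay133, ∀ m ∈ p, ¬ TriPart cap (szs (sel rows4 m)) :=
  cons_no2 (stepOKDR_sound rows_ok4 ok_p133_0 no134)
    (cons_no2 (stepOKDR_sound rows_ok4 ok_p133_1 no134)
    (nil_no2 _ cap))

theorem no132 : ∀ p ∈ lay132, ∀ m ∈ p, ¬ TriPart cap (szs (sel rows4 m)) :=
  cons_no2 (stepOKDR_sound rows_ok4 ok_p132_0 no133)
    (cons_no2 (stepOKDR_sound rows_ok4 ok_p132_1 no133)
    (nil_no2 _ cap))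

theorem no131 : ∀ p ∈ lay131, ∀ m ∈ p, ¬ TriPart cap (szs (sel rows4 m)) :=
  cons_no2 (stepOKDR_sound rows_ok4 ok_p131_0 no132)
    (cons_no2 (stepOKDR_sound rows_ok4 ok_p131_1 no132)
    (nil_no2 _ cap))

theorem no130 : ∀ p ∈ lay130, ∀ m ∈ p, ¬ TriPart cap (szs (sel rows4 m)) :=
  cons_no2 (stepOKDR_sound rows_ok4 ok_p130_0 no131)
    (nil_no2 _ cap)

theorem no129 : ∀ p ∈ lay129, ∀ m ∈ p, ¬ TriPart cap (szs (sel rows4 m)) :=
  cons_no2 (stepOKDR_sound rows_ok4 ok_p129_0 no130)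
    (nil_no2 _ cap)

theorem no128 : ∀ p ∈ lay128, ∀ m ∈ p, ¬ TriPart cap (szs (sel rows4 m)) :=
  cons_no2 (stepOKDR_sound rows_ok4 ok_p128_0 no129)
    (nil_no2 _ cap)

theorem no127 : ∀ p ∈ lay127, ∀ m ∈ p, ¬ TriPart cap (szs (sel rows4 m)) :=
  cons_no2 (stepOKDR_sound rows_ok4 ok_p127_0 no128)
    (nil_no2 _ cap)

theorem no126 : ∀ p ∈ lay126, ∀ m ∈ p, ¬ TriPart cap (szs (sel rows4 m)) :=
  cons_no2 (stepOKDR_sound rows_ok4 ok_p126_0 no127)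
    (cons_no2 (stepOKDR_sound rows_ok4 ok_p126_1 no127)
    (nil_no2 _ cap))

theorem no125 : ∀ p ∈ lay125, ∀ m ∈ p, ¬ TriPart cap (szs (sel rows4 m)) :=
  cons_no2 (stepOKDR_sound rows_ok4 ok_p125_0 no126)
    (cons_no2 (stepOKDR_sound rows_ok4 ok_p125_1 no126)
    (nil_no2 _ cap))

theorem no124 : ∀ p ∈ lay124, ∀ m ∈ p, ¬ TriPart cap (szs (sel rows4 m)) :=
  cons_no2 (stepOKDR_sound rows_ok4 ok_p124_0 no125)
    (cons_no2 (stepOKDR_sound rows_ok4 ok_p124_1 no125)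
    (nil_no2 _ cap))

theorem no123 : ∀ p ∈ lay123, ∀ m ∈ p, ¬ TriPart cap (szs (sel rows4 m)) :=
  cons_no2 (stepOKDR_sound rows_ok4 ok_p123_0 no124)
    (cons_no2 (stepOKDR_sound rows_ok4 ok_p123_1 no124)
    (cons_no2 (stepOKDR_sound rows_ok4 ok_p123_2 no124)
    (nil_no2 _ cap)))

theorem no122 : ∀ p ∈ lay122, ∀ m ∈ p, ¬ TriPart cap (szs (sel rows4 m)) :=
  cons_no2 (stepOKDR_sound rows_ok4 ok_p122_0 no123)
    (cons_no2 (stepOKDR_sound rows_ok4 ok_p122_1 no123)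
    (nil_no2 _ cap))

theorem no121 : ∀ p ∈ lay121, ∀ m ∈ p, ¬ TriPart cap (szs (sel rows4 m)) :=
  cons_no2 (stepOKDR_sound rows_ok4 ok_p121_0 no122)
    (cons_no2 (stepOKDR_sound rows_ok4 ok_p121_1 no122)
    (cons_no2 (stepOKDR_sound rows_ok4 ok_p121_2 no122)
    (nil_no2 _ cap)))

theorem no120 : ∀ p ∈ lay120, ∀ m ∈ p, ¬ TriPart cap (szs (sel rows4 m)) :=
  cons_no2 (stepOKDR_sound rows_ok4 ok_p120_0 no121)
    (cons_no2 (stepOKDR_sound rows_ok4 ok_p120_1 no121)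
    (nil_no2 _ cap))

theorem no120r : ∀ p ∈ lay120, ∀ m ∈ p, ¬ TriPart cap (szs (sel rows3 m)) :=
  restrict_no2 seg4 ins4 no120

theorem no119 : ∀ p ∈ lay119, ∀ m ∈ p, ¬ TriPart cap (szs (sel rows3 m)) :=
  cons_no2 (stepOKDR_sound rows_ok3 ok_p119_0 no120r)
    (cons_no2 (stepOKDR_sound rows_ok3 ok_p119_1 no120r)
    (nil_no2 _ cap))

theorem no118 : ∀ p ∈ lay118, ∀ m ∈ p, ¬ TriPart cap (szs (sel rows3 m)) :=
  cons_no2 (stepOKDR_sound rows_ok3 ok_p118_0 no119)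
    (cons_no2 (stepOKDR_sound rows_ok3 ok_p118_1 no119)
    (nil_no2 _ cap))

theorem no117 : ∀ p ∈ lay117, ∀ m ∈ p, ¬ TriPart cap (szs (sel rows3 m)) :=
  cons_no2 (stepOKDR_sound rows_ok3 ok_p117_0 no118)
    (cons_no2 (stepOKDR_sound rows_ok3 ok_p117_1 no118)
    (cons_no2 (stepOKDR_sound rows_ok3 ok_p117_2 no118)
    (nil_no2 _ cap)))

theorem no116 : ∀ p ∈ lay116, ∀ m ∈ p, ¬ TriPart cap (szs (sel rows3 m)) :=
  cons_no2 (stepOKDR_sound rows_ok3 ok_p116_0 no117)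
    (cons_no2 (stepOKDR_sound rows_ok3 ok_p116_1 no117)
    (cons_no2 (stepOKDR_sound rows_ok3 ok_p116_2 no117)
    (nil_no2 _ cap)))

theorem no115 : ∀ p ∈ lay115, ∀ m ∈ p, ¬ TriPart cap (szs (sel rows3 m)) :=
  cons_no2 (stepOKDR_sound rows_ok3 ok_p115_0 no116)
    (cons_no2 (stepOKDR_sound rows_ok3 ok_p115_1 no116)
    (cons_no2 (stepOKDR_sound rows_ok3 ok_p115_2 no116)
    (nil_no2 _ cap)))

theorem no114 : ∀ p ∈ lay114, ∀ m ∈ p, ¬ TriPart cap (szs (sel rows3 m)) :=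
  cons_no2 (stepOKDR_sound rows_ok3 ok_p114_0 no115)
    (cons_no2 (stepOKDR_sound rows_ok3 ok_p114_1 no115)
    (nil_no2 _ cap))

theorem no113 : ∀ p ∈ lay113, ∀ m ∈ p, ¬ TriPart cap (szs (sel rows3 m)) :=
  cons_no2 (stepOKDR_sound rows_ok3 ok_p113_0 no114)
    (cons_no2 (stepOKDR_sound rows_ok3 ok_p113_1 no114)
    (nil_no2 _ cap))

theorem no112 : ∀ p ∈ lay112, ∀ m ∈ p, ¬ TriPart cap (szs (sel rows3 m)) :=
  cons_no2 (stepOKDR_sound rows_ok3 ok_p112_0 no113)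
    (cons_no2 (stepOKDR_sound rows_ok3 ok_p112_1 no113)
    (nil_no2 _ cap))

theorem no111 : ∀ p ∈ lay111, ∀ m ∈ p, ¬ TriPart cap (szs (sel rows3 m)) :=
  cons_no2 (stepOKDR_sound rows_ok3 ok_p111_0 no112)
    (nil_no2 _ cap)

theorem no110 : ∀ p ∈ lay110, ∀ m ∈ p, ¬ TriPart cap (szs (sel rows3 m)) :=
  cons_no2 (stepOKDR_sound rows_ok3 ok_p110_0 no111)
    (nil_no2 _ cap)

theorem no109 : ∀ p ∈ lay109, ∀ m ∈ p, ¬ TriPart cap (szs (sel rows3 m)) :=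
  cons_no2 (stepOKDR_sound rows_ok3 ok_p109_0 no110)
    (nil_no2 _ cap)

theorem no108 : ∀ p ∈ lay108, ∀ m ∈ p, ¬ TriPart cap (szs (sel rows3 m)) :=
  cons_no2 (stepOKDR_sound rows_ok3 ok_p108_0 no109)
    (cons_no2 (stepOKDR_sound rows_ok3 ok_p108_1 no109)
    (nil_no2 _ cap))

theorem no107 : ∀ p ∈ lay107, ∀ m ∈ p, ¬ TriPart cap (szs (sel rows3 m)) :=
  cons_no2 (stepOKDR_sound rows_ok3 ok_p107_0 no108)
    (cons_no2 (stepOKDR_sound rows_ok3 ok_p107_1 no108)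
    (nil_no2 _ cap))

theorem no106 : ∀ p ∈ lay106, ∀ m ∈ p, ¬ TriPart cap (szs (sel rows3 m)) :=
  cons_no2 (stepOKDR_sound rows_ok3 ok_p106_0 no107)
    (cons_no2 (stepOKDR_sound rows_ok3 ok_p106_1 no107)
    (nil_no2 _ cap))

theorem no105 : ∀ p ∈ lay105, ∀ m ∈ p, ¬ TriPart cap (szs (sel rows3 m)) :=
  cons_no2 (stepOKDR_sound rows_ok3 ok_p105_0 no106)
    (cons_no2 (stepOKDR_sound rows_ok3 ok_p105_1 no106)
    (nil_no2 _ cap))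

theorem no104 : ∀ p ∈ lay104, ∀ m ∈ p, ¬ TriPart cap (szs (sel rows3 m)) :=
  cons_no2 (stepOKDR_sound rows_ok3 ok_p104_0 no105)
    (cons_no2 (stepOKDR_sound rows_ok3 ok_p104_1 no105)
    (cons_no2 (stepOKDR_sound rows_ok3 ok_p104_2 no105)
    (nil_no2 _ cap)))

theorem no103 : ∀ p ∈ lay103, ∀ m ∈ p, ¬ TriPart cap (szs (sel rows3 m)) :=
  cons_no2 (stepOKDR_sound rows_ok3 ok_p103_0 no104)
    (cons_no2 (stepOKDR_sound rows_ok3 ok_p103_1 no104)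
    (cons_no2 (stepOKDR_sound rows_ok3 ok_p103_2 no104)
    (nil_no2 _ cap)))

theorem no102 : ∀ p ∈ lay102, ∀ m ∈ p, ¬ TriPart cap (szs (sel rows3 m)) :=
  cons_no2 (stepOKDR_sound rows_ok3 ok_p102_0 no103)
    (cons_no2 (stepOKDR_sound rows_ok3 ok_p102_1 no103)
    (nil_no2 _ cap))

theorem no101 : ∀ p ∈ lay101, ∀ m ∈ p, ¬ TriPart cap (szs (sel rows3 m)) :=
  cons_no2 (stepOKDR_sound rows_ok3 ok_p101_0 no102)
    (cons_no2 (stepOKDR_sound rows_ok3 ok_p101_1 no102)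
    (nil_no2 _ cap))

theorem no100 : ∀ p ∈ lay100, ∀ m ∈ p, ¬ TriPart cap (szs (sel rows3 m)) :=
  cons_no2 (stepOKDR_sound rows_ok3 ok_p100_0 no101)
    (cons_no2 (stepOKDR_sound rows_ok3 ok_p100_1 no101)
    (cons_no2 (stepOKDR_sound rows_ok3 ok_p100_2 no101)
    (nil_no2 _ cap)))

theorem no99 : ∀ p ∈ lay99, ∀ m ∈ p, ¬ TriPart cap (szs (sel rows3 m)) :=
  cons_no2 (stepOKDR_sound rows_ok3 ok_p99_0 no100)
    (cons_no2 (stepOKDR_sound rows_ok3 ok_p99_1 no100)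
    (cons_no2 (stepOKDR_sound rows_ok3 ok_p99_2 no100)
    (cons_no2 (stepOKDR_sound rows_ok3 ok_p99_3 no100)
    (cons_no2 (stepOKDR_sound rows_ok3 ok_p99_4 no100)
    (nil_no2 _ cap)))))

theorem no98 : ∀ p ∈ lay98, ∀ m ∈ p, ¬ TriPart cap (szs (sel rows3 m)) :=
  cons_no2 (stepOKDR_sound rows_ok3 ok_p98_0 no99)
    (cons_no2 (stepOKDR_sound rows_ok3 ok_p98_1 no99)
    (cons_no2 (stepOKDR_sound rows_ok3 ok_p98_2 no99)
    (cons_no2 (stepOKDR_sound rows_ok3 ok_p98_3 no99)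
    (cons_no2 (stepOKDR_sound rows_ok3 ok_p98_4 no99)
    (nil_no2 _ cap)))))

theorem no97 : ∀ p ∈ lay97, ∀ m ∈ p, ¬ TriPart cap (szs (sel rows3 m)) :=
  cons_no2 (stepOKDR_sound rows_ok3 ok_p97_0 no98)
    (cons_no2 (stepOKDR_sound rows_ok3 ok_p97_1 no98)
    (cons_no2 (stepOKDR_sound rows_ok3 ok_p97_2 no98)
    (cons_no2 (stepOKDR_sound rows_ok3 ok_p97_3 no98)
    (nil_no2 _ cap))))

theorem no97r : ∀ p ∈ lay97, ∀ m ∈ p, ¬ TriPart cap (szs (sel rows2 m)) :=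
  restrict_no2 seg3 ins3 no97

theorem no96 : ∀ p ∈ lay96, ∀ m ∈ p, ¬ TriPart cap (szs (sel rows2 m)) :=
  cons_no2 (stepOKDR_sound rows_ok2 ok_p96_0 no97r)
    (cons_no2 (stepOKDR_sound rows_ok2 ok_p96_1 no97r)
    (cons_no2 (stepOKDR_sound rows_ok2 ok_p96_2 no97r)
    (cons_no2 (stepOKDR_sound rows_ok2 ok_p96_3 no97r)
    (nil_no2 _ cap))))

theorem no95 : ∀ p ∈ lay95, ∀ m ∈ p, ¬ TriPart cap (szs (sel rows2 m)) :=
  cons_no2 (stepOKDR_sound rows_ok2 ok_p95_0 no96)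
    (cons_no2 (stepOKDR_sound rows_ok2 ok_p95_1 no96)
    (cons_no2 (stepOKDR_sound rows_ok2 ok_p95_2 no96)
    (cons_no2 (stepOKDR_sound rows_ok2 ok_p95_3 no96)
    (nil_no2 _ cap))))

theorem no94 : ∀ p ∈ lay94, ∀ m ∈ p, ¬ TriPart cap (szs (sel rows2 m)) :=
  cons_no2 (stepOKDR_sound rows_ok2 ok_p94_0 no95)
    (cons_no2 (stepOKDR_sound rows_ok2 ok_p94_1 no95)
    (cons_no2 (stepOKDR_sound rows_ok2 ok_p94_2 no95)
    (cons_no2 (stepOKDR_sound rows_ok2 ok_p94_3 no95)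
    (nil_no2 _ cap))))

theorem no93 : ∀ p ∈ lay93, ∀ m ∈ p, ¬ TriPart cap (szs (sel rows2 m)) :=
  cons_no2 (stepOKDR_sound rows_ok2 ok_p93_0 no94)
    (cons_no2 (stepOKDR_sound rows_ok2 ok_p93_1 no94)
    (cons_no2 (stepOKDR_sound rows_ok2 ok_p93_2 no94)
    (nil_no2 _ cap)))

theorem no92 : ∀ p ∈ lay92, ∀ m ∈ p, ¬ TriPart cap (szs (sel rows2 m)) :=
  cons_no2 (stepOKDR_sound rows_ok2 ok_p92_0 no93)
    (cons_no2 (stepOKDR_sound rows_ok2 ok_p92_1 no93)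
    (nil_no2 _ cap))

theorem no91 : ∀ p ∈ lay91, ∀ m ∈ p, ¬ TriPart cap (szs (sel rows2 m)) :=
  cons_no2 (stepOKDR_sound rows_ok2 ok_p91_0 no92)
    (cons_no2 (stepOKDR_sound rows_ok2 ok_p91_1 no92)
    (cons_no2 (stepOKDR_sound rows_ok2 ok_p91_2 no92)
    (nil_no2 _ cap)))

theorem no90 : ∀ p ∈ lay90, ∀ m ∈ p, ¬ TriPart cap (szs (sel rows2 m)) :=
  cons_no2 (stepOKDR_sound rows_ok2 ok_p90_0 no91)
    (cons_no2 (stepOKDR_sound rows_ok2 ok_p90_1 no91)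
    (cons_no2 (stepOKDR_sound rows_ok2 ok_p90_2 no91)
    (cons_no2 (stepOKDR_sound rows_ok2 ok_p90_3 no91)
    (nil_no2 _ cap))))

theorem no89 : ∀ p ∈ lay89, ∀ m ∈ p, ¬ TriPart cap (szs (sel rows2 m)) :=
  cons_no2 (stepOKDR_sound rows_ok2 ok_p89_0 no90)
    (cons_no2 (stepOKDR_sound rows_ok2 ok_p89_1 no90)
    (cons_no2 (stepOKDR_sound rows_ok2 ok_p89_2 no90)
    (cons_no2 (stepOKDR_sound rows_ok2 ok_p89_3 no90)
    (cons_no2 (stepOKDR_sound rows_ok2 ok_p89_4 no90)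
    (cons_no2 (stepOKDR_sound rows_ok2 ok_p89_5 no90)
    (cons_no2 (stepOKDR_sound rows_ok2 ok_p89_6 no90)
    (nil_no2 _ cap)))))))

theorem no88 : ∀ p ∈ lay88, ∀ m ∈ p, ¬ TriPart cap (szs (sel rows2 m)) :=
  cons_no2 (stepOKDR_sound rows_ok2 ok_p88_0 no89)
    (cons_no2 (stepOKDR_sound rows_ok2 ok_p88_1 no89)
    (cons_no2 (stepOKDR_sound rows_ok2 ok_p88_2 no89)
    (cons_no2 (stepOKDR_sound rows_ok2 ok_p88_3 no89)
    (cons_no2 (stepOKDR_sound rows_ok2 ok_p88_4 no89)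
    (cons_no2 (stepOKDR_sound rows_ok2 ok_p88_5 no89)
    (cons_no2 (stepOKDR_sound rows_ok2 ok_p88_6 no89)
    (cons_no2 (stepOKDR_sound rows_ok2 ok_p88_7 no89)
    (cons_no2 (stepOKDR_sound rows_ok2 ok_p88_8 no89)
    (cons_no2 (stepOKDR_sound rows_ok2 ok_p88_9 no89)
    (nil_no2 _ cap))))))))))

theorem no87 : ∀ p ∈ lay87, ∀ m ∈ p, ¬ TriPart cap (szs (sel rows2 m)) :=
  cons_no2 (stepOKDR_sound rows_ok2 ok_p87_0 no88)
    (cons_no2 (stepOKDR_sound rows_ok2 ok_p87_1 no88)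
    (cons_no2 (stepOKDR_sound rows_ok2 ok_p87_2 no88)
    (cons_no2 (stepOKDR_sound rows_ok2 ok_p87_3 no88)
    (cons_no2 (stepOKDR_sound rows_ok2 ok_p87_4 no88)
    (cons_no2 (stepOKDR_sound rows_ok2 ok_p87_5 no88)
    (cons_no2 (stepOKDR_sound rows_ok2 ok_p87_6 no88)
    (cons_no2 (stepOKDR_sound rows_ok2 ok_p87_7 no88)
    (cons_no2 (stepOKDR_sound rows_ok2 ok_p87_8 no88)
    (cons_no2 (stepOKDR_sound rows_ok2 ok_p87_9 no88)
    (cons_no2 (stepOKDR_sound rows_ok2 ok_p87_10 no88)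
    (nil_no2 _ cap)))))))))))

theorem no86 : ∀ p ∈ lay86, ∀ m ∈ p, ¬ TriPart cap (szs (sel rows2 m)) :=
  cons_no2 (stepOKDR_sound rows_ok2 ok_p86_0 no87)
    (cons_no2 (stepOKDR_sound rows_ok2 ok_p86_1 no87)
    (cons_no2 (stepOKDR_sound rows_ok2 ok_p86_2 no87)
    (cons_no2 (stepOKDR_sound rows_ok2 ok_p86_3 no87)
    (cons_no2 (stepOKDR_sound rows_ok2 ok_p86_4 no87)
    (cons_no2 (stepOKDR_sound rows_ok2 ok_p86_5 no87)
    (cons_no2 (stepOKDR_sound rows_ok2 ok_p86_6 no87)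
    (cons_no2 (stepOKDR_sound rows_ok2 ok_p86_7 no87)
    (cons_no2 (stepOKDR_sound rows_ok2 ok_p86_8 no87)
    (cons_no2 (stepOKDR_sound rows_ok2 ok_p86_9 no87)
    (nil_no2 _ cap))))))))))

theorem no85 : ∀ p ∈ lay85, ∀ m ∈ p, ¬ TriPart cap (szs (sel rows2 m)) :=
  cons_no2 (stepOKDR_sound rows_ok2 ok_p85_0 no86)
    (cons_no2 (stepOKDR_sound rows_ok2 ok_p85_1 no86)
    (cons_no2 (stepOKDR_sound rows_ok2 ok_p85_2 no86)
    (cons_no2 (stepOKDR_sound rows_ok2 ok_p85_3 no86)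
    (cons_no2 (stepOKDR_sound rows_ok2 ok_p85_4 no86)
    (cons_no2 (stepOKDR_sound rows_ok2 ok_p85_5 no86)
    (cons_no2 (stepOKDR_sound rows_ok2 ok_p85_6 no86)
    (cons_no2 (stepOKDR_sound rows_ok2 ok_p85_7 no86)
    (cons_no2 (stepOKDR_sound rows_ok2 ok_p85_8 no86)
    (nil_no2 _ cap)))))))))

theorem no84 : ∀ p ∈ lay84, ∀ m ∈ p, ¬ TriPart cap (szs (sel rows2 m)) :=
  cons_no2 (stepOKDR_sound rows_ok2 ok_p84_0 no85)
    (cons_no2 (stepOKDR_sound rows_ok2 ok_p84_1 no85)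
    (cons_no2 (stepOKDR_sound rows_ok2 ok_p84_2 no85)
    (cons_no2 (stepOKDR_sound rows_ok2 ok_p84_3 no85)
    (cons_no2 (stepOKDR_sound rows_ok2 ok_p84_4 no85)
    (cons_no2 (stepOKDR_sound rows_ok2 ok_p84_5 no85)
    (cons_no2 (stepOKDR_sound rows_ok2 ok_p84_6 no85)
    (cons_no2 (stepOKDR_sound rows_ok2 ok_p84_7 no85)
    (cons_no2 (stepOKDR_sound rows_ok2 ok_p84_8 no85)
    (nil_no2 _ cap)))))))))

theorem no83 : ∀ p ∈ lay83, ∀ m ∈ p, ¬ TriPart cap (szs (sel rows2 m)) :=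
  cons_no2 (stepOKDR_sound rows_ok2 ok_p83_0 no84)
    (cons_no2 (stepOKDR_sound rows_ok2 ok_p83_1 no84)
    (cons_no2 (stepOKDR_sound rows_ok2 ok_p83_2 no84)
    (cons_no2 (stepOKDR_sound rows_ok2 ok_p83_3 no84)
    (cons_no2 (stepOKDR_sound rows_ok2 ok_p83_4 no84)
    (cons_no2 (stepOKDR_sound rows_ok2 ok_p83_5 no84)
    (cons_no2 (stepOKDR_sound rows_ok2 ok_p83_6 no84)
    (nil_no2 _ cap)))))))

theorem no82 : ∀ p ∈ lay82, ∀ m ∈ p, ¬ TriPart cap (szs (sel rows2 m)) :=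
  cons_no2 (stepOKDR_sound rows_ok2 ok_p82_0 no83)
    (cons_no2 (stepOKDR_sound rows_ok2 ok_p82_1 no83)
    (cons_no2 (stepOKDR_sound rows_ok2 ok_p82_2 no83)
    (cons_no2 (stepOKDR_sound rows_ok2 ok_p82_3 no83)
    (cons_no2 (stepOKDR_sound rows_ok2 ok_p82_4 no83)
    (nil_no2 _ cap)))))

theorem no81 : ∀ p ∈ lay81, ∀ m ∈ p, ¬ TriPart cap (szs (sel rows2 m)) :=
  cons_no2 (stepOKDR_sound rows_ok2 ok_p81_0 no82)
    (cons_no2 (stepOKDR_sound rows_ok2 ok_p81_1 no82)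
    (cons_no2 (stepOKDR_sound rows_ok2 ok_p81_2 no82)
    (cons_no2 (stepOKDR_sound rows_ok2 ok_p81_3 no82)
    (cons_no2 (stepOKDR_sound rows_ok2 ok_p81_4 no82)
    (nil_no2 _ cap)))))

theorem no80 : ∀ p ∈ lay80, ∀ m ∈ p, ¬ TriPart cap (szs (sel rows2 m)) :=
  cons_no2 (stepOKDR_sound rows_ok2 ok_p80_0 no81)
    (cons_no2 (stepOKDR_sound rows_ok2 ok_p80_1 no81)
    (cons_no2 (stepOKDR_sound rows_ok2 ok_p80_2 no81)
    (cons_no2 (stepOKDR_sound rows_ok2 ok_p80_3 no81)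
    (cons_no2 (stepOKDR_sound rows_ok2 ok_p80_4 no81)
    (cons_no2 (stepOKDR_sound rows_ok2 ok_p80_5 no81)
    (nil_no2 _ cap))))))

theorem no79 : ∀ p ∈ lay79, ∀ m ∈ p, ¬ TriPart cap (szs (sel rows2 m)) :=
  cons_no2 (stepOKDR_sound rows_ok2 ok_p79_0 no80)
    (cons_no2 (stepOKDR_sound rows_ok2 ok_p79_1 no80)
    (cons_no2 (stepOKDR_sound rows_ok2 ok_p79_2 no80)
    (cons_no2 (stepOKDR_sound rows_ok2 ok_p79_3 no80)
    (cons_no2 (stepOKDR_sound rows_ok2 ok_p79_4 no80)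
    (cons_no2 (stepOKDR_sound rows_ok2 ok_p79_5 no80)
    (nil_no2 _ cap))))))

theorem no78 : ∀ p ∈ lay78, ∀ m ∈ p, ¬ TriPart cap (szs (sel rows2 m)) :=
  cons_no2 (stepOKDR_sound rows_ok2 ok_p78_0 no79)
    (cons_no2 (stepOKDR_sound rows_ok2 ok_p78_1 no79)
    (cons_no2 (stepOKDR_sound rows_ok2 ok_p78_2 no79)
    (cons_no2 (stepOKDR_sound rows_ok2 ok_p78_3 no79)
    (cons_no2 (stepOKDR_sound rows_ok2 ok_p78_4 no79)
    (nil_no2 _ cap)))))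

theorem no77 : ∀ p ∈ lay77, ∀ m ∈ p, ¬ TriPart cap (szs (sel rows2 m)) :=
  cons_no2 (stepOKDR_sound rows_ok2 ok_p77_0 no78)
    (cons_no2 (stepOKDR_sound rows_ok2 ok_p77_1 no78)
    (cons_no2 (stepOKDR_sound rows_ok2 ok_p77_2 no78)
    (cons_no2 (stepOKDR_sound rows_ok2 ok_p77_3 no78)
    (nil_no2 _ cap))))

theorem no76 : ∀ p ∈ lay76, ∀ m ∈ p, ¬ TriPart cap (szs (sel rows2 m)) :=
  cons_no2 (stepOKDR_sound rows_ok2 ok_p76_0 no77)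
    (cons_no2 (stepOKDR_sound rows_ok2 ok_p76_1 no77)
    (cons_no2 (stepOKDR_sound rows_ok2 ok_p76_2 no77)
    (nil_no2 _ cap)))

theorem no75 : ∀ p ∈ lay75, ∀ m ∈ p, ¬ TriPart cap (szs (sel rows2 m)) :=
  cons_no2 (stepOKDR_sound rows_ok2 ok_p75_0 no76)
    (cons_no2 (stepOKDR_sound rows_ok2 ok_p75_1 no76)
    (nil_no2 _ cap))

theorem no74 : ∀ p ∈ lay74, ∀ m ∈ p, ¬ TriPart cap (szs (sel rows2 m)) :=
  cons_no2 (stepOKDR_sound rows_ok2 ok_p74_0 no75)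
    (cons_no2 (stepOKDR_sound rows_ok2 ok_p74_1 no75)
    (nil_no2 _ cap))

theorem no73 : ∀ p ∈ lay73, ∀ m ∈ p, ¬ TriPart cap (szs (sel rows2 m)) :=
  cons_no2 (stepOKDR_sound rows_ok2 ok_p73_0 no74)
    (cons_no2 (stepOKDR_sound rows_ok2 ok_p73_1 no74)
    (cons_no2 (stepOKDR_sound rows_ok2 ok_p73_2 no74)
    (nil_no2 _ cap)))

theorem no72 : ∀ p ∈ lay72, ∀ m ∈ p, ¬ TriPart cap (szs (sel rows2 m)) :=
  cons_no2 (stepOKDR_sound rows_ok2 ok_p72_0 no73)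
    (cons_no2 (stepOKDR_sound rows_ok2 ok_p72_1 no73)
    (cons_no2 (stepOKDR_sound rows_ok2 ok_p72_2 no73)
    (cons_no2 (stepOKDR_sound rows_ok2 ok_p72_3 no73)
    (nil_no2 _ cap))))

theorem no71 : ∀ p ∈ lay71, ∀ m ∈ p, ¬ TriPart cap (szs (sel rows2 m)) :=
  cons_no2 (stepOKDR_sound rows_ok2 ok_p71_0 no72)
    (cons_no2 (stepOKDR_sound rows_ok2 ok_p71_1 no72)
    (cons_no2 (stepOKDR_sound rows_ok2 ok_p71_2 no72)
    (cons_no2 (stepOKDR_sound rows_ok2 ok_p71_3 no72)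
    (nil_no2 _ cap))))

theorem no70 : ∀ p ∈ lay70, ∀ m ∈ p, ¬ TriPart cap (szs (sel rows2 m)) :=
  cons_no2 (stepOKDR_sound rows_ok2 ok_p70_0 no71)
    (cons_no2 (stepOKDR_sound rows_ok2 ok_p70_1 no71)
    (cons_no2 (stepOKDR_sound rows_ok2 ok_p70_2 no71)
    (cons_no2 (stepOKDR_sound rows_ok2 ok_p70_3 no71)
    (nil_no2 _ cap))))

theorem no70r : ∀ p ∈ lay70, ∀ m ∈ p, ¬ TriPart cap (szs (sel rows1 m)) :=
  restrict_no2 seg2 ins2 no70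

theorem no69 : ∀ p ∈ lay69, ∀ m ∈ p, ¬ TriPart cap (szs (sel rows1 m)) :=
  cons_no2 (stepOKDR_sound rows_ok1 ok_p69_0 no70r)
    (cons_no2 (stepOKDR_sound rows_ok1 ok_p69_1 no70r)
    (cons_no2 (stepOKDR_sound rows_ok1 ok_p69_2 no70r)
    (cons_no2 (stepOKDR_sound rows_ok1 ok_p69_3 no70r)
    (cons_no2 (stepOKDR_sound rows_ok1 ok_p69_4 no70r)
    (cons_no2 (stepOKDR_sound rows_ok1 ok_p69_5 no70r)
    (cons_no2 (stepOKDR_sound rows_ok1 ok_p69_6 no70r)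
    (nil_no2 _ cap)))))))

theorem no68 : ∀ p ∈ lay68, ∀ m ∈ p, ¬ TriPart cap (szs (sel rows1 m)) :=
  cons_no2 (stepOKDR_sound rows_ok1 ok_p68_0 no69)
    (cons_no2 (stepOKDR_sound rows_ok1 ok_p68_1 no69)
    (cons_no2 (stepOKDR_sound rows_ok1 ok_p68_2 no69)
    (cons_no2 (stepOKDR_sound rows_ok1 ok_p68_3 no69)
    (cons_no2 (stepOKDR_sound rows_ok1 ok_p68_4 no69)
    (cons_no2 (stepOKDR_sound rows_ok1 ok_p68_5 no69)
    (cons_no2 (stepOKDR_sound rows_ok1 ok_p68_6 no69)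
    (nil_no2 _ cap)))))))

theorem no67 : ∀ p ∈ lay67, ∀ m ∈ p, ¬ TriPart cap (szs (sel rows1 m)) :=
  cons_no2 (stepOKDR_sound rows_ok1 ok_p67_0 no68)
    (cons_no2 (stepOKDR_sound rows_ok1 ok_p67_1 no68)
    (cons_no2 (stepOKDR_sound rows_ok1 ok_p67_2 no68)
    (cons_no2 (stepOKDR_sound rows_ok1 ok_p67_3 no68)
    (cons_no2 (stepOKDR_sound rows_ok1 ok_p67_4 no68)
    (cons_no2 (stepOKDR_sound rows_ok1 ok_p67_5 no68)
    (nil_no2 _ cap))))))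

theorem no66 : ∀ p ∈ lay66, ∀ m ∈ p, ¬ TriPart cap (szs (sel rows1 m)) :=
  cons_no2 (stepOKDR_sound rows_ok1 ok_p66_0 no67)
    (cons_no2 (stepOKDR_sound rows_ok1 ok_p66_1 no67)
    (cons_no2 (stepOKDR_sound rows_ok1 ok_p66_2 no67)
    (cons_no2 (stepOKDR_sound rows_ok1 ok_p66_3 no67)
    (cons_no2 (stepOKDR_sound rows_ok1 ok_p66_4 no67)
    (cons_no2 (stepOKDR_sound rows_ok1 ok_p66_5 no67)
    (cons_no2 (stepOKDR_sound rows_ok1 ok_p66_6 no67)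
    (nil_no2 _ cap)))))))

theorem no65 : ∀ p ∈ lay65, ∀ m ∈ p, ¬ TriPart cap (szs (sel rows1 m)) :=
  cons_no2 (stepOKDR_sound rows_ok1 ok_p65_0 no66)
    (cons_no2 (stepOKDR_sound rows_ok1 ok_p65_1 no66)
    (cons_no2 (stepOKDR_sound rows_ok1 ok_p65_2 no66)
    (cons_no2 (stepOKDR_sound rows_ok1 ok_p65_3 no66)
    (cons_no2 (stepOKDR_sound rows_ok1 ok_p65_4 no66)
    (cons_no2 (stepOKDR_sound rows_ok1 ok_p65_5 no66)
    (cons_no2 (stepOKDR_sound rows_ok1 ok_p65_6 no66)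
    (cons_no2 (stepOKDR_sound rows_ok1 ok_p65_7 no66)
    (cons_no2 (stepOKDR_sound rows_ok1 ok_p65_8 no66)
    (nil_no2 _ cap)))))))))

theorem no64 : ∀ p ∈ lay64, ∀ m ∈ p, ¬ TriPart cap (szs (sel rows1 m)) :=
  cons_no2 (stepOKDR_sound rows_ok1 ok_p64_0 no65)
    (cons_no2 (stepOKDR_sound rows_ok1 ok_p64_1 no65)
    (cons_no2 (stepOKDR_sound rows_ok1 ok_p64_2 no65)
    (cons_no2 (stepOKDR_sound rows_ok1 ok_p64_3 no65)
    (cons_no2 (stepOKDR_sound rows_ok1 ok_p64_4 no65)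
    (cons_no2 (stepOKDR_sound rows_ok1 ok_p64_5 no65)
    (cons_no2 (stepOKDR_sound rows_ok1 ok_p64_6 no65)
    (cons_no2 (stepOKDR_sound rows_ok1 ok_p64_7 no65)
    (cons_no2 (stepOKDR_sound rows_ok1 ok_p64_8 no65)
    (cons_no2 (stepOKDR_sound rows_ok1 ok_p64_9 no65)
    (nil_no2 _ cap))))))))))

theorem no63 : ∀ p ∈ lay63, ∀ m ∈ p, ¬ TriPart cap (szs (sel rows1 m)) :=
  cons_no2 (stepOKDR_sound rows_ok1 ok_p63_0 no64)
    (cons_no2 (stepOKDR_sound rows_ok1 ok_p63_1 no64)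
    (cons_no2 (stepOKDR_sound rows_ok1 ok_p63_2 no64)
    (cons_no2 (stepOKDR_sound rows_ok1 ok_p63_3 no64)
    (cons_no2 (stepOKDR_sound rows_ok1 ok_p63_4 no64)
    (cons_no2 (stepOKDR_sound rows_ok1 ok_p63_5 no64)
    (cons_no2 (stepOKDR_sound rows_ok1 ok_p63_6 no64)
    (cons_no2 (stepOKDR_sound rows_ok1 ok_p63_7 no64)
    (cons_no2 (stepOKDR_sound rows_ok1 ok_p63_8 no64)
    (cons_no2 (stepOKDR_sound rows_ok1 ok_p63_9 no64)
    (cons_no2 (stepOKDR_sound rows_ok1 ok_p63_10 no64)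
    (nil_no2 _ cap)))))))))))

theorem no62 : ∀ p ∈ lay62, ∀ m ∈ p, ¬ TriPart cap (szs (sel rows1 m)) :=
  cons_no2 (stepOKDR_sound rows_ok1 ok_p62_0 no63)
    (cons_no2 (stepOKDR_sound rows_ok1 ok_p62_1 no63)
    (cons_no2 (stepOKDR_sound rows_ok1 ok_p62_2 no63)
    (cons_no2 (stepOKDR_sound rows_ok1 ok_p62_3 no63)
    (cons_no2 (stepOKDR_sound rows_ok1 ok_p62_4 no63)
    (cons_no2 (stepOKDR_sound rows_ok1 ok_p62_5 no63)
    (cons_no2 (stepOKDR_sound rows_ok1 ok_p62_6 no63)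
    (cons_no2 (stepOKDR_sound rows_ok1 ok_p62_7 no63)
    (cons_no2 (stepOKDR_sound rows_ok1 ok_p62_8 no63)
    (cons_no2 (stepOKDR_sound rows_ok1 ok_p62_9 no63)
    (cons_no2 (stepOKDR_sound rows_ok1 ok_p62_10 no63)
    (cons_no2 (stepOKDR_sound rows_ok1 ok_p62_11 no63)
    (nil_no2 _ cap))))))))))))

theorem no61 : ∀ p ∈ lay61, ∀ m ∈ p, ¬ TriPart cap (szs (sel rows1 m)) :=
  cons_no2 (stepOKDR_sound rows_ok1 ok_p61_0 no62)
    (cons_no2 (stepOKDR_sound rows_ok1 ok_p61_1 no62)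
    (cons_no2 (stepOKDR_sound rows_ok1 ok_p61_2 no62)
    (cons_no2 (stepOKDR_sound rows_ok1 ok_p61_3 no62)
    (cons_no2 (stepOKDR_sound rows_ok1 ok_p61_4 no62)
    (cons_no2 (stepOKDR_sound rows_ok1 ok_p61_5 no62)
    (cons_no2 (stepOKDR_sound rows_ok1 ok_p61_6 no62)
    (cons_no2 (stepOKDR_sound rows_ok1 ok_p61_7 no62)
    (cons_no2 (stepOKDR_sound rows_ok1 ok_p61_8 no62)
    (cons_no2 (stepOKDR_sound rows_ok1 ok_p61_9 no62)
    (nil_no2 _ cap))))))))))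

theorem no60 : ∀ p ∈ lay60, ∀ m ∈ p, ¬ TriPart cap (szs (sel rows1 m)) :=
  cons_no2 (stepOKDR_sound rows_ok1 ok_p60_0 no61)
    (cons_no2 (stepOKDR_sound rows_ok1 ok_p60_1 no61)
    (cons_no2 (stepOKDR_sound rows_ok1 ok_p60_2 no61)
    (cons_no2 (stepOKDR_sound rows_ok1 ok_p60_3 no61)
    (cons_no2 (stepOKDR_sound rows_ok1 ok_p60_4 no61)
    (cons_no2 (stepOKDR_sound rows_ok1 ok_p60_5 no61)
    (cons_no2 (stepOKDR_sound rows_ok1 ok_p60_6 no61)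
    (cons_no2 (stepOKDR_sound rows_ok1 ok_p60_7 no61)
    (cons_no2 (stepOKDR_sound rows_ok1 ok_p60_8 no61)
    (nil_no2 _ cap)))))))))

theorem no59 : ∀ p ∈ lay59, ∀ m ∈ p, ¬ TriPart cap (szs (sel rows1 m)) :=
  cons_no2 (stepOKDR_sound rows_ok1 ok_p59_0 no60)
    (cons_no2 (stepOKDR_sound rows_ok1 ok_p59_1 no60)
    (cons_no2 (stepOKDR_sound rows_ok1 ok_p59_2 no60)
    (cons_no2 (stepOKDR_sound rows_ok1 ok_p59_3 no60)
    (cons_no2 (stepOKDR_sound rows_ok1 ok_p59_4 no60)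
    (cons_no2 (stepOKDR_sound rows_ok1 ok_p59_5 no60)
    (cons_no2 (stepOKDR_sound rows_ok1 ok_p59_6 no60)
    (cons_no2 (stepOKDR_sound rows_ok1 ok_p59_7 no60)
    (nil_no2 _ cap))))))))

theorem no58 : ∀ p ∈ lay58, ∀ m ∈ p, ¬ TriPart cap (szs (sel rows1 m)) :=
  cons_no2 (stepOKDR_sound rows_ok1 ok_p58_0 no59)
    (cons_no2 (stepOKDR_sound rows_ok1 ok_p58_1 no59)
    (cons_no2 (stepOKDR_sound rows_ok1 ok_p58_2 no59)
    (cons_no2 (stepOKDR_sound rows_ok1 ok_p58_3 no59)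
    (cons_no2 (stepOKDR_sound rows_ok1 ok_p58_4 no59)
    (cons_no2 (stepOKDR_sound rows_ok1 ok_p58_5 no59)
    (cons_no2 (stepOKDR_sound rows_ok1 ok_p58_6 no59)
    (cons_no2 (stepOKDR_sound rows_ok1 ok_p58_7 no59)
    (nil_no2 _ cap))))))))

theorem no57 : ∀ p ∈ lay57, ∀ m ∈ p, ¬ TriPart cap (szs (sel rows1 m)) :=
  cons_no2 (stepOKDR_sound rows_ok1 ok_p57_0 no58)
    (cons_no2 (stepOKDR_sound rows_ok1 ok_p57_1 no58)
    (cons_no2 (stepOKDR_sound rows_ok1 ok_p57_2 no58)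
    (cons_no2 (stepOKDR_sound rows_ok1 ok_p57_3 no58)
    (cons_no2 (stepOKDR_sound rows_ok1 ok_p57_4 no58)
    (cons_no2 (stepOKDR_sound rows_ok1 ok_p57_5 no58)
    (cons_no2 (stepOKDR_sound rows_ok1 ok_p57_6 no58)
    (nil_no2 _ cap)))))))

theorem no56 : ∀ p ∈ lay56, ∀ m ∈ p, ¬ TriPart cap (szs (sel rows1 m)) :=
  cons_no2 (stepOKDR_sound rows_ok1 ok_p56_0 no57)
    (cons_no2 (stepOKDR_sound rows_ok1 ok_p56_1 no57)
    (cons_no2 (stepOKDR_sound rows_ok1 ok_p56_2 no57)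
    (cons_no2 (stepOKDR_sound rows_ok1 ok_p56_3 no57)
    (cons_no2 (stepOKDR_sound rows_ok1 ok_p56_4 no57)
    (cons_no2 (stepOKDR_sound rows_ok1 ok_p56_5 no57)
    (cons_no2 (stepOKDR_sound rows_ok1 ok_p56_6 no57)
    (cons_no2 (stepOKDR_sound rows_ok1 ok_p56_7 no57)
    (cons_no2 (stepOKDR_sound rows_ok1 ok_p56_8 no57)
    (nil_no2 _ cap)))))))))

theorem no55 : ∀ p ∈ lay55, ∀ m ∈ p, ¬ TriPart cap (szs (sel rows1 m)) :=
  cons_no2 (stepOKDR_sound rows_ok1 ok_p55_0 no56)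
    (cons_no2 (stepOKDR_sound rows_ok1 ok_p55_1 no56)
    (cons_no2 (stepOKDR_sound rows_ok1 ok_p55_2 no56)
    (cons_no2 (stepOKDR_sound rows_ok1 ok_p55_3 no56)
    (cons_no2 (stepOKDR_sound rows_ok1 ok_p55_4 no56)
    (cons_no2 (stepOKDR_sound rows_ok1 ok_p55_5 no56)
    (cons_no2 (stepOKDR_sound rows_ok1 ok_p55_6 no56)
    (cons_no2 (stepOKDR_sound rows_ok1 ok_p55_7 no56)
    (cons_no2 (stepOKDR_sound rows_ok1 ok_p55_8 no56)
    (cons_no2 (stepOKDR_sound rows_ok1 ok_p55_9 no56)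
    (nil_no2 _ cap))))))))))

theorem no54 : ∀ p ∈ lay54, ∀ m ∈ p, ¬ TriPart cap (szs (sel rows1 m)) :=
  cons_no2 (stepOKDR_sound rows_ok1 ok_p54_0 no55)
    (cons_no2 (stepOKDR_sound rows_ok1 ok_p54_1 no55)
    (cons_no2 (stepOKDR_sound rows_ok1 ok_p54_2 no55)
    (cons_no2 (stepOKDR_sound rows_ok1 ok_p54_3 no55)
    (cons_no2 (stepOKDR_sound rows_ok1 ok_p54_4 no55)
    (cons_no2 (stepOKDR_sound rows_ok1 ok_p54_5 no55)
    (cons_no2 (stepOKDR_sound rows_ok1 ok_p54_6 no55)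
    (cons_no2 (stepOKDR_sound rows_ok1 ok_p54_7 no55)
    (cons_no2 (stepOKDR_sound rows_ok1 ok_p54_8 no55)
    (cons_no2 (stepOKDR_sound rows_ok1 ok_p54_9 no55)
    (cons_no2 (stepOKDR_sound rows_ok1 ok_p54_10 no55)
    (nil_no2 _ cap)))))))))))

theorem no53 : ∀ p ∈ lay53, ∀ m ∈ p, ¬ TriPart cap (szs (sel rows1 m)) :=
  cons_no2 (stepOKDR_sound rows_ok1 ok_p53_0 no54)
    (cons_no2 (stepOKDR_sound rows_ok1 ok_p53_1 no54)
    (cons_no2 (stepOKDR_sound rows_ok1 ok_p53_2 no54)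
    (cons_no2 (stepOKDR_sound rows_ok1 ok_p53_3 no54)
    (cons_no2 (stepOKDR_sound rows_ok1 ok_p53_4 no54)
    (cons_no2 (stepOKDR_sound rows_ok1 ok_p53_5 no54)
    (cons_no2 (stepOKDR_sound rows_ok1 ok_p53_6 no54)
    (cons_no2 (stepOKDR_sound rows_ok1 ok_p53_7 no54)
    (cons_no2 (stepOKDR_sound rows_ok1 ok_p53_8 no54)
    (cons_no2 (stepOKDR_sound rows_ok1 ok_p53_9 no54)
    (cons_no2 (stepOKDR_sound rows_ok1 ok_p53_10 no54)
    (cons_no2 (stepOKDR_sound rows_ok1 ok_p53_11 no54)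
    (cons_no2 (stepOKDR_sound rows_ok1 ok_p53_12 no54)
    (nil_no2 _ cap)))))))))))))

theorem no52 : ∀ p ∈ lay52, ∀ m ∈ p, ¬ TriPart cap (szs (sel rows1 m)) :=
  cons_no2 (stepOKDR_sound rows_ok1 ok_p52_0 no53)
    (cons_no2 (stepOKDR_sound rows_ok1 ok_p52_1 no53)
    (cons_no2 (stepOKDR_sound rows_ok1 ok_p52_2 no53)
    (cons_no2 (stepOKDR_sound rows_ok1 ok_p52_3 no53)
    (cons_no2 (stepOKDR_sound rows_ok1 ok_p52_4 no53)
    (cons_no2 (stepOKDR_sound rows_ok1 ok_p52_5 no53)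
    (cons_no2 (stepOKDR_sound rows_ok1 ok_p52_6 no53)
    (cons_no2 (stepOKDR_sound rows_ok1 ok_p52_7 no53)
    (cons_no2 (stepOKDR_sound rows_ok1 ok_p52_8 no53)
    (cons_no2 (stepOKDR_sound rows_ok1 ok_p52_9 no53)
    (cons_no2 (stepOKDR_sound rows_ok1 ok_p52_10 no53)
    (cons_no2 (stepOKDR_sound rows_ok1 ok_p52_11 no53)
    (cons_no2 (stepOKDR_sound rows_ok1 ok_p52_12 no53)
    (cons_no2 (stepOKDR_sound rows_ok1 ok_p52_13 no53)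
    (nil_no2 _ cap))))))))))))))

theorem no51 : ∀ p ∈ lay51, ∀ m ∈ p, ¬ TriPart cap (szs (sel rows1 m)) :=
  cons_no2 (stepOKDR_sound rows_ok1 ok_p51_0 no52)
    (cons_no2 (stepOKDR_sound rows_ok1 ok_p51_1 no52)
    (cons_no2 (stepOKDR_sound rows_ok1 ok_p51_2 no52)
    (cons_no2 (stepOKDR_sound rows_ok1 ok_p51_3 no52)
    (cons_no2 (stepOKDR_sound rows_ok1 ok_p51_4 no52)
    (cons_no2 (stepOKDR_sound rows_ok1 ok_p51_5 no52)
    (cons_no2 (stepOKDR_sound rows_ok1 ok_p51_6 no52)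
    (cons_no2 (stepOKDR_sound rows_ok1 ok_p51_7 no52)
    (cons_no2 (stepOKDR_sound rows_ok1 ok_p51_8 no52)
    (cons_no2 (stepOKDR_sound rows_ok1 ok_p51_9 no52)
    (cons_no2 (stepOKDR_sound rows_ok1 ok_p51_10 no52)
    (cons_no2 (stepOKDR_sound rows_ok1 ok_p51_11 no52)
    (cons_no2 (stepOKDR_sound rows_ok1 ok_p51_12 no52)
    (cons_no2 (stepOKDR_sound rows_ok1 ok_p51_13 no52)
    (cons_no2 (stepOKDR_sound rows_ok1 ok_p51_14 no52)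
    (cons_no2 (stepOKDR_sound rows_ok1 ok_p51_15 no52)
    (nil_no2 _ cap))))))))))))))))

theorem no50 : ∀ p ∈ lay50, ∀ m ∈ p, ¬ TriPart cap (szs (sel rows1 m)) :=
  cons_no2 (stepOKDR_sound rows_ok1 ok_p50_0 no51)
    (cons_no2 (stepOKDR_sound rows_ok1 ok_p50_1 no51)
    (cons_no2 (stepOKDR_sound rows_ok1 ok_p50_2 no51)
    (cons_no2 (stepOKDR_sound rows_ok1 ok_p50_3 no51)
    (cons_no2 (stepOKDR_sound rows_ok1 ok_p50_4 no51)
    (cons_no2 (stepOKDR_sound rows_ok1 ok_p50_5 no51)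
    (cons_no2 (stepOKDR_sound rows_ok1 ok_p50_6 no51)
    (cons_no2 (stepOKDR_sound rows_ok1 ok_p50_7 no51)
    (cons_no2 (stepOKDR_sound rows_ok1 ok_p50_8 no51)
    (cons_no2 (stepOKDR_sound rows_ok1 ok_p50_9 no51)
    (cons_no2 (stepOKDR_sound rows_ok1 ok_p50_10 no51)
    (cons_no2 (stepOKDR_sound rows_ok1 ok_p50_11 no51)
    (cons_no2 (stepOKDR_sound rows_ok1 ok_p50_12 no51)
    (cons_no2 (stepOKDR_sound rows_ok1 ok_p50_13 no51)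
    (nil_no2 _ cap))))))))))))))

theorem no49 : ∀ p ∈ lay49, ∀ m ∈ p, ¬ TriPart cap (szs (sel rows1 m)) :=
  cons_no2 (stepOKDR_sound rows_ok1 ok_p49_0 no50)
    (cons_no2 (stepOKDR_sound rows_ok1 ok_p49_1 no50)
    (cons_no2 (stepOKDR_sound rows_ok1 ok_p49_2 no50)
    (cons_no2 (stepOKDR_sound rows_ok1 ok_p49_3 no50)
    (cons_no2 (stepOKDR_sound rows_ok1 ok_p49_4 no50)
    (cons_no2 (stepOKDR_sound rows_ok1 ok_p49_5 no50)
    (cons_no2 (stepOKDR_sound rows_ok1 ok_p49_6 no50)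
    (cons_no2 (stepOKDR_sound rows_ok1 ok_p49_7 no50)
    (cons_no2 (stepOKDR_sound rows_ok1 ok_p49_8 no50)
    (cons_no2 (stepOKDR_sound rows_ok1 ok_p49_9 no50)
    (cons_no2 (stepOKDR_sound rows_ok1 ok_p49_10 no50)
    (cons_no2 (stepOKDR_sound rows_ok1 ok_p49_11 no50)
    (nil_no2 _ cap))))))))))))

theorem no48 : ∀ p ∈ lay48, ∀ m ∈ p, ¬ TriPart cap (szs (sel rows1 m)) :=
  cons_no2 (stepOKDR_sound rows_ok1 ok_p48_0 no49)
    (cons_no2 (stepOKDR_sound rows_ok1 ok_p48_1 no49)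
    (cons_no2 (stepOKDR_sound rows_ok1 ok_p48_2 no49)
    (cons_no2 (stepOKDR_sound rows_ok1 ok_p48_3 no49)
    (cons_no2 (stepOKDR_sound rows_ok1 ok_p48_4 no49)
    (cons_no2 (stepOKDR_sound rows_ok1 ok_p48_5 no49)
    (cons_no2 (stepOKDR_sound rows_ok1 ok_p48_6 no49)
    (cons_no2 (stepOKDR_sound rows_ok1 ok_p48_7 no49)
    (cons_no2 (stepOKDR_sound rows_ok1 ok_p48_8 no49)
    (cons_no2 (stepOKDR_sound rows_ok1 ok_p48_9 no49)
    (cons_no2 (stepOKDR_sound rows_ok1 ok_p48_10 no49)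
    (cons_no2 (stepOKDR_sound rows_ok1 ok_p48_11 no49)
    (nil_no2 _ cap))))))))))))

theorem no47 : ∀ p ∈ lay47, ∀ m ∈ p, ¬ TriPart cap (szs (sel rows1 m)) :=
  cons_no2 (stepOKDR_sound rows_ok1 ok_p47_0 no48)
    (cons_no2 (stepOKDR_sound rows_ok1 ok_p47_1 no48)
    (cons_no2 (stepOKDR_sound rows_ok1 ok_p47_2 no48)
    (cons_no2 (stepOKDR_sound rows_ok1 ok_p47_3 no48)
    (cons_no2 (stepOKDR_sound rows_ok1 ok_p47_4 no48)
    (cons_no2 (stepOKDR_sound rows_ok1 ok_p47_5 no48)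
    (cons_no2 (stepOKDR_sound rows_ok1 ok_p47_6 no48)
    (cons_no2 (stepOKDR_sound rows_ok1 ok_p47_7 no48)
    (cons_no2 (stepOKDR_sound rows_ok1 ok_p47_8 no48)
    (cons_no2 (stepOKDR_sound rows_ok1 ok_p47_9 no48)
    (cons_no2 (stepOKDR_sound rows_ok1 ok_p47_10 no48)
    (cons_no2 (stepOKDR_sound rows_ok1 ok_p47_11 no48)
    (cons_no2 (stepOKDR_sound rows_ok1 ok_p47_12 no48)
    (cons_no2 (stepOKDR_sound rows_ok1 ok_p47_13 no48)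
    (nil_no2 _ cap))))))))))))))

theorem no46 : ∀ p ∈ lay46, ∀ m ∈ p, ¬ TriPart cap (szs (sel rows1 m)) :=
  cons_no2 (stepOKDR_sound rows_ok1 ok_p46_0 no47)
    (cons_no2 (stepOKDR_sound rows_ok1 ok_p46_1 no47)
    (cons_no2 (stepOKDR_sound rows_ok1 ok_p46_2 no47)
    (cons_no2 (stepOKDR_sound rows_ok1 ok_p46_3 no47)
    (cons_no2 (stepOKDR_sound rows_ok1 ok_p46_4 no47)
    (cons_no2 (stepOKDR_sound rows_ok1 ok_p46_5 no47)
    (cons_no2 (stepOKDR_sound rows_ok1 ok_p46_6 no47)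
    (cons_no2 (stepOKDR_sound rows_ok1 ok_p46_7 no47)
    (cons_no2 (stepOKDR_sound rows_ok1 ok_p46_8 no47)
    (cons_no2 (stepOKDR_sound rows_ok1 ok_p46_9 no47)
    (cons_no2 (stepOKDR_sound rows_ok1 ok_p46_10 no47)
    (cons_no2 (stepOKDR_sound rows_ok1 ok_p46_11 no47)
    (cons_no2 (stepOKDR_sound rows_ok1 ok_p46_12 no47)
    (cons_no2 (stepOKDR_sound rows_ok1 ok_p46_13 no47)
    (cons_no2 (stepOKDR_sound rows_ok1 ok_p46_14 no47)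
    (cons_no2 (stepOKDR_sound rows_ok1 ok_p46_15 no47)
    (cons_no2 (stepOKDR_sound rows_ok1 ok_p46_16 no47)
    (cons_no2 (stepOKDR_sound rows_ok1 ok_p46_17 no47)
    (nil_no2 _ cap))))))))))))))))))

theorem no45 : ∀ p ∈ lay45, ∀ m ∈ p, ¬ TriPart cap (szs (sel rows1 m)) :=
  cons_no2 (stepOKDR_sound rows_ok1 ok_p45_0 no46)
    (cons_no2 (stepOKDR_sound rows_ok1 ok_p45_1 no46)
    (cons_no2 (stepOKDR_sound rows_ok1 ok_p45_2 no46)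
    (cons_no2 (stepOKDR_sound rows_ok1 ok_p45_3 no46)
    (cons_no2 (stepOKDR_sound rows_ok1 ok_p45_4 no46)
    (cons_no2 (stepOKDR_sound rows_ok1 ok_p45_5 no46)
    (cons_no2 (stepOKDR_sound rows_ok1 ok_p45_6 no46)
    (cons_no2 (stepOKDR_sound rows_ok1 ok_p45_7 no46)
    (cons_no2 (stepOKDR_sound rows_ok1 ok_p45_8 no46)
    (cons_no2 (stepOKDR_sound rows_ok1 ok_p45_9 no46)
    (cons_no2 (stepOKDR_sound rows_ok1 ok_p45_10 no46)
    (cons_no2 (stepOKDR_sound rows_ok1 ok_p45_11 no46)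
    (cons_no2 (stepOKDR_sound rows_ok1 ok_p45_12 no46)
    (cons_no2 (stepOKDR_sound rows_ok1 ok_p45_13 no46)
    (cons_no2 (stepOKDR_sound rows_ok1 ok_p45_14 no46)
    (cons_no2 (stepOKDR_sound rows_ok1 ok_p45_15 no46)
    (cons_no2 (stepOKDR_sound rows_ok1 ok_p45_16 no46)
    (cons_no2 (stepOKDR_sound rows_ok1 ok_p45_17 no46)
    (cons_no2 (stepOKDR_sound rows_ok1 ok_p45_18 no46)
    (cons_no2 (stepOKDR_sound rows_ok1 ok_p45_19 no46)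
    (nil_no2 _ cap))))))))))))))))))))

theorem no44 : ∀ p ∈ lay44, ∀ m ∈ p, ¬ TriPart cap (szs (sel rows1 m)) :=
  cons_no2 (stepOKDR_sound rows_ok1 ok_p44_0 no45)
    (cons_no2 (stepOKDR_sound rows_ok1 ok_p44_1 no45)
    (cons_no2 (stepOKDR_sound rows_ok1 ok_p44_2 no45)
    (cons_no2 (stepOKDR_sound rows_ok1 ok_p44_3 no45)
    (cons_no2 (stepOKDR_sound rows_ok1 ok_p44_4 no45)
    (cons_no2 (stepOKDR_sound rows_ok1 ok_p44_5 no45)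
    (cons_no2 (stepOKDR_sound rows_ok1 ok_p44_6 no45)
    (cons_no2 (stepOKDR_sound rows_ok1 ok_p44_7 no45)
    (cons_no2 (stepOKDR_sound rows_ok1 ok_p44_8 no45)
    (cons_no2 (stepOKDR_sound rows_ok1 ok_p44_9 no45)
    (cons_no2 (stepOKDR_sound rows_ok1 ok_p44_10 no45)
    (cons_no2 (stepOKDR_sound rows_ok1 ok_p44_11 no45)
    (cons_no2 (stepOKDR_sound rows_ok1 ok_p44_12 no45)
    (cons_no2 (stepOKDR_sound rows_ok1 ok_p44_13 no45)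
    (cons_no2 (stepOKDR_sound rows_ok1 ok_p44_14 no45)
    (cons_no2 (stepOKDR_sound rows_ok1 ok_p44_15 no45)
    (cons_no2 (stepOKDR_sound rows_ok1 ok_p44_16 no45)
    (cons_no2 (stepOKDR_sound rows_ok1 ok_p44_17 no45)
    (nil_no2 _ cap))))))))))))))))))

theorem no43 : ∀ p ∈ lay43, ∀ m ∈ p, ¬ TriPart cap (szs (sel rows1 m)) :=
  cons_no2 (stepOKDR_sound rows_ok1 ok_p43_0 no44)
    (cons_no2 (stepOKDR_sound rows_ok1 ok_p43_1 no44)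
    (cons_no2 (stepOKDR_sound rows_ok1 ok_p43_2 no44)
    (cons_no2 (stepOKDR_sound rows_ok1 ok_p43_3 no44)
    (cons_no2 (stepOKDR_sound rows_ok1 ok_p43_4 no44)
    (cons_no2 (stepOKDR_sound rows_ok1 ok_p43_5 no44)
    (cons_no2 (stepOKDR_sound rows_ok1 ok_p43_6 no44)
    (cons_no2 (stepOKDR_sound rows_ok1 ok_p43_7 no44)
    (cons_no2 (stepOKDR_sound rows_ok1 ok_p43_8 no44)
    (cons_no2 (stepOKDR_sound rows_ok1 ok_p43_9 no44)
    (cons_no2 (stepOKDR_sound rows_ok1 ok_p43_10 no44)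
    (cons_no2 (stepOKDR_sound rows_ok1 ok_p43_11 no44)
    (cons_no2 (stepOKDR_sound rows_ok1 ok_p43_12 no44)
    (cons_no2 (stepOKDR_sound rows_ok1 ok_p43_13 no44)
    (nil_no2 _ cap))))))))))))))

theorem no42 : ∀ p ∈ lay42, ∀ m ∈ p, ¬ TriPart cap (szs (sel rows1 m)) :=
  cons_no2 (stepOKDR_sound rows_ok1 ok_p42_0 no43)
    (cons_no2 (stepOKDR_sound rows_ok1 ok_p42_1 no43)
    (cons_no2 (stepOKDR_sound rows_ok1 ok_p42_2 no43)
    (cons_no2 (stepOKDR_sound rows_ok1 ok_p42_3 no43)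
    (cons_no2 (stepOKDR_sound rows_ok1 ok_p42_4 no43)
    (cons_no2 (stepOKDR_sound rows_ok1 ok_p42_5 no43)
    (cons_no2 (stepOKDR_sound rows_ok1 ok_p42_6 no43)
    (cons_no2 (stepOKDR_sound rows_ok1 ok_p42_7 no43)
    (cons_no2 (stepOKDR_sound rows_ok1 ok_p42_8 no43)
    (cons_no2 (stepOKDR_sound rows_ok1 ok_p42_9 no43)
    (cons_no2 (stepOKDR_sound rows_ok1 ok_p42_10 no43)
    (nil_no2 _ cap)))))))))))

theorem no41 : ∀ p ∈ lay41, ∀ m ∈ p, ¬ TriPart cap (szs (sel rows1 m)) :=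
  cons_no2 (stepOKDR_sound rows_ok1 ok_p41_0 no42)
    (cons_no2 (stepOKDR_sound rows_ok1 ok_p41_1 no42)
    (cons_no2 (stepOKDR_sound rows_ok1 ok_p41_2 no42)
    (cons_no2 (stepOKDR_sound rows_ok1 ok_p41_3 no42)
    (cons_no2 (stepOKDR_sound rows_ok1 ok_p41_4 no42)
    (cons_no2 (stepOKDR_sound rows_ok1 ok_p41_5 no42)
    (cons_no2 (stepOKDR_sound rows_ok1 ok_p41_6 no42)
    (cons_no2 (stepOKDR_sound rows_ok1 ok_p41_7 no42)
    (cons_no2 (stepOKDR_sound rows_ok1 ok_p41_8 no42)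
    (cons_no2 (stepOKDR_sound rows_ok1 ok_p41_9 no42)
    (nil_no2 _ cap))))))))))

theorem no40 : ∀ p ∈ lay40, ∀ m ∈ p, ¬ TriPart cap (szs (sel rows1 m)) :=
  cons_no2 (stepOKDR_sound rows_ok1 ok_p40_0 no41)
    (cons_no2 (stepOKDR_sound rows_ok1 ok_p40_1 no41)
    (cons_no2 (stepOKDR_sound rows_ok1 ok_p40_2 no41)
    (cons_no2 (stepOKDR_sound rows_ok1 ok_p40_3 no41)
    (cons_no2 (stepOKDR_sound rows_ok1 ok_p40_4 no41)
    (cons_no2 (stepOKDR_sound rows_ok1 ok_p40_5 no41)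
    (cons_no2 (stepOKDR_sound rows_ok1 ok_p40_6 no41)
    (cons_no2 (stepOKDR_sound rows_ok1 ok_p40_7 no41)
    (nil_no2 _ cap))))))))

theorem no39 : ∀ p ∈ lay39, ∀ m ∈ p, ¬ TriPart cap (szs (sel rows1 m)) :=
  cons_no2 (stepOKDR_sound rows_ok1 ok_p39_0 no40)
    (cons_no2 (stepOKDR_sound rows_ok1 ok_p39_1 no40)
    (cons_no2 (stepOKDR_sound rows_ok1 ok_p39_2 no40)
    (cons_no2 (stepOKDR_sound rows_ok1 ok_p39_3 no40)
    (cons_no2 (stepOKDR_sound rows_ok1 ok_p39_4 no40)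
    (cons_no2 (stepOKDR_sound rows_ok1 ok_p39_5 no40)
    (cons_no2 (stepOKDR_sound rows_ok1 ok_p39_6 no40)
    (nil_no2 _ cap)))))))

theorem no38 : ∀ p ∈ lay38, ∀ m ∈ p, ¬ TriPart cap (szs (sel rows1 m)) :=
  cons_no2 (stepOKDR_sound rows_ok1 ok_p38_0 no39)
    (cons_no2 (stepOKDR_sound rows_ok1 ok_p38_1 no39)
    (cons_no2 (stepOKDR_sound rows_ok1 ok_p38_2 no39)
    (cons_no2 (stepOKDR_sound rows_ok1 ok_p38_3 no39)
    (cons_no2 (stepOKDR_sound rows_ok1 ok_p38_4 no39)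
    (nil_no2 _ cap)))))

theorem no38r : ∀ p ∈ lay38, ∀ m ∈ p, ¬ TriPart cap (szs (sel rows m)) :=
  restrict_no2 seg1 ins1 no38

theorem no37 : ∀ p ∈ lay37, ∀ m ∈ p, ¬ TriPart cap (szs (sel rows m)) :=
  cons_no2 (stepOKDR_sound rows_ok0 ok_p37_0 no38r)
    (cons_no2 (stepOKDR_sound rows_ok0 ok_p37_1 no38r)
    (cons_no2 (stepOKDR_sound rows_ok0 ok_p37_2 no38r)
    (cons_no2 (stepOKDR_sound rows_ok0 ok_p37_3 no38r)
    (cons_no2 (stepOKDR_sound rows_ok0 ok_p37_4 no38r)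
    (cons_no2 (stepOKDR_sound rows_ok0 ok_p37_5 no38r)
    (nil_no2 _ cap))))))

theorem no36 : ∀ p ∈ lay36, ∀ m ∈ p, ¬ TriPart cap (szs (sel rows m)) :=
  cons_no2 (stepOKDR_sound rows_ok0 ok_p36_0 no37)
    (cons_no2 (stepOKDR_sound rows_ok0 ok_p36_1 no37)
    (cons_no2 (stepOKDR_sound rows_ok0 ok_p36_2 no37)
    (cons_no2 (stepOKDR_sound rows_ok0 ok_p36_3 no37)
    (cons_no2 (stepOKDR_sound rows_ok0 ok_p36_4 no37)
    (nil_no2 _ cap)))))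

theorem no35 : ∀ p ∈ lay35, ∀ m ∈ p, ¬ TriPart cap (szs (sel rows m)) :=
  cons_no2 (stepOKDR_sound rows_ok0 ok_p35_0 no36)
    (cons_no2 (stepOKDR_sound rows_ok0 ok_p35_1 no36)
    (cons_no2 (stepOKDR_sound rows_ok0 ok_p35_2 no36)
    (cons_no2 (stepOKDR_sound rows_ok0 ok_p35_3 no36)
    (cons_no2 (stepOKDR_sound rows_ok0 ok_p35_4 no36)
    (nil_no2 _ cap)))))

theorem no34 : ∀ p ∈ lay34, ∀ m ∈ p, ¬ TriPart cap (szs (sel rows m)) :=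
  cons_no2 (stepOKDR_sound rows_ok0 ok_p34_0 no35)
    (cons_no2 (stepOKDR_sound rows_ok0 ok_p34_1 no35)
    (cons_no2 (stepOKDR_sound rows_ok0 ok_p34_2 no35)
    (cons_no2 (stepOKDR_sound rows_ok0 ok_p34_3 no35)
    (cons_no2 (stepOKDR_sound rows_ok0 ok_p34_4 no35)
    (cons_no2 (stepOKDR_sound rows_ok0 ok_p34_5 no35)
    (cons_no2 (stepOKDR_sound rows_ok0 ok_p34_6 no35)
    (cons_no2 (stepOKDR_sound rows_ok0 ok_p34_7 no35)
    (cons_no2 (stepOKDR_sound rows_ok0 ok_p34_8 no35)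
    (nil_no2 _ cap)))))))))

theorem no33 : ∀ p ∈ lay33, ∀ m ∈ p, ¬ TriPart cap (szs (sel rows m)) :=
  cons_no2 (stepOKDR_sound rows_ok0 ok_p33_0 no34)
    (cons_no2 (stepOKDR_sound rows_ok0 ok_p33_1 no34)
    (cons_no2 (stepOKDR_sound rows_ok0 ok_p33_2 no34)
    (cons_no2 (stepOKDR_sound rows_ok0 ok_p33_3 no34)
    (cons_no2 (stepOKDR_sound rows_ok0 ok_p33_4 no34)
    (cons_no2 (stepOKDR_sound rows_ok0 ok_p33_5 no34)
    (cons_no2 (stepOKDR_sound rows_ok0 ok_p33_6 no34)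
    (cons_no2 (stepOKDR_sound rows_ok0 ok_p33_7 no34)
    (cons_no2 (stepOKDR_sound rows_ok0 ok_p33_8 no34)
    (cons_no2 (stepOKDR_sound rows_ok0 ok_p33_9 no34)
    (cons_no2 (stepOKDR_sound rows_ok0 ok_p33_10 no34)
    (cons_no2 (stepOKDR_sound rows_ok0 ok_p33_11 no34)
    (cons_no2 (stepOKDR_sound rows_ok0 ok_p33_12 no34)
    (cons_no2 (stepOKDR_sound rows_ok0 ok_p33_13 no34)
    (cons_no2 (stepOKDR_sound rows_ok0 ok_p33_14 no34)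
    (cons_no2 (stepOKDR_sound rows_ok0 ok_p33_15 no34)
    (nil_no2 _ cap))))))))))))))))

theorem no32 : ∀ p ∈ lay32, ∀ m ∈ p, ¬ TriPart cap (szs (sel rows m)) :=
  cons_no2 (stepOKDR_sound rows_ok0 ok_p32_0 no33)
    (cons_no2 (stepOKDR_sound rows_ok0 ok_p32_1 no33)
    (cons_no2 (stepOKDR_sound rows_ok0 ok_p32_2 no33)
    (cons_no2 (stepOKDR_sound rows_ok0 ok_p32_3 no33)
    (cons_no2 (stepOKDR_sound rows_ok0 ok_p32_4 no33)
    (cons_no2 (stepOKDR_sound rows_ok0 ok_p32_5 no33)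
    (cons_no2 (stepOKDR_sound rows_ok0 ok_p32_6 no33)
    (cons_no2 (stepOKDR_sound rows_ok0 ok_p32_7 no33)
    (cons_no2 (stepOKDR_sound rows_ok0 ok_p32_8 no33)
    (cons_no2 (stepOKDR_sound rows_ok0 ok_p32_9 no33)
    (cons_no2 (stepOKDR_sound rows_ok0 ok_p32_10 no33)
    (cons_no2 (stepOKDR_sound rows_ok0 ok_p32_11 no33)
    (cons_no2 (stepOKDR_sound rows_ok0 ok_p32_12 no33)
    (cons_no2 (stepOKDR_sound rows_ok0 ok_p32_13 no33)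
    (cons_no2 (stepOKDR_sound rows_ok0 ok_p32_14 no33)
    (cons_no2 (stepOKDR_sound rows_ok0 ok_p32_15 no33)
    (cons_no2 (stepOKDR_sound rows_ok0 ok_p32_16 no33)
    (nil_no2 _ cap)))))))))))))))))

theorem no31 : ∀ p ∈ lay31, ∀ m ∈ p, ¬ TriPart cap (szs (sel rows m)) :=
  cons_no2 (stepOKDR_sound rows_ok0 ok_p31_0 no32)
    (cons_no2 (stepOKDR_sound rows_ok0 ok_p31_1 no32)
    (cons_no2 (stepOKDR_sound rows_ok0 ok_p31_2 no32)
    (cons_no2 (stepOKDR_sound rows_ok0 ok_p31_3 no32)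
    (cons_no2 (stepOKDR_sound rows_ok0 ok_p31_4 no32)
    (cons_no2 (stepOKDR_sound rows_ok0 ok_p31_5 no32)
    (cons_no2 (stepOKDR_sound rows_ok0 ok_p31_6 no32)
    (cons_no2 (stepOKDR_sound rows_ok0 ok_p31_7 no32)
    (cons_no2 (stepOKDR_sound rows_ok0 ok_p31_8 no32)
    (cons_no2 (stepOKDR_sound rows_ok0 ok_p31_9 no32)
    (cons_no2 (stepOKDR_sound rows_ok0 ok_p31_10 no32)
    (cons_no2 (stepOKDR_sound rows_ok0 ok_p31_11 no32)
    (cons_no2 (stepOKDR_sound rows_ok0 ok_p31_12 no32)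
    (cons_no2 (stepOKDR_sound rows_ok0 ok_p31_13 no32)
    (cons_no2 (stepOKDR_sound rows_ok0 ok_p31_14 no32)
    (cons_no2 (stepOKDR_sound rows_ok0 ok_p31_15 no32)
    (cons_no2 (stepOKDR_sound rows_ok0 ok_p31_16 no32)
    (nil_no2 _ cap)))))))))))))))))

theorem no30 : ∀ p ∈ lay30, ∀ m ∈ p, ¬ TriPart cap (szs (sel rows m)) :=
  cons_no2 (stepOKDR_sound rows_ok0 ok_p30_0 no31)
    (cons_no2 (stepOKDR_sound rows_ok0 ok_p30_1 no31)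
    (cons_no2 (stepOKDR_sound rows_ok0 ok_p30_2 no31)
    (cons_no2 (stepOKDR_sound rows_ok0 ok_p30_3 no31)
    (cons_no2 (stepOKDR_sound rows_ok0 ok_p30_4 no31)
    (cons_no2 (stepOKDR_sound rows_ok0 ok_p30_5 no31)
    (cons_no2 (stepOKDR_sound rows_ok0 ok_p30_6 no31)
    (cons_no2 (stepOKDR_sound rows_ok0 ok_p30_7 no31)
    (cons_no2 (stepOKDR_sound rows_ok0 ok_p30_8 no31)
    (cons_no2 (stepOKDR_sound rows_ok0 ok_p30_9 no31)
    (cons_no2 (stepOKDR_sound rows_ok0 ok_p30_10 no31)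
    (cons_no2 (stepOKDR_sound rows_ok0 ok_p30_11 no31)
    (cons_no2 (stepOKDR_sound rows_ok0 ok_p30_12 no31)
    (cons_no2 (stepOKDR_sound rows_ok0 ok_p30_13 no31)
    (cons_no2 (stepOKDR_sound rows_ok0 ok_p30_14 no31)
    (nil_no2 _ cap)))))))))))))))

theorem no29 : ∀ p ∈ lay29, ∀ m ∈ p, ¬ TriPart cap (szs (sel rows m)) :=
  cons_no2 (stepOKDR_sound rows_ok0 ok_p29_0 no30)
    (cons_no2 (stepOKDR_sound rows_ok0 ok_p29_1 no30)
    (cons_no2 (stepOKDR_sound rows_ok0 ok_p29_2 no30)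
    (cons_no2 (stepOKDR_sound rows_ok0 ok_p29_3 no30)
    (cons_no2 (stepOKDR_sound rows_ok0 ok_p29_4 no30)
    (cons_no2 (stepOKDR_sound rows_ok0 ok_p29_5 no30)
    (cons_no2 (stepOKDR_sound rows_ok0 ok_p29_6 no30)
    (cons_no2 (stepOKDR_sound rows_ok0 ok_p29_7 no30)
    (cons_no2 (stepOKDR_sound rows_ok0 ok_p29_8 no30)
    (cons_no2 (stepOKDR_sound rows_ok0 ok_p29_9 no30)
    (cons_no2 (stepOKDR_sound rows_ok0 ok_p29_10 no30)
    (cons_no2 (stepOKDR_sound rows_ok0 ok_p29_11 no30)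
    (cons_no2 (stepOKDR_sound rows_ok0 ok_p29_12 no30)
    (cons_no2 (stepOKDR_sound rows_ok0 ok_p29_13 no30)
    (cons_no2 (stepOKDR_sound rows_ok0 ok_p29_14 no30)
    (nil_no2 _ cap)))))))))))))))

theorem no28 : ∀ p ∈ lay28, ∀ m ∈ p, ¬ TriPart cap (szs (sel rows m)) :=
  cons_no2 (stepOKDR_sound rows_ok0 ok_p28_0 no29)
    (cons_no2 (stepOKDR_sound rows_ok0 ok_p28_1 no29)
    (cons_no2 (stepOKDR_sound rows_ok0 ok_p28_2 no29)
    (cons_no2 (stepOKDR_sound rows_ok0 ok_p28_3 no29)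
    (cons_no2 (stepOKDR_sound rows_ok0 ok_p28_4 no29)
    (cons_no2 (stepOKDR_sound rows_ok0 ok_p28_5 no29)
    (cons_no2 (stepOKDR_sound rows_ok0 ok_p28_6 no29)
    (cons_no2 (stepOKDR_sound rows_ok0 ok_p28_7 no29)
    (cons_no2 (stepOKDR_sound rows_ok0 ok_p28_8 no29)
    (cons_no2 (stepOKDR_sound rows_ok0 ok_p28_9 no29)
    (cons_no2 (stepOKDR_sound rows_ok0 ok_p28_10 no29)
    (cons_no2 (stepOKDR_sound rows_ok0 ok_p28_11 no29)
    (cons_no2 (stepOKDR_sound rows_ok0 ok_p28_12 no29)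
    (cons_no2 (stepOKDR_sound rows_ok0 ok_p28_13 no29)
    (cons_no2 (stepOKDR_sound rows_ok0 ok_p28_14 no29)
    (cons_no2 (stepOKDR_sound rows_ok0 ok_p28_15 no29)
    (nil_no2 _ cap))))))))))))))))

theorem no27 : ∀ p ∈ lay27, ∀ m ∈ p, ¬ TriPart cap (szs (sel rows m)) :=
  cons_no2 (stepOKDR_sound rows_ok0 ok_p27_0 no28)
    (cons_no2 (stepOKDR_sound rows_ok0 ok_p27_1 no28)
    (cons_no2 (stepOKDR_sound rows_ok0 ok_p27_2 no28)
    (cons_no2 (stepOKDR_sound rows_ok0 ok_p27_3 no28)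
    (cons_no2 (stepOKDR_sound rows_ok0 ok_p27_4 no28)
    (cons_no2 (stepOKDR_sound rows_ok0 ok_p27_5 no28)
    (cons_no2 (stepOKDR_sound rows_ok0 ok_p27_6 no28)
    (cons_no2 (stepOKDR_sound rows_ok0 ok_p27_7 no28)
    (cons_no2 (stepOKDR_sound rows_ok0 ok_p27_8 no28)
    (cons_no2 (stepOKDR_sound rows_ok0 ok_p27_9 no28)
    (cons_no2 (stepOKDR_sound rows_ok0 ok_p27_10 no28)
    (cons_no2 (stepOKDR_sound rows_ok0 ok_p27_11 no28)
    (cons_no2 (stepOKDR_sound rows_ok0 ok_p27_12 no28)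
    (cons_no2 (stepOKDR_sound rows_ok0 ok_p27_13 no28)
    (cons_no2 (stepOKDR_sound rows_ok0 ok_p27_14 no28)
    (cons_no2 (stepOKDR_sound rows_ok0 ok_p27_15 no28)
    (nil_no2 _ cap))))))))))))))))

theorem no26 : ∀ p ∈ lay26, ∀ m ∈ p, ¬ TriPart cap (szs (sel rows m)) :=
  cons_no2 (stepOKDR_sound rows_ok0 ok_p26_0 no27)
    (cons_no2 (stepOKDR_sound rows_ok0 ok_p26_1 no27)
    (cons_no2 (stepOKDR_sound rows_ok0 ok_p26_2 no27)
    (cons_no2 (stepOKDR_sound rows_ok0 ok_p26_3 no27)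
    (cons_no2 (stepOKDR_sound rows_ok0 ok_p26_4 no27)
    (cons_no2 (stepOKDR_sound rows_ok0 ok_p26_5 no27)
    (cons_no2 (stepOKDR_sound rows_ok0 ok_p26_6 no27)
    (cons_no2 (stepOKDR_sound rows_ok0 ok_p26_7 no27)
    (cons_no2 (stepOKDR_sound rows_ok0 ok_p26_8 no27)
    (cons_no2 (stepOKDR_sound rows_ok0 ok_p26_9 no27)
    (cons_no2 (stepOKDR_sound rows_ok0 ok_p26_10 no27)
    (cons_no2 (stepOKDR_sound rows_ok0 ok_p26_11 no27)
    (cons_no2 (stepOKDR_sound rows_ok0 ok_p26_12 no27)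
    (cons_no2 (stepOKDR_sound rows_ok0 ok_p26_13 no27)
    (cons_no2 (stepOKDR_sound rows_ok0 ok_p26_14 no27)
    (cons_no2 (stepOKDR_sound rows_ok0 ok_p26_15 no27)
    (cons_no2 (stepOKDR_sound rows_ok0 ok_p26_16 no27)
    (cons_no2 (stepOKDR_sound rows_ok0 ok_p26_17 no27)
    (cons_no2 (stepOKDR_sound rows_ok0 ok_p26_18 no27)
    (cons_no2 (stepOKDR_sound rows_ok0 ok_p26_19 no27)
    (cons_no2 (stepOKDR_sound rows_ok0 ok_p26_20 no27)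
    (nil_no2 _ cap)))))))))))))))))))))

theorem no25 : ∀ p ∈ lay25, ∀ m ∈ p, ¬ TriPart cap (szs (sel rows m)) :=
  cons_no2 (stepOKDR_sound rows_ok0 ok_p25_0 no26)
    (cons_no2 (stepOKDR_sound rows_ok0 ok_p25_1 no26)
    (cons_no2 (stepOKDR_sound rows_ok0 ok_p25_2 no26)
    (cons_no2 (stepOKDR_sound rows_ok0 ok_p25_3 no26)
    (cons_no2 (stepOKDR_sound rows_ok0 ok_p25_4 no26)
    (cons_no2 (stepOKDR_sound rows_ok0 ok_p25_5 no26)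
    (cons_no2 (stepOKDR_sound rows_ok0 ok_p25_6 no26)
    (cons_no2 (stepOKDR_sound rows_ok0 ok_p25_7 no26)
    (cons_no2 (stepOKDR_sound rows_ok0 ok_p25_8 no26)
    (cons_no2 (stepOKDR_sound rows_ok0 ok_p25_9 no26)
    (cons_no2 (stepOKDR_sound rows_ok0 ok_p25_10 no26)
    (cons_no2 (stepOKDR_sound rows_ok0 ok_p25_11 no26)
    (cons_no2 (stepOKDR_sound rows_ok0 ok_p25_12 no26)
    (cons_no2 (stepOKDR_sound rows_ok0 ok_p25_13 no26)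
    (cons_no2 (stepOKDR_sound rows_ok0 ok_p25_14 no26)
    (cons_no2 (stepOKDR_sound rows_ok0 ok_p25_15 no26)
    (cons_no2 (stepOKDR_sound rows_ok0 ok_p25_16 no26)
    (cons_no2 (stepOKDR_sound rows_ok0 ok_p25_17 no26)
    (cons_no2 (stepOKDR_sound rows_ok0 ok_p25_18 no26)
    (cons_no2 (stepOKDR_sound rows_ok0 ok_p25_19 no26)
    (cons_no2 (stepOKDR_sound rows_ok0 ok_p25_20 no26)
    (cons_no2 (stepOKDR_sound rows_ok0 ok_p25_21 no26)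
    (cons_no2 (stepOKDR_sound rows_ok0 ok_p25_22 no26)
    (cons_no2 (stepOKDR_sound rows_ok0 ok_p25_23 no26)
    (cons_no2 (stepOKDR_sound rows_ok0 ok_p25_24 no26)
    (nil_no2 _ cap)))))))))))))))))))))))))

theorem no24 : ∀ p ∈ lay24, ∀ m ∈ p, ¬ TriPart cap (szs (sel rows m)) :=
  cons_no2 (stepOKDR_sound rows_ok0 ok_p24_0 no25)
    (cons_no2 (stepOKDR_sound rows_ok0 ok_p24_1 no25)
    (cons_no2 (stepOKDR_sound rows_ok0 ok_p24_2 no25)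
    (cons_no2 (stepOKDR_sound rows_ok0 ok_p24_3 no25)
    (cons_no2 (stepOKDR_sound rows_ok0 ok_p24_4 no25)
    (cons_no2 (stepOKDR_sound rows_ok0 ok_p24_5 no25)
    (cons_no2 (stepOKDR_sound rows_ok0 ok_p24_6 no25)
    (cons_no2 (stepOKDR_sound rows_ok0 ok_p24_7 no25)
    (cons_no2 (stepOKDR_sound rows_ok0 ok_p24_8 no25)
    (cons_no2 (stepOKDR_sound rows_ok0 ok_p24_9 no25)
    (cons_no2 (stepOKDR_sound rows_ok0 ok_p24_10 no25)
    (cons_no2 (stepOKDR_sound rows_ok0 ok_p24_11 no25)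
    (cons_no2 (stepOKDR_sound rows_ok0 ok_p24_12 no25)
    (cons_no2 (stepOKDR_sound rows_ok0 ok_p24_13 no25)
    (cons_no2 (stepOKDR_sound rows_ok0 ok_p24_14 no25)
    (cons_no2 (stepOKDR_sound rows_ok0 ok_p24_15 no25)
    (cons_no2 (stepOKDR_sound rows_ok0 ok_p24_16 no25)
    (cons_no2 (stepOKDR_sound rows_ok0 ok_p24_17 no25)
    (cons_no2 (stepOKDR_sound rows_ok0 ok_p24_18 no25)
    (cons_no2 (stepOKDR_sound rows_ok0 ok_p24_19 no25)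
    (cons_no2 (stepOKDR_sound rows_ok0 ok_p24_20 no25)
    (cons_no2 (stepOKDR_sound rows_ok0 ok_p24_21 no25)
    (cons_no2 (stepOKDR_sound rows_ok0 ok_p24_22 no25)
    (cons_no2 (stepOKDR_sound rows_ok0 ok_p24_23 no25)
    (cons_no2 (stepOKDR_sound rows_ok0 ok_p24_24 no25)
    (cons_no2 (stepOKDR_sound rows_ok0 ok_p24_25 no25)
    (nil_no2 _ cap))))))))))))))))))))))))))

theorem no23 : ∀ p ∈ lay23, ∀ m ∈ p, ¬ TriPart cap (szs (sel rows m)) :=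
  cons_no2 (stepOKDR_sound rows_ok0 ok_p23_0 no24)
    (cons_no2 (stepOKDR_sound rows_ok0 ok_p23_1 no24)
    (cons_no2 (stepOKDR_sound rows_ok0 ok_p23_2 no24)
    (cons_no2 (stepOKDR_sound rows_ok0 ok_p23_3 no24)
    (cons_no2 (stepOKDR_sound rows_ok0 ok_p23_4 no24)
    (cons_no2 (stepOKDR_sound rows_ok0 ok_p23_5 no24)
    (cons_no2 (stepOKDR_sound rows_ok0 ok_p23_6 no24)
    (cons_no2 (stepOKDR_sound rows_ok0 ok_p23_7 no24)
    (cons_no2 (stepOKDR_sound rows_ok0 ok_p23_8 no24)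
    (cons_no2 (stepOKDR_sound rows_ok0 ok_p23_9 no24)
    (cons_no2 (stepOKDR_sound rows_ok0 ok_p23_10 no24)
    (cons_no2 (stepOKDR_sound rows_ok0 ok_p23_11 no24)
    (cons_no2 (stepOKDR_sound rows_ok0 ok_p23_12 no24)
    (cons_no2 (stepOKDR_sound rows_ok0 ok_p23_13 no24)
    (cons_no2 (stepOKDR_sound rows_ok0 ok_p23_14 no24)
    (cons_no2 (stepOKDR_sound rows_ok0 ok_p23_15 no24)
    (cons_no2 (stepOKDR_sound rows_ok0 ok_p23_16 no24)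
    (cons_no2 (stepOKDR_sound rows_ok0 ok_p23_17 no24)
    (cons_no2 (stepOKDR_sound rows_ok0 ok_p23_18 no24)
    (cons_no2 (stepOKDR_sound rows_ok0 ok_p23_19 no24)
    (cons_no2 (stepOKDR_sound rows_ok0 ok_p23_20 no24)
    (cons_no2 (stepOKDR_sound rows_ok0 ok_p23_21 no24)
    (nil_no2 _ cap))))))))))))))))))))))

theorem no22 : ∀ p ∈ lay22, ∀ m ∈ p, ¬ TriPart cap (szs (sel rows m)) :=
  cons_no2 (stepOKDR_sound rows_ok0 ok_p22_0 no23)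
    (cons_no2 (stepOKDR_sound rows_ok0 ok_p22_1 no23)
    (cons_no2 (stepOKDR_sound rows_ok0 ok_p22_2 no23)
    (cons_no2 (stepOKDR_sound rows_ok0 ok_p22_3 no23)
    (cons_no2 (stepOKDR_sound rows_ok0 ok_p22_4 no23)
    (cons_no2 (stepOKDR_sound rows_ok0 ok_p22_5 no23)
    (cons_no2 (stepOKDR_sound rows_ok0 ok_p22_6 no23)
    (cons_no2 (stepOKDR_sound rows_ok0 ok_p22_7 no23)
    (cons_no2 (stepOKDR_sound rows_ok0 ok_p22_8 no23)
    (cons_no2 (stepOKDR_sound rows_ok0 ok_p22_9 no23)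
    (cons_no2 (stepOKDR_sound rows_ok0 ok_p22_10 no23)
    (cons_no2 (stepOKDR_sound rows_ok0 ok_p22_11 no23)
    (cons_no2 (stepOKDR_sound rows_ok0 ok_p22_12 no23)
    (cons_no2 (stepOKDR_sound rows_ok0 ok_p22_13 no23)
    (cons_no2 (stepOKDR_sound rows_ok0 ok_p22_14 no23)
    (cons_no2 (stepOKDR_sound rows_ok0 ok_p22_15 no23)
    (cons_no2 (stepOKDR_sound rows_ok0 ok_p22_16 no23)
    (cons_no2 (stepOKDR_sound rows_ok0 ok_p22_17 no23)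
    (cons_no2 (stepOKDR_sound rows_ok0 ok_p22_18 no23)
    (nil_no2 _ cap)))))))))))))))))))

theorem no21 : ∀ p ∈ lay21, ∀ m ∈ p, ¬ TriPart cap (szs (sel rows m)) :=
  cons_no2 (stepOKDR_sound rows_ok0 ok_p21_0 no22)
    (cons_no2 (stepOKDR_sound rows_ok0 ok_p21_1 no22)
    (cons_no2 (stepOKDR_sound rows_ok0 ok_p21_2 no22)
    (cons_no2 (stepOKDR_sound rows_ok0 ok_p21_3 no22)
    (cons_no2 (stepOKDR_sound rows_ok0 ok_p21_4 no22)
    (cons_no2 (stepOKDR_sound rows_ok0 ok_p21_5 no22)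
    (cons_no2 (stepOKDR_sound rows_ok0 ok_p21_6 no22)
    (cons_no2 (stepOKDR_sound rows_ok0 ok_p21_7 no22)
    (cons_no2 (stepOKDR_sound rows_ok0 ok_p21_8 no22)
    (cons_no2 (stepOKDR_sound rows_ok0 ok_p21_9 no22)
    (cons_no2 (stepOKDR_sound rows_ok0 ok_p21_10 no22)
    (cons_no2 (stepOKDR_sound rows_ok0 ok_p21_11 no22)
    (cons_no2 (stepOKDR_sound rows_ok0 ok_p21_12 no22)
    (cons_no2 (stepOKDR_sound rows_ok0 ok_p21_13 no22)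
    (cons_no2 (stepOKDR_sound rows_ok0 ok_p21_14 no22)
    (cons_no2 (stepOKDR_sound rows_ok0 ok_p21_15 no22)
    (cons_no2 (stepOKDR_sound rows_ok0 ok_p21_16 no22)
    (cons_no2 (stepOKDR_sound rows_ok0 ok_p21_17 no22)
    (nil_no2 _ cap))))))))))))))))))

theorem no20 : ∀ p ∈ lay20, ∀ m ∈ p, ¬ TriPart cap (szs (sel rows m)) :=
  cons_no2 (stepOKDR_sound rows_ok0 ok_p20_0 no21)
    (cons_no2 (stepOKDR_sound rows_ok0 ok_p20_1 no21)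
    (cons_no2 (stepOKDR_sound rows_ok0 ok_p20_2 no21)
    (cons_no2 (stepOKDR_sound rows_ok0 ok_p20_3 no21)
    (cons_no2 (stepOKDR_sound rows_ok0 ok_p20_4 no21)
    (cons_no2 (stepOKDR_sound rows_ok0 ok_p20_5 no21)
    (cons_no2 (stepOKDR_sound rows_ok0 ok_p20_6 no21)
    (cons_no2 (stepOKDR_sound rows_ok0 ok_p20_7 no21)
    (cons_no2 (stepOKDR_sound rows_ok0 ok_p20_8 no21)
    (cons_no2 (stepOKDR_sound rows_ok0 ok_p20_9 no21)
    (cons_no2 (stepOKDR_sound rows_ok0 ok_p20_10 no21)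
    (cons_no2 (stepOKDR_sound rows_ok0 ok_p20_11 no21)
    (cons_no2 (stepOKDR_sound rows_ok0 ok_p20_12 no21)
    (cons_no2 (stepOKDR_sound rows_ok0 ok_p20_13 no21)
    (cons_no2 (stepOKDR_sound rows_ok0 ok_p20_14 no21)
    (nil_no2 _ cap)))))))))))))))

theorem no19 : ∀ p ∈ lay19, ∀ m ∈ p, ¬ TriPart cap (szs (sel rows m)) :=
  cons_no2 (stepOKDR_sound rows_ok0 ok_p19_0 no20)
    (cons_no2 (stepOKDR_sound rows_ok0 ok_p19_1 no20)
    (cons_no2 (stepOKDR_sound rows_ok0 ok_p19_2 no20)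
    (cons_no2 (stepOKDR_sound rows_ok0 ok_p19_3 no20)
    (cons_no2 (stepOKDR_sound rows_ok0 ok_p19_4 no20)
    (cons_no2 (stepOKDR_sound rows_ok0 ok_p19_5 no20)
    (cons_no2 (stepOKDR_sound rows_ok0 ok_p19_6 no20)
    (cons_no2 (stepOKDR_sound rows_ok0 ok_p19_7 no20)
    (cons_no2 (stepOKDR_sound rows_ok0 ok_p19_8 no20)
    (cons_no2 (stepOKDR_sound rows_ok0 ok_p19_9 no20)
    (cons_no2 (stepOKDR_sound rows_ok0 ok_p19_10 no20)
    (cons_no2 (stepOKDR_sound rows_ok0 ok_p19_11 no20)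
    (nil_no2 _ cap))))))))))))

theorem no18 : ∀ p ∈ lay18, ∀ m ∈ p, ¬ TriPart cap (szs (sel rows m)) :=
  cons_no2 (stepOKDR_sound rows_ok0 ok_p18_0 no19)
    (cons_no2 (stepOKDR_sound rows_ok0 ok_p18_1 no19)
    (cons_no2 (stepOKDR_sound rows_ok0 ok_p18_2 no19)
    (cons_no2 (stepOKDR_sound rows_ok0 ok_p18_3 no19)
    (cons_no2 (stepOKDR_sound rows_ok0 ok_p18_4 no19)
    (cons_no2 (stepOKDR_sound rows_ok0 ok_p18_5 no19)
    (cons_no2 (stepOKDR_sound rows_ok0 ok_p18_6 no19)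
    (cons_no2 (stepOKDR_sound rows_ok0 ok_p18_7 no19)
    (cons_no2 (stepOKDR_sound rows_ok0 ok_p18_8 no19)
    (nil_no2 _ cap)))))))))

theorem no17 : ∀ p ∈ lay17, ∀ m ∈ p, ¬ TriPart cap (szs (sel rows m)) :=
  cons_no2 (stepOKDR_sound rows_ok0 ok_p17_0 no18)
    (cons_no2 (stepOKDR_sound rows_ok0 ok_p17_1 no18)
    (cons_no2 (stepOKDR_sound rows_ok0 ok_p17_2 no18)
    (cons_no2 (stepOKDR_sound rows_ok0 ok_p17_3 no18)
    (cons_no2 (stepOKDR_sound rows_ok0 ok_p17_4 no18)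
    (cons_no2 (stepOKDR_sound rows_ok0 ok_p17_5 no18)
    (cons_no2 (stepOKDR_sound rows_ok0 ok_p17_6 no18)
    (cons_no2 (stepOKDR_sound rows_ok0 ok_p17_7 no18)
    (cons_no2 (stepOKDR_sound rows_ok0 ok_p17_8 no18)
    (cons_no2 (stepOKDR_sound rows_ok0 ok_p17_9 no18)
    (cons_no2 (stepOKDR_sound rows_ok0 ok_p17_10 no18)
    (nil_no2 _ cap)))))))))))

theorem no16 : ∀ p ∈ lay16, ∀ m ∈ p, ¬ TriPart cap (szs (sel rows m)) :=
  cons_no2 (stepOKDR_sound rows_ok0 ok_p16_0 no17)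
    (cons_no2 (stepOKDR_sound rows_ok0 ok_p16_1 no17)
    (cons_no2 (stepOKDR_sound rows_ok0 ok_p16_2 no17)
    (cons_no2 (stepOKDR_sound rows_ok0 ok_p16_3 no17)
    (cons_no2 (stepOKDR_sound rows_ok0 ok_p16_4 no17)
    (cons_no2 (stepOKDR_sound rows_ok0 ok_p16_5 no17)
    (cons_no2 (stepOKDR_sound rows_ok0 ok_p16_6 no17)
    (cons_no2 (stepOKDR_sound rows_ok0 ok_p16_7 no17)
    (cons_no2 (stepOKDR_sound rows_ok0 ok_p16_8 no17)
    (cons_no2 (stepOKDR_sound rows_ok0 ok_p16_9 no17)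
    (cons_no2 (stepOKDR_sound rows_ok0 ok_p16_10 no17)
    (cons_no2 (stepOKDR_sound rows_ok0 ok_p16_11 no17)
    (cons_no2 (stepOKDR_sound rows_ok0 ok_p16_12 no17)
    (cons_no2 (stepOKDR_sound rows_ok0 ok_p16_13 no17)
    (cons_no2 (stepOKDR_sound rows_ok0 ok_p16_14 no17)
    (cons_no2 (stepOKDR_sound rows_ok0 ok_p16_15 no17)
    (nil_no2 _ cap))))))))))))))))

theorem no15 : ∀ p ∈ lay15, ∀ m ∈ p, ¬ TriPart cap (szs (sel rows m)) :=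
  cons_no2 (stepOKDR_sound rows_ok0 ok_p15_0 no16)
    (cons_no2 (stepOKDR_sound rows_ok0 ok_p15_1 no16)
    (cons_no2 (stepOKDR_sound rows_ok0 ok_p15_2 no16)
    (cons_no2 (stepOKDR_sound rows_ok0 ok_p15_3 no16)
    (cons_no2 (stepOKDR_sound rows_ok0 ok_p15_4 no16)
    (cons_no2 (stepOKDR_sound rows_ok0 ok_p15_5 no16)
    (cons_no2 (stepOKDR_sound rows_ok0 ok_p15_6 no16)
    (cons_no2 (stepOKDR_sound rows_ok0 ok_p15_7 no16)
    (cons_no2 (stepOKDR_sound rows_ok0 ok_p15_8 no16)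
    (cons_no2 (stepOKDR_sound rows_ok0 ok_p15_9 no16)
    (cons_no2 (stepOKDR_sound rows_ok0 ok_p15_10 no16)
    (cons_no2 (stepOKDR_sound rows_ok0 ok_p15_11 no16)
    (cons_no2 (stepOKDR_sound rows_ok0 ok_p15_12 no16)
    (cons_no2 (stepOKDR_sound rows_ok0 ok_p15_13 no16)
    (cons_no2 (stepOKDR_sound rows_ok0 ok_p15_14 no16)
    (cons_no2 (stepOKDR_sound rows_ok0 ok_p15_15 no16)
    (cons_no2 (stepOKDR_sound rows_ok0 ok_p15_16 no16)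
    (cons_no2 (stepOKDR_sound rows_ok0 ok_p15_17 no16)
    (cons_no2 (stepOKDR_sound rows_ok0 ok_p15_18 no16)
    (cons_no2 (stepOKDR_sound rows_ok0 ok_p15_19 no16)
    (cons_no2 (stepOKDR_sound rows_ok0 ok_p15_20 no16)
    (cons_no2 (stepOKDR_sound rows_ok0 ok_p15_21 no16)
    (nil_no2 _ cap))))))))))))))))))))))

theorem no14 : ∀ p ∈ lay14, ∀ m ∈ p, ¬ TriPart cap (szs (sel rows m)) :=
  cons_no2 (stepOKDR_sound rows_ok0 ok_p14_0 no15)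
    (cons_no2 (stepOKDR_sound rows_ok0 ok_p14_1 no15)
    (cons_no2 (stepOKDR_sound rows_ok0 ok_p14_2 no15)
    (cons_no2 (stepOKDR_sound rows_ok0 ok_p14_3 no15)
    (cons_no2 (stepOKDR_sound rows_ok0 ok_p14_4 no15)
    (cons_no2 (stepOKDR_sound rows_ok0 ok_p14_5 no15)
    (cons_no2 (stepOKDR_sound rows_ok0 ok_p14_6 no15)
    (cons_no2 (stepOKDR_sound rows_ok0 ok_p14_7 no15)
    (cons_no2 (stepOKDR_sound rows_ok0 ok_p14_8 no15)
    (cons_no2 (stepOKDR_sound rows_ok0 ok_p14_9 no15)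
    (cons_no2 (stepOKDR_sound rows_ok0 ok_p14_10 no15)
    (cons_no2 (stepOKDR_sound rows_ok0 ok_p14_11 no15)
    (cons_no2 (stepOKDR_sound rows_ok0 ok_p14_12 no15)
    (cons_no2 (stepOKDR_sound rows_ok0 ok_p14_13 no15)
    (cons_no2 (stepOKDR_sound rows_ok0 ok_p14_14 no15)
    (cons_no2 (stepOKDR_sound rows_ok0 ok_p14_15 no15)
    (cons_no2 (stepOKDR_sound rows_ok0 ok_p14_16 no15)
    (cons_no2 (stepOKDR_sound rows_ok0 ok_p14_17 no15)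
    (cons_no2 (stepOKDR_sound rows_ok0 ok_p14_18 no15)
    (cons_no2 (stepOKDR_sound rows_ok0 ok_p14_19 no15)
    (cons_no2 (stepOKDR_sound rows_ok0 ok_p14_20 no15)
    (nil_no2 _ cap)))))))))))))))))))))

theorem no13 : ∀ p ∈ lay13, ∀ m ∈ p, ¬ TriPart cap (szs (sel rows m)) :=
  cons_no2 (stepOKDR_sound rows_ok0 ok_p13_0 no14)
    (cons_no2 (stepOKDR_sound rows_ok0 ok_p13_1 no14)
    (cons_no2 (stepOKDR_sound rows_ok0 ok_p13_2 no14)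
    (cons_no2 (stepOKDR_sound rows_ok0 ok_p13_3 no14)
    (cons_no2 (stepOKDR_sound rows_ok0 ok_p13_4 no14)
    (cons_no2 (stepOKDR_sound rows_ok0 ok_p13_5 no14)
    (cons_no2 (stepOKDR_sound rows_ok0 ok_p13_6 no14)
    (cons_no2 (stepOKDR_sound rows_ok0 ok_p13_7 no14)
    (cons_no2 (stepOKDR_sound rows_ok0 ok_p13_8 no14)
    (cons_no2 (stepOKDR_sound rows_ok0 ok_p13_9 no14)
    (cons_no2 (stepOKDR_sound rows_ok0 ok_p13_10 no14)
    (cons_no2 (stepOKDR_sound rows_ok0 ok_p13_11 no14)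
    (cons_no2 (stepOKDR_sound rows_ok0 ok_p13_12 no14)
    (cons_no2 (stepOKDR_sound rows_ok0 ok_p13_13 no14)
    (cons_no2 (stepOKDR_sound rows_ok0 ok_p13_14 no14)
    (cons_no2 (stepOKDR_sound rows_ok0 ok_p13_15 no14)
    (cons_no2 (stepOKDR_sound rows_ok0 ok_p13_16 no14)
    (cons_no2 (stepOKDR_sound rows_ok0 ok_p13_17 no14)
    (cons_no2 (stepOKDR_sound rows_ok0 ok_p13_18 no14)
    (nil_no2 _ cap)))))))))))))))))))

theorem no12 : ∀ p ∈ lay12, ∀ m ∈ p, ¬ TriPart cap (szs (sel rows m)) :=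
  cons_no2 (stepOKDR_sound rows_ok0 ok_p12_0 no13)
    (cons_no2 (stepOKDR_sound rows_ok0 ok_p12_1 no13)
    (cons_no2 (stepOKDR_sound rows_ok0 ok_p12_2 no13)
    (cons_no2 (stepOKDR_sound rows_ok0 ok_p12_3 no13)
    (cons_no2 (stepOKDR_sound rows_ok0 ok_p12_4 no13)
    (cons_no2 (stepOKDR_sound rows_ok0 ok_p12_5 no13)
    (cons_no2 (stepOKDR_sound rows_ok0 ok_p12_6 no13)
    (cons_no2 (stepOKDR_sound rows_ok0 ok_p12_7 no13)
    (cons_no2 (stepOKDR_sound rows_ok0 ok_p12_8 no13)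
    (cons_no2 (stepOKDR_sound rows_ok0 ok_p12_9 no13)
    (cons_no2 (stepOKDR_sound rows_ok0 ok_p12_10 no13)
    (cons_no2 (stepOKDR_sound rows_ok0 ok_p12_11 no13)
    (cons_no2 (stepOKDR_sound rows_ok0 ok_p12_12 no13)
    (cons_no2 (stepOKDR_sound rows_ok0 ok_p12_13 no13)
    (cons_no2 (stepOKDR_sound rows_ok0 ok_p12_14 no13)
    (cons_no2 (stepOKDR_sound rows_ok0 ok_p12_15 no13)
    (cons_no2 (stepOKDR_sound rows_ok0 ok_p12_16 no13)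
    (nil_no2 _ cap)))))))))))))))))

theorem no11 : ∀ p ∈ lay11, ∀ m ∈ p, ¬ TriPart cap (szs (sel rows m)) :=
  cons_no2 (stepOKDR_sound rows_ok0 ok_p11_0 no12)
    (cons_no2 (stepOKDR_sound rows_ok0 ok_p11_1 no12)
    (cons_no2 (stepOKDR_sound rows_ok0 ok_p11_2 no12)
    (cons_no2 (stepOKDR_sound rows_ok0 ok_p11_3 no12)
    (cons_no2 (stepOKDR_sound rows_ok0 ok_p11_4 no12)
    (cons_no2 (stepOKDR_sound rows_ok0 ok_p11_5 no12)
    (cons_no2 (stepOKDR_sound rows_ok0 ok_p11_6 no12)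
    (cons_no2 (stepOKDR_sound rows_ok0 ok_p11_7 no12)
    (cons_no2 (stepOKDR_sound rows_ok0 ok_p11_8 no12)
    (cons_no2 (stepOKDR_sound rows_ok0 ok_p11_9 no12)
    (cons_no2 (stepOKDR_sound rows_ok0 ok_p11_10 no12)
    (cons_no2 (stepOKDR_sound rows_ok0 ok_p11_11 no12)
    (cons_no2 (stepOKDR_sound rows_ok0 ok_p11_12 no12)
    (cons_no2 (stepOKDR_sound rows_ok0 ok_p11_13 no12)
    (cons_no2 (stepOKDR_sound rows_ok0 ok_p11_14 no12)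
    (nil_no2 _ cap)))))))))))))))

theorem no10 : ∀ p ∈ lay10, ∀ m ∈ p, ¬ TriPart cap (szs (sel rows m)) :=
  cons_no2 (stepOKDR_sound rows_ok0 ok_p10_0 no11)
    (cons_no2 (stepOKDR_sound rows_ok0 ok_p10_1 no11)
    (cons_no2 (stepOKDR_sound rows_ok0 ok_p10_2 no11)
    (cons_no2 (stepOKDR_sound rows_ok0 ok_p10_3 no11)
    (cons_no2 (stepOKDR_sound rows_ok0 ok_p10_4 no11)
    (cons_no2 (stepOKDR_sound rows_ok0 ok_p10_5 no11)
    (cons_no2 (stepOKDR_sound rows_ok0 ok_p10_6 no11)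
    (cons_no2 (stepOKDR_sound rows_ok0 ok_p10_7 no11)
    (cons_no2 (stepOKDR_sound rows_ok0 ok_p10_8 no11)
    (cons_no2 (stepOKDR_sound rows_ok0 ok_p10_9 no11)
    (cons_no2 (stepOKDR_sound rows_ok0 ok_p10_10 no11)
    (cons_no2 (stepOKDR_sound rows_ok0 ok_p10_11 no11)
    (nil_no2 _ cap))))))))))))

theorem no9 : ∀ p ∈ lay9, ∀ m ∈ p, ¬ TriPart cap (szs (sel rows m)) :=
  cons_no2 (stepOKDR_sound rows_ok0 ok_p9_0 no10)
    (cons_no2 (stepOKDR_sound rows_ok0 ok_p9_1 no10)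
    (cons_no2 (stepOKDR_sound rows_ok0 ok_p9_2 no10)
    (cons_no2 (stepOKDR_sound rows_ok0 ok_p9_3 no10)
    (cons_no2 (stepOKDR_sound rows_ok0 ok_p9_4 no10)
    (cons_no2 (stepOKDR_sound rows_ok0 ok_p9_5 no10)
    (cons_no2 (stepOKDR_sound rows_ok0 ok_p9_6 no10)
    (cons_no2 (stepOKDR_sound rows_ok0 ok_p9_7 no10)
    (cons_no2 (stepOKDR_sound rows_ok0 ok_p9_8 no10)
    (cons_no2 (stepOKDR_sound rows_ok0 ok_p9_9 no10)
    (cons_no2 (stepOKDR_sound rows_ok0 ok_p9_10 no10)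
    (nil_no2 _ cap)))))))))))

theorem no8 : ∀ p ∈ lay8, ∀ m ∈ p, ¬ TriPart cap (szs (sel rows m)) :=
  cons_no2 (stepOKDR_sound rows_ok0 ok_p8_0 no9)
    (cons_no2 (stepOKDR_sound rows_ok0 ok_p8_1 no9)
    (cons_no2 (stepOKDR_sound rows_ok0 ok_p8_2 no9)
    (cons_no2 (stepOKDR_sound rows_ok0 ok_p8_3 no9)
    (cons_no2 (stepOKDR_sound rows_ok0 ok_p8_4 no9)
    (cons_no2 (stepOKDR_sound rows_ok0 ok_p8_5 no9)
    (cons_no2 (stepOKDR_sound rows_ok0 ok_p8_6 no9)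
    (cons_no2 (stepOKDR_sound rows_ok0 ok_p8_7 no9)
    (cons_no2 (stepOKDR_sound rows_ok0 ok_p8_8 no9)
    (cons_no2 (stepOKDR_sound rows_ok0 ok_p8_9 no9)
    (cons_no2 (stepOKDR_sound rows_ok0 ok_p8_10 no9)
    (cons_no2 (stepOKDR_sound rows_ok0 ok_p8_11 no9)
    (cons_no2 (stepOKDR_sound rows_ok0 ok_p8_12 no9)
    (cons_no2 (stepOKDR_sound rows_ok0 ok_p8_13 no9)
    (nil_no2 _ cap))))))))))))))

theorem no7 : ∀ p ∈ lay7, ∀ m ∈ p, ¬ TriPart cap (szs (sel rows m)) :=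
  cons_no2 (stepOKDR_sound rows_ok0 ok_p7_0 no8)
    (cons_no2 (stepOKDR_sound rows_ok0 ok_p7_1 no8)
    (cons_no2 (stepOKDR_sound rows_ok0 ok_p7_2 no8)
    (cons_no2 (stepOKDR_sound rows_ok0 ok_p7_3 no8)
    (cons_no2 (stepOKDR_sound rows_ok0 ok_p7_4 no8)
    (cons_no2 (stepOKDR_sound rows_ok0 ok_p7_5 no8)
    (cons_no2 (stepOKDR_sound rows_ok0 ok_p7_6 no8)
    (cons_no2 (stepOKDR_sound rows_ok0 ok_p7_7 no8)
    (cons_no2 (stepOKDR_sound rows_ok0 ok_p7_8 no8)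
    (cons_no2 (stepOKDR_sound rows_ok0 ok_p7_9 no8)
    (cons_no2 (stepOKDR_sound rows_ok0 ok_p7_10 no8)
    (cons_no2 (stepOKDR_sound rows_ok0 ok_p7_11 no8)
    (cons_no2 (stepOKDR_sound rows_ok0 ok_p7_12 no8)
    (cons_no2 (stepOKDR_sound rows_ok0 ok_p7_13 no8)
    (nil_no2 _ cap))))))))))))))

theorem no6 : ∀ p ∈ lay6, ∀ m ∈ p, ¬ TriPart cap (szs (sel rows m)) :=
  cons_no2 (stepOKDR_sound rows_ok0 ok_p6_0 no7)
    (cons_no2 (stepOKDR_sound rows_ok0 ok_p6_1 no7)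
    (cons_no2 (stepOKDR_sound rows_ok0 ok_p6_2 no7)
    (cons_no2 (stepOKDR_sound rows_ok0 ok_p6_3 no7)
    (cons_no2 (stepOKDR_sound rows_ok0 ok_p6_4 no7)
    (cons_no2 (stepOKDR_sound rows_ok0 ok_p6_5 no7)
    (cons_no2 (stepOKDR_sound rows_ok0 ok_p6_6 no7)
    (cons_no2 (stepOKDR_sound rows_ok0 ok_p6_7 no7)
    (cons_no2 (stepOKDR_sound rows_ok0 ok_p6_8 no7)
    (cons_no2 (stepOKDR_sound rows_ok0 ok_p6_9 no7)
    (cons_no2 (stepOKDR_sound rows_ok0 ok_p6_10 no7)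
    (cons_no2 (stepOKDR_sound rows_ok0 ok_p6_11 no7)
    (cons_no2 (stepOKDR_sound rows_ok0 ok_p6_12 no7)
    (nil_no2 _ cap)))))))))))))

theorem no5 : ∀ p ∈ lay5, ∀ m ∈ p, ¬ TriPart cap (szs (sel rows m)) :=
  cons_no2 (stepOKDR_sound rows_ok0 ok_p5_0 no6)
    (cons_no2 (stepOKDR_sound rows_ok0 ok_p5_1 no6)
    (cons_no2 (stepOKDR_sound rows_ok0 ok_p5_2 no6)
    (cons_no2 (stepOKDR_sound rows_ok0 ok_p5_3 no6)
    (cons_no2 (stepOKDR_sound rows_ok0 ok_p5_4 no6)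
    (cons_no2 (stepOKDR_sound rows_ok0 ok_p5_5 no6)
    (cons_no2 (stepOKDR_sound rows_ok0 ok_p5_6 no6)
    (cons_no2 (stepOKDR_sound rows_ok0 ok_p5_7 no6)
    (cons_no2 (stepOKDR_sound rows_ok0 ok_p5_8 no6)
    (nil_no2 _ cap)))))))))

theorem no4 : ∀ p ∈ lay4, ∀ m ∈ p, ¬ TriPart cap (szs (sel rows m)) :=
  cons_no2 (stepOKDR_sound rows_ok0 ok_p4_0 no5)
    (cons_no2 (stepOKDR_sound rows_ok0 ok_p4_1 no5)
    (cons_no2 (stepOKDR_sound rows_ok0 ok_p4_2 no5)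
    (cons_no2 (stepOKDR_sound rows_ok0 ok_p4_3 no5)
    (cons_no2 (stepOKDR_sound rows_ok0 ok_p4_4 no5)
    (cons_no2 (stepOKDR_sound rows_ok0 ok_p4_5 no5)
    (cons_no2 (stepOKDR_sound rows_ok0 ok_p4_6 no5)
    (cons_no2 (stepOKDR_sound rows_ok0 ok_p4_7 no5)
    (cons_no2 (stepOKDR_sound rows_ok0 ok_p4_8 no5)
    (nil_no2 _ cap)))))))))

theorem no3 : ∀ p ∈ lay3, ∀ m ∈ p, ¬ TriPart cap (szs (sel rows m)) :=
  cons_no2 (stepOKDR_sound rows_ok0 ok_p3_0 no4)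
    (cons_no2 (stepOKDR_sound rows_ok0 ok_p3_1 no4)
    (cons_no2 (stepOKDR_sound rows_ok0 ok_p3_2 no4)
    (cons_no2 (stepOKDR_sound rows_ok0 ok_p3_3 no4)
    (cons_no2 (stepOKDR_sound rows_ok0 ok_p3_4 no4)
    (cons_no2 (stepOKDR_sound rows_ok0 ok_p3_5 no4)
    (cons_no2 (stepOKDR_sound rows_ok0 ok_p3_6 no4)
    (nil_no2 _ cap)))))))

theorem no2 : ∀ p ∈ lay2, ∀ m ∈ p, ¬ TriPart cap (szs (sel rows m)) :=
  cons_no2 (stepOKDR_sound rows_ok0 ok_p2_0 no3)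
    (cons_no2 (stepOKDR_sound rows_ok0 ok_p2_1 no3)
    (cons_no2 (stepOKDR_sound rows_ok0 ok_p2_2 no3)
    (cons_no2 (stepOKDR_sound rows_ok0 ok_p2_3 no3)
    (nil_no2 _ cap))))

theorem no1 : ∀ p ∈ lay1, ∀ m ∈ p, ¬ TriPart cap (szs (sel rows m)) :=
  cons_no2 (stepOKDR_sound rows_ok0 ok_p1_0 no2)
    (cons_no2 (stepOKDR_sound rows_ok0 ok_p1_1 no2)
    (nil_no2 _ cap))

theorem no0 : ∀ p ∈ lay0, ∀ m ∈ p, ¬ TriPart cap (szs (sel rows m)) :=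
  cons_no2 (stepOKDR_sound rows_ok0 ok_p0_0 no1)
    (nil_no2 _ cap)

end Vale.Agent.Lib.P302.helper8.Th863
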