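import Mathlib
import Vale.Agent.Lib.P302.helper8.Th863.F0
import Vale.Agent.Lib.P302.helper8.Th863.Seg

/-!
# P302: the fractional solution of the 863-item instance, checked in pieces (part 1)
-/

namespace Vale.Agent.Lib.P302.helper8.Th863

open Vale.Agent.Lib.P302.helper14 Vale.Agent.Lib.P302.helper8 Vale.Agent.Lib.P302.helper9

set_option maxRecDepth 8192

theorem cfg_25 : (List.take 3 (List.drop 3 (List.drop 3 (List.drop 3 (List.drop 3 (List.drop 3 (List.drop 3 (List.drop 3 (List.drop 3 (List.drop 3 (List.drop 3 (List.drop 3 (List.drop 3 (List.drop 3 (List.drop 3 (List.drop 3 (List.drop 3 (List.drop 3 (List.drop 3 (List.drop 3 (List.drop 3 (List.drop 3 (List.drop 3 (List.drop 3 (List.drop 3 (List.drop 3 (frac))))))))))))))))))))))))))).all (cfgOK sizes cap) = true := by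
  decide +kernel

theorem cfg_26 : (List.take 3 (List.drop 3 (List.drop 3 (List.drop 3 (List.drop 3 (List.drop 3 (List.drop 3 (List.drop 3 (List.drop 3 (List.drop 3 (List.drop 3 (List.drop 3 (List.drop 3 (List.drop 3 (List.drop 3 (List.drop 3 (List.drop 3 (List.drop 3 (List.drop 3 (List.drop 3 (List.drop 3 (List.drop 3 (List.drop 3 (List.drop 3 (List.drop 3 (List.drop 3 (List.drop 3 (frac)))))))))))))))))))))))))))).all (cfgOK sizes cap) = true := by
  decide +kernel

theorem cfg_27 : (List.take 3 (List.drop 3 (List.drop 3 (List.drop 3 (List.drop 3 (List.drop 3 (List.drop 3 (List.drop 3 (List.drop 3 (List.drop 3 (List.drop 3 (List.drop 3 (List.drop 3 (List.drop 3 (List.drop 3 (List.drop 3 (List.drop 3 (List.drop 3 (List.drop 3 (List.drop 3 (List.drop 3 (List.drop 3 (List.drop 3 (List.drop 3 (List.drop 3 (List.drop 3 (List.drop 3 (List.drop 3 (frac))))))))))))))))))))))))))))).all (cfgOK sizes cap) = true := by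
  decide +kernel

theorem cfg_28 : (List.take 3 (List.drop 3 (List.drop 3 (List.drop 3 (List.drop 3 (List.drop 3 (List.drop 3 (List.drop 3 (List.drop 3 (List.drop 3 (List.drop 3 (List.drop 3 (List.drop 3 (List.drop 3 (List.drop 3 (List.drop 3 (List.drop 3 (List.drop 3 (List.drop 3 (List.drop 3 (List.drop 3 (List.drop 3 (List.drop 3 (List.drop 3 (List.drop 3 (List.drop 3 (List.drop 3 (List.drop 3 (List.drop 3 (frac)))))))))))))))))))))))))))))).all (cfgOK sizes cap) = true := by
  decide +kernel

theorem cfg_29 : (List.take 3 (List.drop 3 (List.drop 3 (List.drop 3 (List.drop 3 (List.drop 3 (List.drop 3 (List.drop 3 (List.drop 3 (List.drop 3 (List.drop 3 (List.drop 3 (List.drop 3 (List.drop 3 (List.drop 3 (List.drop 3 (List.drop 3 (List.drop 3 (List.drop 3 (List.drop 3 (List.drop 3 (List.drop 3 (List.drop 3 (List.drop 3 (List.drop 3 (List.drop 3 (List.drop 3 (List.drop 3 (List.drop 3 (List.drop 3 (frac))))))))))))))))))))))))))))))).all (cfgOK sizes cap) = true := by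
  decide +kernel

theorem cfg_30 : (List.take 3 (List.drop 3 (List.drop 3 (List.drop 3 (List.drop 3 (List.drop 3 (List.drop 3 (List.drop 3 (List.drop 3 (List.drop 3 (List.drop 3 (List.drop 3 (List.drop 3 (List.drop 3 (List.drop 3 (List.drop 3 (List.drop 3 (List.drop 3 (List.drop 3 (List.drop 3 (List.drop 3 (List.drop 3 (List.drop 3 (List.drop 3 (List.drop 3 (List.drop 3 (List.drop 3 (List.drop 3 (List.drop 3 (List.drop 3 (List.drop 3 (frac)))))))))))))))))))))))))))))))).all (cfgOK sizes cap) = true := by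
  decide +kernel

theorem cfg_31 : (List.take 3 (List.drop 3 (List.drop 3 (List.drop 3 (List.drop 3 (List.drop 3 (List.drop 3 (List.drop 3 (List.drop 3 (List.drop 3 (List.drop 3 (List.drop 3 (List.drop 3 (List.drop 3 (List.drop 3 (List.drop 3 (List.drop 3 (List.drop 3 (List.drop 3 (List.drop 3 (List.drop 3 (List.drop 3 (List.drop 3 (List.drop 3 (List.drop 3 (List.drop 3 (List.drop 3 (List.drop 3 (List.drop 3 (List.drop 3 (List.drop 3 (List.drop 3 (frac))))))))))))))))))))))))))))))))).all (cfgOK sizes cap) = true := by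
  decide +kernel

theorem cfg_32 : (List.take 3 (List.drop 3 (List.drop 3 (List.drop 3 (List.drop 3 (List.drop 3 (List.drop 3 (List.drop 3 (List.drop 3 (List.drop 3 (List.drop 3 (List.drop 3 (List.drop 3 (List.drop 3 (List.drop 3 (List.drop 3 (List.drop 3 (List.drop 3 (List.drop 3 (List.drop 3 (List.drop 3 (List.drop 3 (List.drop 3 (List.drop 3 (List.drop 3 (List.drop 3 (List.drop 3 (List.drop 3 (List.drop 3 (List.drop 3 (List.drop 3 (List.drop 3 (List.drop 3 (frac)))))))))))))))))))))))))))))))))).all (cfgOK sizes cap) = true := by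
  decide +kernel

theorem cfg_33 : (List.take 3 (List.drop 3 (List.drop 3 (List.drop 3 (List.drop 3 (List.drop 3 (List.drop 3 (List.drop 3 (List.drop 3 (List.drop 3 (List.drop 3 (List.drop 3 (List.drop 3 (List.drop 3 (List.drop 3 (List.drop 3 (List.drop 3 (List.drop 3 (List.drop 3 (List.drop 3 (List.drop 3 (List.drop 3 (List.drop 3 (List.drop 3 (List.drop 3 (List.drop 3 (List.drop 3 (List.drop 3 (List.drop 3 (List.drop 3 (List.drop 3 (List.drop 3 (List.drop 3 (List.drop 3 (frac))))))))))))))))))))))))))))))))))).all (cfgOK sizes cap) = true := by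
  decide +kernel

theorem cfg_34 : (List.take 3 (List.drop 3 (List.drop 3 (List.drop 3 (List.drop 3 (List.drop 3 (List.drop 3 (List.drop 3 (List.drop 3 (List.drop 3 (List.drop 3 (List.drop 3 (List.drop 3 (List.drop 3 (List.drop 3 (List.drop 3 (List.drop 3 (List.drop 3 (List.drop 3 (List.drop 3 (List.drop 3 (List.drop 3 (List.drop 3 (List.drop 3 (List.drop 3 (List.drop 3 (List.drop 3 (List.drop 3 (List.drop 3 (List.drop 3 (List.drop 3 (List.drop 3 (List.drop 3 (List.drop 3 (List.drop 3 (frac)))))))))))))))))))))))))))))))))))).all (cfgOK sizes cap) = true := by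
  decide +kernel

theorem cfg_35 : (List.take 3 (List.drop 3 (List.drop 3 (List.drop 3 (List.drop 3 (List.drop 3 (List.drop 3 (List.drop 3 (List.drop 3 (List.drop 3 (List.drop 3 (List.drop 3 (List.drop 3 (List.drop 3 (List.drop 3 (List.drop 3 (List.drop 3 (List.drop 3 (List.drop 3 (List.drop 3 (List.drop 3 (List.drop 3 (List.drop 3 (List.drop 3 (List.drop 3 (List.drop 3 (List.drop 3 (List.drop 3 (List.drop 3 (List.drop 3 (List.drop 3 (List.drop 3 (List.drop 3 (List.drop 3 (List.drop 3 (List.drop 3 (frac))))))))))))))))))))))))))))))))))))).all (cfgOK sizes cap) = true := by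
  decide +kernel

theorem cfg_36 : (List.take 3 (List.drop 3 (List.drop 3 (List.drop 3 (List.drop 3 (List.drop 3 (List.drop 3 (List.drop 3 (List.drop 3 (List.drop 3 (List.drop 3 (List.drop 3 (List.drop 3 (List.drop 3 (List.drop 3 (List.drop 3 (List.drop 3 (List.drop 3 (List.drop 3 (List.drop 3 (List.drop 3 (List.drop 3 (List.drop 3 (List.drop 3 (List.drop 3 (List.drop 3 (List.drop 3 (List.drop 3 (List.drop 3 (List.drop 3 (List.drop 3 (List.drop 3 (List.drop 3 (List.drop 3 (List.drop 3 (List.drop 3 (List.drop 3 (frac)))))))))))))))))))))))))))))))))))))).all (cfgOK sizes cap) = true := by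
  decide +kernel

theorem cfg_37 : (List.take 3 (List.drop 3 (List.drop 3 (List.drop 3 (List.drop 3 (List.drop 3 (List.drop 3 (List.drop 3 (List.drop 3 (List.drop 3 (List.drop 3 (List.drop 3 (List.drop 3 (List.drop 3 (List.drop 3 (List.drop 3 (List.drop 3 (List.drop 3 (List.drop 3 (List.drop 3 (List.drop 3 (List.drop 3 (List.drop 3 (List.drop 3 (List.drop 3 (List.drop 3 (List.drop 3 (List.drop 3 (List.drop 3 (List.drop 3 (List.drop 3 (List.drop 3 (List.drop 3 (List.drop 3 (List.drop 3 (List.drop 3 (List.drop 3 (List.drop 3 (frac))))))))))))))))))))))))))))))))))))))).all (cfgOK sizes cap) = true := by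
  decide +kernel

theorem cfg_38 : (List.take 3 (List.drop 3 (List.drop 3 (List.drop 3 (List.drop 3 (List.drop 3 (List.drop 3 (List.drop 3 (List.drop 3 (List.drop 3 (List.drop 3 (List.drop 3 (List.drop 3 (List.drop 3 (List.drop 3 (List.drop 3 (List.drop 3 (List.drop 3 (List.drop 3 (List.drop 3 (List.drop 3 (List.drop 3 (List.drop 3 (List.drop 3 (List.drop 3 (List.drop 3 (List.drop 3 (List.drop 3 (List.drop 3 (List.drop 3 (List.drop 3 (List.drop 3 (List.drop 3 (List.drop 3 (List.drop 3 (List.drop 3 (List.drop 3 (List.drop 3 (List.drop 3 (frac)))))))))))))))))))))))))))))))))))))))).all (cfgOK sizes cap) = true := by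
  decide +kernel

theorem cfg_39 : (List.take 3 (List.drop 3 (List.drop 3 (List.drop 3 (List.drop 3 (List.drop 3 (List.drop 3 (List.drop 3 (List.drop 3 (List.drop 3 (List.drop 3 (List.drop 3 (List.drop 3 (List.drop 3 (List.drop 3 (List.drop 3 (List.drop 3 (List.drop 3 (List.drop 3 (List.drop 3 (List.drop 3 (List.drop 3 (List.drop 3 (List.drop 3 (List.drop 3 (List.drop 3 (List.drop 3 (List.drop 3 (List.drop 3 (List.drop 3 (List.drop 3 (List.drop 3 (List.drop 3 (List.drop 3 (List.drop 3 (List.drop 3 (List.drop 3 (List.drop 3 (List.drop 3 (List.drop 3 (frac))))))))))))))))))))))))))))))))))))))))).all (cfgOK sizes cap) = true := by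
  decide +kernel

theorem cfg_40 : (List.take 3 (List.drop 3 (List.drop 3 (List.drop 3 (List.drop 3 (List.drop 3 (List.drop 3 (List.drop 3 (List.drop 3 (List.drop 3 (List.drop 3 (List.drop 3 (List.drop 3 (List.drop 3 (List.drop 3 (List.drop 3 (List.drop 3 (List.drop 3 (List.drop 3 (List.drop 3 (List.drop 3 (List.drop 3 (List.drop 3 (List.drop 3 (List.drop 3 (List.drop 3 (List.drop 3 (List.drop 3 (List.drop 3 (List.drop 3 (List.drop 3 (List.drop 3 (List.drop 3 (List.drop 3 (List.drop 3 (List.drop 3 (List.drop 3 (List.drop 3 (List.drop 3 (List.drop 3 (List.drop 3 (frac)))))))))))))))))))))))))))))))))))))))))).all (cfgOK sizes cap) = true := by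
  decide +kernel

theorem cfg_41 : (List.take 3 (List.drop 3 (List.drop 3 (List.drop 3 (List.drop 3 (List.drop 3 (List.drop 3 (List.drop 3 (List.drop 3 (List.drop 3 (List.drop 3 (List.drop 3 (List.drop 3 (List.drop 3 (List.drop 3 (List.drop 3 (List.drop 3 (List.drop 3 (List.drop 3 (List.drop 3 (List.drop 3 (List.drop 3 (List.drop 3 (List.drop 3 (List.drop 3 (List.drop 3 (List.drop 3 (List.drop 3 (List.drop 3 (List.drop 3 (List.drop 3 (List.drop 3 (List.drop 3 (List.drop 3 (List.drop 3 (List.drop 3 (List.drop 3 (List.drop 3 (List.drop 3 (List.drop 3 (List.drop 3 (List.drop 3 (frac))))))))))))))))))))))))))))))))))))))))))).all (cfgOK sizes cap) = true := by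
  decide +kernel

theorem cfg_42 : (List.take 3 (List.drop 3 (List.drop 3 (List.drop 3 (List.drop 3 (List.drop 3 (List.drop 3 (List.drop 3 (List.drop 3 (List.drop 3 (List.drop 3 (List.drop 3 (List.drop 3 (List.drop 3 (List.drop 3 (List.drop 3 (List.drop 3 (List.drop 3 (List.drop 3 (List.drop 3 (List.drop 3 (List.drop 3 (List.drop 3 (List.drop 3 (List.drop 3 (List.drop 3 (List.drop 3 (List.drop 3 (List.drop 3 (List.drop 3 (List.drop 3 (List.drop 3 (List.drop 3 (List.drop 3 (List.drop 3 (List.drop 3 (List.drop 3 (List.drop 3 (List.drop 3 (List.drop 3 (List.drop 3 (List.drop 3 (List.drop 3 (frac)))))))))))))))))))))))))))))))))))))))))))).all (cfgOK sizes cap) = true := by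
  decide +kernel

theorem cfg_43 : (List.take 3 (List.drop 3 (List.drop 3 (List.drop 3 (List.drop 3 (List.drop 3 (List.drop 3 (List.drop 3 (List.drop 3 (List.drop 3 (List.drop 3 (List.drop 3 (List.drop 3 (List.drop 3 (List.drop 3 (List.drop 3 (List.drop 3 (List.drop 3 (List.drop 3 (List.drop 3 (List.drop 3 (List.drop 3 (List.drop 3 (List.drop 3 (List.drop 3 (List.drop 3 (List.drop 3 (List.drop 3 (List.drop 3 (List.drop 3 (List.drop 3 (List.drop 3 (List.drop 3 (List.drop 3 (List.drop 3 (List.drop 3 (List.drop 3 (List.drop 3 (List.drop 3 (List.drop 3 (List.drop 3 (List.drop 3 (List.drop 3 (List.drop 3 (frac))))))))))))))))))))))))))))))))))))))))))))).all (cfgOK sizes cap) = true := by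
  decide +kernel

theorem cfg_44 : (List.take 3 (List.drop 3 (List.drop 3 (List.drop 3 (List.drop 3 (List.drop 3 (List.drop 3 (List.drop 3 (List.drop 3 (List.drop 3 (List.drop 3 (List.drop 3 (List.drop 3 (List.drop 3 (List.drop 3 (List.drop 3 (List.drop 3 (List.drop 3 (List.drop 3 (List.drop 3 (List.drop 3 (List.drop 3 (List.drop 3 (List.drop 3 (List.drop 3 (List.drop 3 (List.drop 3 (List.drop 3 (List.drop 3 (List.drop 3 (List.drop 3 (List.drop 3 (List.drop 3 (List.drop 3 (List.drop 3 (List.drop 3 (List.drop 3 (List.drop 3 (List.drop 3 (List.drop 3 (List.drop 3 (List.drop 3 (List.drop 3 (List.drop 3 (List.drop 3 (frac)))))))))))))))))))))))))))))))))))))))))))))).all (cfgOK sizes cap) = true := by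
  decide +kernel

theorem cfg_45 : (List.take 3 (List.drop 3 (List.drop 3 (List.drop 3 (List.drop 3 (List.drop 3 (List.drop 3 (List.drop 3 (List.drop 3 (List.drop 3 (List.drop 3 (List.drop 3 (List.drop 3 (List.drop 3 (List.drop 3 (List.drop 3 (List.drop 3 (List.drop 3 (List.drop 3 (List.drop 3 (List.drop 3 (List.drop 3 (List.drop 3 (List.drop 3 (List.drop 3 (List.drop 3 (List.drop 3 (List.drop 3 (List.drop 3 (List.drop 3 (List.drop 3 (List.drop 3 (List.drop 3 (List.drop 3 (List.drop 3 (List.drop 3 (List.drop 3 (List.drop 3 (List.drop 3 (List.drop 3 (List.drop 3 (List.drop 3 (List.drop 3 (List.drop 3 (List.drop 3 (List.drop 3 (frac))))))))))))))))))))))))))))))))))))))))))))))).all (cfgOK sizes cap) = true := by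
  decide +kernel

theorem cfg_46 : (List.take 3 (List.drop 3 (List.drop 3 (List.drop 3 (List.drop 3 (List.drop 3 (List.drop 3 (List.drop 3 (List.drop 3 (List.drop 3 (List.drop 3 (List.drop 3 (List.drop 3 (List.drop 3 (List.drop 3 (List.drop 3 (List.drop 3 (List.drop 3 (List.drop 3 (List.drop 3 (List.drop 3 (List.drop 3 (List.drop 3 (List.drop 3 (List.drop 3 (List.drop 3 (List.drop 3 (List.drop 3 (List.drop 3 (List.drop 3 (List.drop 3 (List.drop 3 (List.drop 3 (List.drop 3 (List.drop 3 (List.drop 3 (List.drop 3 (List.drop 3 (List.drop 3 (List.drop 3 (List.drop 3 (List.drop 3 (List.drop 3 (List.drop 3 (List.drop 3 (List.drop 3 (List.drop 3 (frac)))))))))))))))))))))))))))))))))))))))))))))))).all (cfgOK sizes cap) = true := by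
  decide +kernel

theorem cfg_47 : (List.take 3 (List.drop 3 (List.drop 3 (List.drop 3 (List.drop 3 (List.drop 3 (List.drop 3 (List.drop 3 (List.drop 3 (List.drop 3 (List.drop 3 (List.drop 3 (List.drop 3 (List.drop 3 (List.drop 3 (List.drop 3 (List.drop 3 (List.drop 3 (List.drop 3 (List.drop 3 (List.drop 3 (List.drop 3 (List.drop 3 (List.drop 3 (List.drop 3 (List.drop 3 (List.drop 3 (List.drop 3 (List.drop 3 (List.drop 3 (List.drop 3 (List.drop 3 (List.drop 3 (List.drop 3 (List.drop 3 (List.drop 3 (List.drop 3 (List.drop 3 (List.drop 3 (List.drop 3 (List.drop 3 (List.drop 3 (List.drop 3 (List.drop 3 (List.drop 3 (List.drop 3 (List.drop 3 (List.drop 3 (frac))))))))))))))))))))))))))))))))))))))))))))))))).all (cfgOK sizes cap) = true := by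
  decide +kernel

theorem cfg_48 : (List.take 3 (List.drop 3 (List.drop 3 (List.drop 3 (List.drop 3 (List.drop 3 (List.drop 3 (List.drop 3 (List.drop 3 (List.drop 3 (List.drop 3 (List.drop 3 (List.drop 3 (List.drop 3 (List.drop 3 (List.drop 3 (List.drop 3 (List.drop 3 (List.drop 3 (List.drop 3 (List.drop 3 (List.drop 3 (List.drop 3 (List.drop 3 (List.drop 3 (List.drop 3 (List.drop 3 (List.drop 3 (List.drop 3 (List.drop 3 (List.drop 3 (List.drop 3 (List.drop 3 (List.drop 3 (List.drop 3 (List.drop 3 (List.drop 3 (List.drop 3 (List.drop 3 (List.drop 3 (List.drop 3 (List.drop 3 (List.drop 3 (List.drop 3 (List.drop 3 (List.drop 3 (List.drop 3 (List.drop 3 (List.drop 3 (frac)))))))))))))))))))))))))))))))))))))))))))))))))).all (cfgOK sizes cap) = true := by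
  decide +kernel

theorem cfg_49 : (List.take 3 (List.drop 3 (List.drop 3 (List.drop 3 (List.drop 3 (List.drop 3 (List.drop 3 (List.drop 3 (List.drop 3 (List.drop 3 (List.drop 3 (List.drop 3 (List.drop 3 (List.drop 3 (List.drop 3 (List.drop 3 (List.drop 3 (List.drop 3 (List.drop 3 (List.drop 3 (List.drop 3 (List.drop 3 (List.drop 3 (List.drop 3 (List.drop 3 (List.drop 3 (List.drop 3 (List.drop 3 (List.drop 3 (List.drop 3 (List.drop 3 (List.drop 3 (List.drop 3 (List.drop 3 (List.drop 3 (List.drop 3 (List.drop 3 (List.drop 3 (List.drop 3 (List.drop 3 (List.drop 3 (List.drop 3 (List.drop 3 (List.drop 3 (List.drop 3 (List.drop 3 (List.drop 3 (List.drop 3 (List.drop 3 (List.drop 3 (frac))))))))))))))))))))))))))))))))))))))))))))))))))).all (cfgOK sizes cap) = true := by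
  decide +kernel

end Vale.Agent.Lib.P302.helper8.Th863
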