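import Mathlib
import Vale.Agent.Lib.P302.helper8.Th863.F0
import Vale.Agent.Lib.P302.helper8.Th863.Seg

/-!
# P302: the fractional solution of the 863-item instance, checked in pieces (part 2)
-/

namespace Vale.Agent.Lib.P302.helper8.Th863

open Vale.Agent.Lib.P302.helper14 Vale.Agent.Lib.P302.helper8 Vale.Agent.Lib.P302.helper9

set_option maxRecDepth 8192

theorem cfg_50 : (List.take 3 (List.drop 3 (List.drop 3 (List.drop 3 (List.drop 3 (List.drop 3 (List.drop 3 (List.drop 3 (List.drop 3 (List.drop 3 (List.drop 3 (List.drop 3 (List.drop 3 (List.drop 3 (List.drop 3 (List.drop 3 (List.drop 3 (List.drop 3 (List.drop 3 (List.drop 3 (List.drop 3 (List.drop 3 (List.drop 3 (List.drop 3 (List.drop 3 (List.drop 3 (List.drop 3 (List.drop 3 (List.drop 3 (List.drop 3 (List.drop 3 (List.drop 3 (List.drop 3 (List.drop 3 (List.drop 3 (List.drop 3 (List.drop 3 (List.drop 3 (List.drop 3 (List.drop 3 (List.drop 3 (List.drop 3 (List.drop 3 (List.drop 3 (List.drop 3 (List.drop 3 (List.drop 3 (List.drop 3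 (List.drop 3 (List.drop 3 (List.drop 3 (frac)))))))))))))))))))))))))))))))))))))))))))))))))))).all (cfgOK sizes cap) = true := by
  decide +kernel

theorem cfg_51 : (List.take 3 (List.drop 3 (List.drop 3 (List.drop 3 (List.drop 3 (List.drop 3 (List.drop 3 (List.drop 3 (List.drop 3 (List.drop 3 (List.drop 3 (List.drop 3 (List.drop 3 (List.drop 3 (List.drop 3 (List.drop 3 (List.drop 3 (List.drop 3 (List.drop 3 (List.drop 3 (List.drop 3 (List.drop 3 (List.drop 3 (List.drop 3 (List.drop 3 (List.drop 3 (List.drop 3 (List.drop 3 (List.drop 3 (List.drop 3 (List.drop 3 (List.drop 3 (List.drop 3 (List.drop 3 (List.drop 3 (List.drop 3 (List.drop 3 (List.drop 3 (List.drop 3 (List.drop 3 (List.drop 3 (List.drop 3 (List.drop 3 (List.drop 3 (List.drop 3 (List.drop 3 (List.drop 3 (List.drop 3 (List.drop 3 (List.drop 3 (List.drop 3 (List.drop 3 (frac))))))))))))))))))))))))))))))))))))))))))))))))))))).all (cfgOK sizes cap) = true := by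
  decide +kernel

theorem cfg_52 : (List.take 3 (List.drop 3 (List.drop 3 (List.drop 3 (List.drop 3 (List.drop 3 (List.drop 3 (List.drop 3 (List.drop 3 (List.drop 3 (List.drop 3 (List.drop 3 (List.drop 3 (List.drop 3 (List.drop 3 (List.drop 3 (List.drop 3 (List.drop 3 (List.drop 3 (List.drop 3 (List.drop 3 (List.drop 3 (List.drop 3 (List.drop 3 (List.drop 3 (List.drop 3 (List.drop 3 (List.drop 3 (List.drop 3 (List.drop 3 (List.drop 3 (List.drop 3 (List.drop 3 (List.drop 3 (List.drop 3 (List.drop 3 (List.drop 3 (List.drop 3 (List.drop 3 (List.drop 3 (List.drop 3 (List.drop 3 (List.drop 3 (List.drop 3 (List.drop 3 (List.drop 3 (List.drop 3 (List.drop 3 (List.drop 3 (List.drop 3 (List.drop 3 (List.drop 3 (List.drop 3 (frac)))))))))))))))))))))))))))))))))))))))))))))))))))))).all (cfgOK sizes cap) = true := by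
  decide +kernel

theorem cfg_53 : (List.take 3 (List.drop 3 (List.drop 3 (List.drop 3 (List.drop 3 (List.drop 3 (List.drop 3 (List.drop 3 (List.drop 3 (List.drop 3 (List.drop 3 (List.drop 3 (List.drop 3 (List.drop 3 (List.drop 3 (List.drop 3 (List.drop 3 (List.drop 3 (List.drop 3 (List.drop 3 (List.drop 3 (List.drop 3 (List.drop 3 (List.drop 3 (List.drop 3 (List.drop 3 (List.drop 3 (List.drop 3 (List.drop 3 (List.drop 3 (List.drop 3 (List.drop 3 (List.drop 3 (List.drop 3 (List.drop 3 (List.drop 3 (List.drop 3 (List.drop 3 (List.drop 3 (List.drop 3 (List.drop 3 (List.drop 3 (List.drop 3 (List.drop 3 (List.drop 3 (List.drop 3 (List.drop 3 (List.drop 3 (List.drop 3 (List.drop 3 (List.drop 3 (List.drop 3 (List.drop 3 (List.drop 3 (frac))))))))))))))))))))))))))))))))))))))))))))))))))))))).all (cfgOK sizes cap) = true := by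
  decide +kernel

theorem cfg_54 : (List.take 3 (List.drop 3 (List.drop 3 (List.drop 3 (List.drop 3 (List.drop 3 (List.drop 3 (List.drop 3 (List.drop 3 (List.drop 3 (List.drop 3 (List.drop 3 (List.drop 3 (List.drop 3 (List.drop 3 (List.drop 3 (List.drop 3 (List.drop 3 (List.drop 3 (List.drop 3 (List.drop 3 (List.drop 3 (List.drop 3 (List.drop 3 (List.drop 3 (List.drop 3 (List.drop 3 (List.drop 3 (List.drop 3 (List.drop 3 (List.drop 3 (List.drop 3 (List.drop 3 (List.drop 3 (List.drop 3 (List.drop 3 (List.drop 3 (List.drop 3 (List.drop 3 (List.drop 3 (List.drop 3 (List.drop 3 (List.drop 3 (List.drop 3 (List.drop 3 (List.drop 3 (List.drop 3 (List.drop 3 (List.drop 3 (List.drop 3 (List.drop 3 (List.drop 3 (List.drop 3 (List.drop 3 (List.drop 3 (frac)))))))))))))))))))))))))))))))))))))))))))))))))))))))).all (cfgOK sizes cap) = true := by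
  decide +kernel

theorem cfg_55 : (List.take 3 (List.drop 3 (List.drop 3 (List.drop 3 (List.drop 3 (List.drop 3 (List.drop 3 (List.drop 3 (List.drop 3 (List.drop 3 (List.drop 3 (List.drop 3 (List.drop 3 (List.drop 3 (List.drop 3 (List.drop 3 (List.drop 3 (List.drop 3 (List.drop 3 (List.drop 3 (List.drop 3 (List.drop 3 (List.drop 3 (List.drop 3 (List.drop 3 (List.drop 3 (List.drop 3 (List.drop 3 (List.drop 3 (List.drop 3 (List.drop 3 (List.drop 3 (List.drop 3 (List.drop 3 (List.drop 3 (List.drop 3 (List.drop 3 (List.drop 3 (List.drop 3 (List.drop 3 (List.drop 3 (List.drop 3 (List.drop 3 (List.drop 3 (List.drop 3 (List.drop 3 (List.drop 3 (List.drop 3 (List.drop 3 (List.drop 3 (List.drop 3 (List.drop 3 (List.drop 3 (List.drop 3 (List.drop 3 (List.drop 3 (frac))))))))))))))))))))))))))))))))))))))))))))))))))))))))).all (cfgOK sizes cap) = true := by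
  decide +kernel

theorem cfg_56 : (List.take 3 (List.drop 3 (List.drop 3 (List.drop 3 (List.drop 3 (List.drop 3 (List.drop 3 (List.drop 3 (List.drop 3 (List.drop 3 (List.drop 3 (List.drop 3 (List.drop 3 (List.drop 3 (List.drop 3 (List.drop 3 (List.drop 3 (List.drop 3 (List.drop 3 (List.drop 3 (List.drop 3 (List.drop 3 (List.drop 3 (List.drop 3 (List.drop 3 (List.drop 3 (List.drop 3 (List.drop 3 (List.drop 3 (List.drop 3 (List.drop 3 (List.drop 3 (List.drop 3 (List.drop 3 (List.drop 3 (List.drop 3 (List.drop 3 (List.drop 3 (List.drop 3 (List.drop 3 (List.drop 3 (List.drop 3 (List.drop 3 (List.drop 3 (List.drop 3 (List.drop 3 (List.drop 3 (List.drop 3 (List.drop 3 (List.drop 3 (List.drop 3 (List.drop 3 (List.drop 3 (List.drop 3 (List.drop 3 (List.drop 3 (List.drop 3 (frac)))))))))))))))))))))))))))))))))))))))))))))))))))))))))).all (cfgOK sizes cap) = true := by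
  decide +kernel

theorem cfg_57 : (List.take 3 (List.drop 3 (List.drop 3 (List.drop 3 (List.drop 3 (List.drop 3 (List.drop 3 (List.drop 3 (List.drop 3 (List.drop 3 (List.drop 3 (List.drop 3 (List.drop 3 (List.drop 3 (List.drop 3 (List.drop 3 (List.drop 3 (List.drop 3 (List.drop 3 (List.drop 3 (List.drop 3 (List.drop 3 (List.drop 3 (List.drop 3 (List.drop 3 (List.drop 3 (List.drop 3 (List.drop 3 (List.drop 3 (List.drop 3 (List.drop 3 (List.drop 3 (List.drop 3 (List.drop 3 (List.drop 3 (List.drop 3 (List.drop 3 (List.drop 3 (List.drop 3 (List.drop 3 (List.drop 3 (List.drop 3 (List.drop 3 (List.drop 3 (List.drop 3 (List.drop 3 (List.drop 3 (List.drop 3 (List.drop 3 (List.drop 3 (List.drop 3 (List.drop 3 (List.drop 3 (List.drop 3 (List.drop 3 (List.drop 3 (List.drop 3 (List.drop 3 (frac))))))))))))))))))))))))))))))))))))))))))))))))))))))))))).all (cfgOK sizes cap) = true := by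
  decide +kernel

theorem cfg_58 : (List.take 3 (List.drop 3 (List.drop 3 (List.drop 3 (List.drop 3 (List.drop 3 (List.drop 3 (List.drop 3 (List.drop 3 (List.drop 3 (List.drop 3 (List.drop 3 (List.drop 3 (List.drop 3 (List.drop 3 (List.drop 3 (List.drop 3 (List.drop 3 (List.drop 3 (List.drop 3 (List.drop 3 (List.drop 3 (List.drop 3 (List.drop 3 (List.drop 3 (List.drop 3 (List.drop 3 (List.drop 3 (List.drop 3 (List.drop 3 (List.drop 3 (List.drop 3 (List.drop 3 (List.drop 3 (List.drop 3 (List.drop 3 (List.drop 3 (List.drop 3 (List.drop 3 (List.drop 3 (List.drop 3 (List.drop 3 (List.drop 3 (List.drop 3 (List.drop 3 (List.drop 3 (List.drop 3 (List.drop 3 (List.drop 3 (List.drop 3 (List.drop 3 (List.drop 3 (List.drop 3 (List.drop 3 (List.drop 3 (List.drop 3 (List.drop 3 (List.drop 3 (List.drop 3 (frac)))))))))))))))))))))))))))))))))))))))))))))))))))))))))))).all (cfgOK sizes cap) = true := by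
  decide +kernel

theorem cfg_59 : (List.take 3 (List.drop 3 (List.drop 3 (List.drop 3 (List.drop 3 (List.drop 3 (List.drop 3 (List.drop 3 (List.drop 3 (List.drop 3 (List.drop 3 (List.drop 3 (List.drop 3 (List.drop 3 (List.drop 3 (List.drop 3 (List.drop 3 (List.drop 3 (List.drop 3 (List.drop 3 (List.drop 3 (List.drop 3 (List.drop 3 (List.drop 3 (List.drop 3 (List.drop 3 (List.drop 3 (List.drop 3 (List.drop 3 (List.drop 3 (List.drop 3 (List.drop 3 (List.drop 3 (List.drop 3 (List.drop 3 (List.drop 3 (List.drop 3 (List.drop 3 (List.drop 3 (List.drop 3 (List.drop 3 (List.drop 3 (List.drop 3 (List.drop 3 (List.drop 3 (List.drop 3 (List.drop 3 (List.drop 3 (List.drop 3 (List.drop 3 (List.drop 3 (List.drop 3 (List.drop 3 (List.drop 3 (List.drop 3 (List.drop 3 (List.drop 3 (List.drop 3 (List.drop 3 (List.drop 3 (frac))))))))))))))))))))))))))))))))))))))))))))))))))))))))))))).all (cfgOK sizes cap) = true := by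
  decide +kernel

theorem cfg_60 : (List.take 3 (List.drop 3 (List.drop 3 (List.drop 3 (List.drop 3 (List.drop 3 (List.drop 3 (List.drop 3 (List.drop 3 (List.drop 3 (List.drop 3 (List.drop 3 (List.drop 3 (List.drop 3 (List.drop 3 (List.drop 3 (List.drop 3 (List.drop 3 (List.drop 3 (List.drop 3 (List.drop 3 (List.drop 3 (List.drop 3 (List.drop 3 (List.drop 3 (List.drop 3 (List.drop 3 (List.drop 3 (List.drop 3 (List.drop 3 (List.drop 3 (List.drop 3 (List.drop 3 (List.drop 3 (List.drop 3 (List.drop 3 (List.drop 3 (List.drop 3 (List.drop 3 (List.drop 3 (List.drop 3 (List.drop 3 (List.drop 3 (List.drop 3 (List.drop 3 (List.drop 3 (List.drop 3 (List.drop 3 (List.drop 3 (List.drop 3 (List.drop 3 (List.drop 3 (List.drop 3 (List.drop 3 (List.drop 3 (List.drop 3 (List.drop 3 (List.drop 3 (List.drop 3 (List.drop 3 (List.drop 3 (frac)))))))))))))))))))))))))))))))))))))))))))))))))))))))))))))).all (cfgOK sizes cap) = true := by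
  decide +kernel

theorem cfg_61 : (List.take 3 (List.drop 3 (List.drop 3 (List.drop 3 (List.drop 3 (List.drop 3 (List.drop 3 (List.drop 3 (List.drop 3 (List.drop 3 (List.drop 3 (List.drop 3 (List.drop 3 (List.drop 3 (List.drop 3 (List.drop 3 (List.drop 3 (List.drop 3 (List.drop 3 (List.drop 3 (List.drop 3 (List.drop 3 (List.drop 3 (List.drop 3 (List.drop 3 (List.drop 3 (List.drop 3 (List.drop 3 (List.drop 3 (List.drop 3 (List.drop 3 (List.drop 3 (List.drop 3 (List.drop 3 (List.drop 3 (List.drop 3 (List.drop 3 (List.drop 3 (List.drop 3 (List.drop 3 (List.drop 3 (List.drop 3 (List.drop 3 (List.drop 3 (List.drop 3 (List.drop 3 (List.drop 3 (List.drop 3 (List.drop 3 (List.drop 3 (List.drop 3 (List.drop 3 (List.drop 3 (List.drop 3 (List.drop 3 (List.drop 3 (List.drop 3 (List.drop 3 (List.drop 3 (List.drop 3 (List.drop 3 (List.drop 3 (frac))))))))))))))))))))))))))))))))))))))))))))))))))))))))))))))).all (cfgOK sizes cap) = true := by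
  decide +kernel

theorem cfg_62 : (List.take 3 (List.drop 3 (List.drop 3 (List.drop 3 (List.drop 3 (List.drop 3 (List.drop 3 (List.drop 3 (List.drop 3 (List.drop 3 (List.drop 3 (List.drop 3 (List.drop 3 (List.drop 3 (List.drop 3 (List.drop 3 (List.drop 3 (List.drop 3 (List.drop 3 (List.drop 3 (List.drop 3 (List.drop 3 (List.drop 3 (List.drop 3 (List.drop 3 (List.drop 3 (List.drop 3 (List.drop 3 (List.drop 3 (List.drop 3 (List.drop 3 (List.drop 3 (List.drop 3 (List.drop 3 (List.drop 3 (List.drop 3 (List.drop 3 (List.drop 3 (List.drop 3 (List.drop 3 (List.drop 3 (List.drop 3 (List.drop 3 (List.drop 3 (List.drop 3 (List.drop 3 (List.drop 3 (List.drop 3 (List.drop 3 (List.drop 3 (List.drop 3 (List.drop 3 (List.drop 3 (List.drop 3 (List.drop 3 (List.drop 3 (List.drop 3 (List.drop 3 (List.drop 3 (List.drop 3 (List.drop 3 (List.drop 3 (List.drop 3 (frac)))))))))))))))))))))))))))))))))))))))))))))))))))))))))))))))).all (cfgOK sizes cap) = true := by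
  decide +kernel

theorem cfg_63 : (List.take 3 (List.drop 3 (List.drop 3 (List.drop 3 (List.drop 3 (List.drop 3 (List.drop 3 (List.drop 3 (List.drop 3 (List.drop 3 (List.drop 3 (List.drop 3 (List.drop 3 (List.drop 3 (List.drop 3 (List.drop 3 (List.drop 3 (List.drop 3 (List.drop 3 (List.drop 3 (List.drop 3 (List.drop 3 (List.drop 3 (List.drop 3 (List.drop 3 (List.drop 3 (List.drop 3 (List.drop 3 (List.drop 3 (List.drop 3 (List.drop 3 (List.drop 3 (List.drop 3 (List.drop 3 (List.drop 3 (List.drop 3 (List.drop 3 (List.drop 3 (List.drop 3 (List.drop 3 (List.drop 3 (List.drop 3 (List.drop 3 (List.drop 3 (List.drop 3 (List.drop 3 (List.drop 3 (List.drop 3 (List.drop 3 (List.drop 3 (List.drop 3 (List.drop 3 (List.drop 3 (List.drop 3 (List.drop 3 (List.drop 3 (List.drop 3 (List.drop 3 (List.drop 3 (List.drop 3 (List.drop 3 (List.drop 3 (List.drop 3 (List.drop 3 (frac))))))))))))))))))))))))))))))))))))))))))))))))))))))))))))))))).all (cfgOK sizes cap) = true := by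
  decide +kernel

theorem cfg_64 : (List.take 3 (List.drop 3 (List.drop 3 (List.drop 3 (List.drop 3 (List.drop 3 (List.drop 3 (List.drop 3 (List.drop 3 (List.drop 3 (List.drop 3 (List.drop 3 (List.drop 3 (List.drop 3 (List.drop 3 (List.drop 3 (List.drop 3 (List.drop 3 (List.drop 3 (List.drop 3 (List.drop 3 (List.drop 3 (List.drop 3 (List.drop 3 (List.drop 3 (List.drop 3 (List.drop 3 (List.drop 3 (List.drop 3 (List.drop 3 (List.drop 3 (List.drop 3 (List.drop 3 (List.drop 3 (List.drop 3 (List.drop 3 (List.drop 3 (List.drop 3 (List.drop 3 (List.drop 3 (List.drop 3 (List.drop 3 (List.drop 3 (List.drop 3 (List.drop 3 (List.drop 3 (List.drop 3 (List.drop 3 (List.drop 3 (List.drop 3 (List.drop 3 (List.drop 3 (List.drop 3 (List.drop 3 (List.drop 3 (List.drop 3 (List.drop 3 (List.drop 3 (List.drop 3 (List.drop 3 (List.drop 3 (List.drop 3 (List.drop 3 (List.drop 3 (List.drop 3 (frac)))))))))))))))))))))))))))))))))))))))))))))))))))))))))))))))))).all (cfgOK sizes cap) = true := by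
  decide +kernel

theorem cfg_65 : (List.take 3 (List.drop 3 (List.drop 3 (List.drop 3 (List.drop 3 (List.drop 3 (List.drop 3 (List.drop 3 (List.drop 3 (List.drop 3 (List.drop 3 (List.drop 3 (List.drop 3 (List.drop 3 (List.drop 3 (List.drop 3 (List.drop 3 (List.drop 3 (List.drop 3 (List.drop 3 (List.drop 3 (List.drop 3 (List.drop 3 (List.drop 3 (List.drop 3 (List.drop 3 (List.drop 3 (List.drop 3 (List.drop 3 (List.drop 3 (List.drop 3 (List.drop 3 (List.drop 3 (List.drop 3 (List.drop 3 (List.drop 3 (List.drop 3 (List.drop 3 (List.drop 3 (List.drop 3 (List.drop 3 (List.drop 3 (List.drop 3 (List.drop 3 (List.drop 3 (List.drop 3 (List.drop 3 (List.drop 3 (List.drop 3 (List.drop 3 (List.drop 3 (List.drop 3 (List.drop 3 (List.drop 3 (List.drop 3 (List.drop 3 (List.drop 3 (List.drop 3 (List.drop 3 (List.drop 3 (List.drop 3 (List.drop 3 (List.drop 3 (List.drop 3 (List.drop 3 (List.drop 3 (frac))))))))))))))))))))))))))))))))))))))))))))))))))))))))))))))))))).all (cfgOK sizes cap) = true := by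
  decide +kernel

theorem cfg_66 : (List.take 3 (List.drop 3 (List.drop 3 (List.drop 3 (List.drop 3 (List.drop 3 (List.drop 3 (List.drop 3 (List.drop 3 (List.drop 3 (List.drop 3 (List.drop 3 (List.drop 3 (List.drop 3 (List.drop 3 (List.drop 3 (List.drop 3 (List.drop 3 (List.drop 3 (List.drop 3 (List.drop 3 (List.drop 3 (List.drop 3 (List.drop 3 (List.drop 3 (List.drop 3 (List.drop 3 (List.drop 3 (List.drop 3 (List.drop 3 (List.drop 3 (List.drop 3 (List.drop 3 (List.drop 3 (List.drop 3 (List.drop 3 (List.drop 3 (List.drop 3 (List.drop 3 (List.drop 3 (List.drop 3 (List.drop 3 (List.drop 3 (List.drop 3 (List.drop 3 (List.drop 3 (List.drop 3 (List.drop 3 (List.drop 3 (List.drop 3 (List.drop 3 (List.drop 3 (List.drop 3 (List.drop 3 (List.drop 3 (List.drop 3 (List.drop 3 (List.drop 3 (List.drop 3 (List.drop 3 (List.drop 3 (List.drop 3 (List.drop 3 (List.drop 3 (List.drop 3 (List.drop 3 (List.drop 3 (frac)))))))))))))))))))))))))))))))))))))))))))))))))))))))))))))))))))).all (cfgOK sizes cap) =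 true := by
  decide +kernel

theorem cfg_67 : (List.take 3 (List.drop 3 (List.drop 3 (List.drop 3 (List.drop 3 (List.drop 3 (List.drop 3 (List.drop 3 (List.drop 3 (List.drop 3 (List.drop 3 (List.drop 3 (List.drop 3 (List.drop 3 (List.drop 3 (List.drop 3 (List.drop 3 (List.drop 3 (List.drop 3 (List.drop 3 (List.drop 3 (List.drop 3 (List.drop 3 (List.drop 3 (List.drop 3 (List.drop 3 (List.drop 3 (List.drop 3 (List.drop 3 (List.drop 3 (List.drop 3 (List.drop 3 (List.drop 3 (List.drop 3 (List.drop 3 (List.drop 3 (List.drop 3 (List.drop 3 (List.drop 3 (List.drop 3 (List.drop 3 (List.drop 3 (List.drop 3 (List.drop 3 (List.drop 3 (List.drop 3 (List.drop 3 (List.drop 3 (List.drop 3 (List.drop 3 (List.drop 3 (List.drop 3 (List.drop 3 (List.drop 3 (List.drop 3 (List.drop 3 (List.drop 3 (List.drop 3 (List.drop 3 (List.drop 3 (List.drop 3 (List.drop 3 (List.drop 3 (List.drop 3 (List.drop 3 (List.drop 3 (List.drop 3 (List.drop 3 (frac))))))))))))))))))))))))))))))))))))))))))))))))))))))))))))))))))))).all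 (cfgOK sizes cap) = true := by
  decide +kernel

theorem cfg_68 : (List.take 3 (List.drop 3 (List.drop 3 (List.drop 3 (List.drop 3 (List.drop 3 (List.drop 3 (List.drop 3 (List.drop 3 (List.drop 3 (List.drop 3 (List.drop 3 (List.drop 3 (List.drop 3 (List.drop 3 (List.drop 3 (List.drop 3 (List.drop 3 (List.drop 3 (List.drop 3 (List.drop 3 (List.drop 3 (List.drop 3 (List.drop 3 (List.drop 3 (List.drop 3 (List.drop 3 (List.drop 3 (List.drop 3 (List.drop 3 (List.drop 3 (List.drop 3 (List.drop 3 (List.drop 3 (List.drop 3 (List.drop 3 (List.drop 3 (List.drop 3 (List.drop 3 (List.drop 3 (List.drop 3 (List.drop 3 (List.drop 3 (List.drop 3 (List.drop 3 (List.drop 3 (List.drop 3 (List.drop 3 (List.drop 3 (List.drop 3 (List.drop 3 (List.drop 3 (List.drop 3 (List.drop 3 (List.drop 3 (List.drop 3 (List.drop 3 (List.drop 3 (List.drop 3 (List.drop 3 (List.drop 3 (List.drop 3 (List.drop 3 (List.drop 3 (List.drop 3 (List.drop 3 (List.drop 3 (List.drop 3 (List.drop 3 (frac)))))))))))))))))))))))))))))))))))))))))))))))))))))))))))))))))))))).all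 (cfgOK sizes cap) = true := by
  decide +kernel

theorem cfg_69 : (List.take 3 (List.drop 3 (List.drop 3 (List.drop 3 (List.drop 3 (List.drop 3 (List.drop 3 (List.drop 3 (List.drop 3 (List.drop 3 (List.drop 3 (List.drop 3 (List.drop 3 (List.drop 3 (List.drop 3 (List.drop 3 (List.drop 3 (List.drop 3 (List.drop 3 (List.drop 3 (List.drop 3 (List.drop 3 (List.drop 3 (List.drop 3 (List.drop 3 (List.drop 3 (List.drop 3 (List.drop 3 (List.drop 3 (List.drop 3 (List.drop 3 (List.drop 3 (List.drop 3 (List.drop 3 (List.drop 3 (List.drop 3 (List.drop 3 (List.drop 3 (List.drop 3 (List.drop 3 (List.drop 3 (List.drop 3 (List.drop 3 (List.drop 3 (List.drop 3 (List.drop 3 (List.drop 3 (List.drop 3 (List.drop 3 (List.drop 3 (List.drop 3 (List.drop 3 (List.drop 3 (List.drop 3 (List.drop 3 (List.drop 3 (List.drop 3 (List.drop 3 (List.drop 3 (List.drop 3 (List.drop 3 (List.drop 3 (List.drop 3 (List.drop 3 (List.drop 3 (List.drop 3 (List.drop 3 (List.drop 3 (List.drop 3 (List.drop 3 (frac))))))))))))))))))))))))))))))))))))))))))))))))))))))))))))))))))))))).all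 (cfgOK sizes cap) = true := by
  decide +kernel

theorem cfg_70 : (List.take 3 (List.drop 3 (List.drop 3 (List.drop 3 (List.drop 3 (List.drop 3 (List.drop 3 (List.drop 3 (List.drop 3 (List.drop 3 (List.drop 3 (List.drop 3 (List.drop 3 (List.drop 3 (List.drop 3 (List.drop 3 (List.drop 3 (List.drop 3 (List.drop 3 (List.drop 3 (List.drop 3 (List.drop 3 (List.drop 3 (List.drop 3 (List.drop 3 (List.drop 3 (List.drop 3 (List.drop 3 (List.drop 3 (List.drop 3 (List.drop 3 (List.drop 3 (List.drop 3 (List.drop 3 (List.drop 3 (List.drop 3 (List.drop 3 (List.drop 3 (List.drop 3 (List.drop 3 (List.drop 3 (List.drop 3 (List.drop 3 (List.drop 3 (List.drop 3 (List.drop 3 (List.drop 3 (List.drop 3 (List.drop 3 (List.drop 3 (List.drop 3 (List.drop 3 (List.drop 3 (List.drop 3 (List.drop 3 (List.drop 3 (List.drop 3 (List.drop 3 (List.drop 3 (List.drop 3 (List.drop 3 (List.drop 3 (List.drop 3 (List.drop 3 (List.drop 3 (List.drop 3 (List.drop 3 (List.drop 3 (List.drop 3 (List.drop 3 (List.drop 3 (frac)))))))))))))))))))))))))))))))))))))))))))))))))))))))))))))))))))))))).all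 (cfgOK sizes cap) = true := by
  decide +kernel

theorem cfg_71 : (List.take 3 (List.drop 3 (List.drop 3 (List.drop 3 (List.drop 3 (List.drop 3 (List.drop 3 (List.drop 3 (List.drop 3 (List.drop 3 (List.drop 3 (List.drop 3 (List.drop 3 (List.drop 3 (List.drop 3 (List.drop 3 (List.drop 3 (List.drop 3 (List.drop 3 (List.drop 3 (List.drop 3 (List.drop 3 (List.drop 3 (List.drop 3 (List.drop 3 (List.drop 3 (List.drop 3 (List.drop 3 (List.drop 3 (List.drop 3 (List.drop 3 (List.drop 3 (List.drop 3 (List.drop 3 (List.drop 3 (List.drop 3 (List.drop 3 (List.drop 3 (List.drop 3 (List.drop 3 (List.drop 3 (List.drop 3 (List.drop 3 (List.drop 3 (List.drop 3 (List.drop 3 (List.drop 3 (List.drop 3 (List.drop 3 (List.drop 3 (List.drop 3 (List.drop 3 (List.drop 3 (List.drop 3 (List.drop 3 (List.drop 3 (List.drop 3 (List.drop 3 (List.drop 3 (List.drop 3 (List.drop 3 (List.drop 3 (List.drop 3 (List.drop 3 (List.drop 3 (List.drop 3 (List.drop 3 (List.drop 3 (List.drop 3 (List.drop 3 (List.drop 3 (List.drop 3 (frac))))))))))))))))))))))))))))))))))))))))))))))))))))))))))))))))))))))))).all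 (cfgOK sizes cap) = true := by
  decide +kernel

theorem cfg_72 : (List.take 3 (List.drop 3 (List.drop 3 (List.drop 3 (List.drop 3 (List.drop 3 (List.drop 3 (List.drop 3 (List.drop 3 (List.drop 3 (List.drop 3 (List.drop 3 (List.drop 3 (List.drop 3 (List.drop 3 (List.drop 3 (List.drop 3 (List.drop 3 (List.drop 3 (List.drop 3 (List.drop 3 (List.drop 3 (List.drop 3 (List.drop 3 (List.drop 3 (List.drop 3 (List.drop 3 (List.drop 3 (List.drop 3 (List.drop 3 (List.drop 3 (List.drop 3 (List.drop 3 (List.drop 3 (List.drop 3 (List.drop 3 (List.drop 3 (List.drop 3 (List.drop 3 (List.drop 3 (List.drop 3 (List.drop 3 (List.drop 3 (List.drop 3 (List.drop 3 (List.drop 3 (List.drop 3 (List.drop 3 (List.drop 3 (List.drop 3 (List.drop 3 (List.drop 3 (List.drop 3 (List.drop 3 (List.drop 3 (List.drop 3 (List.drop 3 (List.drop 3 (List.drop 3 (List.drop 3 (List.drop 3 (List.drop 3 (List.drop 3 (List.drop 3 (List.drop 3 (List.drop 3 (List.drop 3 (List.drop 3 (List.drop 3 (List.drop 3 (List.drop 3 (List.drop 3 (List.drop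 3 (frac)))))))))))))))))))))))))))))))))))))))))))))))))))))))))))))))))))))))))).all (cfgOK sizes cap) = true := by
  decide +kernel

theorem cfg_73 : (List.take 3 (List.drop 3 (List.drop 3 (List.drop 3 (List.drop 3 (List.drop 3 (List.drop 3 (List.drop 3 (List.drop 3 (List.drop 3 (List.drop 3 (List.drop 3 (List.drop 3 (List.drop 3 (List.drop 3 (List.drop 3 (List.drop 3 (List.drop 3 (List.drop 3 (List.drop 3 (List.drop 3 (List.drop 3 (List.drop 3 (List.drop 3 (List.drop 3 (List.drop 3 (List.drop 3 (List.drop 3 (List.drop 3 (List.drop 3 (List.drop 3 (List.drop 3 (List.drop 3 (List.drop 3 (List.drop 3 (List.drop 3 (List.drop 3 (List.drop 3 (List.drop 3 (List.drop 3 (List.drop 3 (List.drop 3 (List.drop 3 (List.drop 3 (List.drop 3 (List.drop 3 (List.drop 3 (List.drop 3 (List.drop 3 (List.drop 3 (List.drop 3 (List.drop 3 (List.drop 3 (List.drop 3 (List.drop 3 (List.drop 3 (List.drop 3 (List.drop 3 (List.drop 3 (List.drop 3 (List.drop 3 (List.drop 3 (List.drop 3 (List.drop 3 (List.drop 3 (List.drop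 3 (List.drop 3 (List.drop 3 (List.drop 3 (List.drop 3 (List.drop 3 (List.drop 3 (List.drop 3 (List.drop 3 (frac))))))))))))))))))))))))))))))))))))))))))))))))))))))))))))))))))))))))))).all (cfgOK sizes cap) = true := by
  decide +kernel

theorem cfg_74 : (List.take 3 (List.drop 3 (List.drop 3 (List.drop 3 (List.drop 3 (List.drop 3 (List.drop 3 (List.drop 3 (List.drop 3 (List.drop 3 (List.drop 3 (List.drop 3 (List.drop 3 (List.drop 3 (List.drop 3 (List.drop 3 (List.drop 3 (List.drop 3 (List.drop 3 (List.drop 3 (List.drop 3 (List.drop 3 (List.drop 3 (List.drop 3 (List.drop 3 (List.drop 3 (List.drop 3 (List.drop 3 (List.drop 3 (List.drop 3 (List.drop 3 (List.drop 3 (List.drop 3 (List.drop 3 (List.drop 3 (List.drop 3 (List.drop 3 (List.drop 3 (List.drop 3 (List.drop 3 (List.drop 3 (List.drop 3 (List.drop 3 (List.drop 3 (List.drop 3 (List.drop 3 (List.drop 3 (List.drop 3 (List.drop 3 (List.drop 3 (List.drop 3 (List.drop 3 (List.drop 3 (List.drop 3 (List.drop 3 (List.drop 3 (List.drop 3 (List.drop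 3 (List.drop 3 (List.drop 3 (List.drop 3 (List.drop 3 (List.drop 3 (List.drop 3 (List.drop 3 (List.drop 3 (List.drop 3 (List.drop 3 (List.drop 3 (List.drop 3 (List.drop 3 (List.drop 3 (List.drop 3 (List.drop 3 (List.drop 3 (frac)))))))))))))))))))))))))))))))))))))))))))))))))))))))))))))))))))))))))))).all (cfgOK sizes cap) = true := by
  decide +kernel

end Vale.Agent.Lib.P302.helper8.Th863
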