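import Mathlib
import Vale.Agent.Lib.P302.helper8.Th863.F0
import Vale.Agent.Lib.P302.helper8.Th863.F2

/-!
# P302: the fractional solution of the 863-item instance, checked in pieces (part 4)
-/

namespace Vale.Agent.Lib.P302.helper8.Th863

open Vale.Agent.Lib.P302.helper14 Vale.Agent.Lib.P302.helper8 Vale.Agent.Lib.P302.helper9

set_option maxRecDepth 8192

theorem cfg_100 : (List.take 3 (List.drop 3 (List.drop 3 (List.drop 3 (List.drop 3 (List.drop 3 (List.drop 3 (List.drop 3 (List.drop 3 (List.drop 3 (List.drop 3 (List.drop 3 (List.drop 3 (List.drop 3 (List.drop 3 (List.drop 3 (List.drop 3 (List.drop 3 (List.drop 3 (List.drop 3 (List.drop 3 (List.drop 3 (List.drop 3 (List.drop 3 (List.drop 3 (List.drop 3 (List.drop 3 (List.drop 3 (List.drop 3 (List.drop 3 (List.drop 3 (List.drop 3 (List.drop 3 (List.drop 3 (List.drop 3 (List.drop 3 (List.drop 3 (List.drop 3 (List.drop 3 (List.drop 3 (List.drop 3 (List.drop 3 (List.drop 3 (List.drop 3 (List.drop 3 (List.drop 3 (List.drop 3 (List.drop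 3 (List.drop 3 (List.drop 3 (List.drop 3 (List.drop 3 (List.drop 3 (List.drop 3 (List.drop 3 (List.drop 3 (List.drop 3 (List.drop 3 (List.drop 3 (List.drop 3 (List.drop 3 (List.drop 3 (List.drop 3 (List.drop 3 (List.drop 3 (List.drop 3 (List.drop 3 (List.drop 3 (List.drop 3 (List.drop 3 (List.drop 3 (List.drop 3 (List.drop 3 (List.drop 3 (List.drop 3 (List.drop 3 (List.drop 3 (List.drop 3 (List.drop 3 (List.drop 3 (List.drop 3 (List.drop 3 (List.drop 3 (List.drop 3 (List.drop 3 (List.drop 3 (List.drop 3 (List.drop 3 (List.drop 3 (List.drop 3 (List.drop 3 (List.drop 3 (List.drop 3 (List.drop 3 (List.drop 3 (List.drop 3 (List.drop 3 (List.drop 3 (List.drop 3 (List.drop 3 (List.drop 3 (frac)))))))))))))))))))))))))))))))))))))))))))))))))))))))))))))))))))))))))))))))))))))))))))))))))))))).all (cfgOK sizes cap) = true := by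
  decide +kernel

theorem cfg_101 : (List.take 3 (List.drop 3 (List.drop 3 (List.drop 3 (List.drop 3 (List.drop 3 (List.drop 3 (List.drop 3 (List.drop 3 (List.drop 3 (List.drop 3 (List.drop 3 (List.drop 3 (List.drop 3 (List.drop 3 (List.drop 3 (List.drop 3 (List.drop 3 (List.drop 3 (List.drop 3 (List.drop 3 (List.drop 3 (List.drop 3 (List.drop 3 (List.drop 3 (List.drop 3 (List.drop 3 (List.drop 3 (List.drop 3 (List.drop 3 (List.drop 3 (List.drop 3 (List.drop 3 (List.drop 3 (List.drop 3 (List.drop 3 (List.drop 3 (List.drop 3 (List.drop 3 (List.drop 3 (List.drop 3 (List.drop 3 (List.drop 3 (List.drop 3 (List.drop 3 (List.drop 3 (List.drop 3 (List.drop 3 (List.drop 3 (List.drop 3 (List.drop 3 (List.drop 3 (List.drop 3 (List.drop 3 (List.drop 3 (List.drop 3 (List.drop 3 (List.drop 3 (List.drop 3 (List.drop 3 (List.drop 3 (List.drop 3 (List.drop 3 (List.drop 3 (List.drop 3 (List.drop 3 (List.drop 3 (List.drop 3 (List.drop 3 (List.drop 3 (List.drop 3 (List.drop 3 (List.drop 3 (List.drop 3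 (List.drop 3 (List.drop 3 (List.drop 3 (List.drop 3 (List.drop 3 (List.drop 3 (List.drop 3 (List.drop 3 (List.drop 3 (List.drop 3 (List.drop 3 (List.drop 3 (List.drop 3 (List.drop 3 (List.drop 3 (List.drop 3 (List.drop 3 (List.drop 3 (List.drop 3 (List.drop 3 (List.drop 3 (List.drop 3 (List.drop 3 (List.drop 3 (List.drop 3 (List.drop 3 (List.drop 3 (List.drop 3 (frac))))))))))))))))))))))))))))))))))))))))))))))))))))))))))))))))))))))))))))))))))))))))))))))))))))))).all (cfgOK sizes cap) = true := by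
  decide +kernel

theorem cfg_102 : (List.take 3 (List.drop 3 (List.drop 3 (List.drop 3 (List.drop 3 (List.drop 3 (List.drop 3 (List.drop 3 (List.drop 3 (List.drop 3 (List.drop 3 (List.drop 3 (List.drop 3 (List.drop 3 (List.drop 3 (List.drop 3 (List.drop 3 (List.drop 3 (List.drop 3 (List.drop 3 (List.drop 3 (List.drop 3 (List.drop 3 (List.drop 3 (List.drop 3 (List.drop 3 (List.drop 3 (List.drop 3 (List.drop 3 (List.drop 3 (List.drop 3 (List.drop 3 (List.drop 3 (List.drop 3 (List.drop 3 (List.drop 3 (List.drop 3 (List.drop 3 (List.drop 3 (List.drop 3 (List.drop 3 (List.drop 3 (List.drop 3 (List.drop 3 (List.drop 3 (List.drop 3 (List.drop 3 (List.drop 3 (List.drop 3 (List.drop 3 (List.drop 3 (List.drop 3 (List.drop 3 (List.drop 3 (List.drop 3 (List.drop 3 (List.drop 3 (List.drop 3 (List.drop 3 (List.drop 3 (List.drop 3 (List.drop 3 (List.drop 3 (List.drop 3 (List.drop 3 (List.drop 3 (List.drop 3 (List.drop 3 (List.drop 3 (List.drop 3 (List.drop 3 (List.drop 3 (List.drop 3 (List.drop 3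 (List.drop 3 (List.drop 3 (List.drop 3 (List.drop 3 (List.drop 3 (List.drop 3 (List.drop 3 (List.drop 3 (List.drop 3 (List.drop 3 (List.drop 3 (List.drop 3 (List.drop 3 (List.drop 3 (List.drop 3 (List.drop 3 (List.drop 3 (List.drop 3 (List.drop 3 (List.drop 3 (List.drop 3 (List.drop 3 (List.drop 3 (List.drop 3 (List.drop 3 (List.drop 3 (List.drop 3 (List.drop 3 (List.drop 3 (frac)))))))))))))))))))))))))))))))))))))))))))))))))))))))))))))))))))))))))))))))))))))))))))))))))))))))).all (cfgOK sizes cap) = true := by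
  decide +kernel

theorem cfg_103 : (List.take 3 (List.drop 3 (List.drop 3 (List.drop 3 (List.drop 3 (List.drop 3 (List.drop 3 (List.drop 3 (List.drop 3 (List.drop 3 (List.drop 3 (List.drop 3 (List.drop 3 (List.drop 3 (List.drop 3 (List.drop 3 (List.drop 3 (List.drop 3 (List.drop 3 (List.drop 3 (List.drop 3 (List.drop 3 (List.drop 3 (List.drop 3 (List.drop 3 (List.drop 3 (List.drop 3 (List.drop 3 (List.drop 3 (List.drop 3 (List.drop 3 (List.drop 3 (List.drop 3 (List.drop 3 (List.drop 3 (List.drop 3 (List.drop 3 (List.drop 3 (List.drop 3 (List.drop 3 (List.drop 3 (List.drop 3 (List.drop 3 (List.drop 3 (List.drop 3 (List.drop 3 (List.drop 3 (List.drop 3 (List.drop 3 (List.drop 3 (List.drop 3 (List.drop 3 (List.drop 3 (List.drop 3 (List.drop 3 (List.drop 3 (List.drop 3 (List.drop 3 (List.drop 3 (List.drop 3 (List.drop 3 (List.drop 3 (List.drop 3 (List.drop 3 (List.drop 3 (List.drop 3 (List.drop 3 (List.drop 3 (List.drop 3 (List.drop 3 (List.drop 3 (List.drop 3 (List.drop 3 (List.drop 3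 (List.drop 3 (List.drop 3 (List.drop 3 (List.drop 3 (List.drop 3 (List.drop 3 (List.drop 3 (List.drop 3 (List.drop 3 (List.drop 3 (List.drop 3 (List.drop 3 (List.drop 3 (List.drop 3 (List.drop 3 (List.drop 3 (List.drop 3 (List.drop 3 (List.drop 3 (List.drop 3 (List.drop 3 (List.drop 3 (List.drop 3 (List.drop 3 (List.drop 3 (List.drop 3 (List.drop 3 (List.drop 3 (List.drop 3 (List.drop 3 (frac))))))))))))))))))))))))))))))))))))))))))))))))))))))))))))))))))))))))))))))))))))))))))))))))))))))))).all (cfgOK sizes cap) = true := by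
  decide +kernel

theorem cfg_104 : (List.take 3 (List.drop 3 (List.drop 3 (List.drop 3 (List.drop 3 (List.drop 3 (List.drop 3 (List.drop 3 (List.drop 3 (List.drop 3 (List.drop 3 (List.drop 3 (List.drop 3 (List.drop 3 (List.drop 3 (List.drop 3 (List.drop 3 (List.drop 3 (List.drop 3 (List.drop 3 (List.drop 3 (List.drop 3 (List.drop 3 (List.drop 3 (List.drop 3 (List.drop 3 (List.drop 3 (List.drop 3 (List.drop 3 (List.drop 3 (List.drop 3 (List.drop 3 (List.drop 3 (List.drop 3 (List.drop 3 (List.drop 3 (List.drop 3 (List.drop 3 (List.drop 3 (List.drop 3 (List.drop 3 (List.drop 3 (List.drop 3 (List.drop 3 (List.drop 3 (List.drop 3 (List.drop 3 (List.drop 3 (List.drop 3 (List.drop 3 (List.drop 3 (List.drop 3 (List.drop 3 (List.drop 3 (List.drop 3 (List.drop 3 (List.drop 3 (List.drop 3 (List.drop 3 (List.drop 3 (List.drop 3 (List.drop 3 (List.drop 3 (List.drop 3 (List.drop 3 (List.drop 3 (List.drop 3 (List.drop 3 (List.drop 3 (List.drop 3 (List.drop 3 (List.drop 3 (List.drop 3 (List.drop 3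 (List.drop 3 (List.drop 3 (List.drop 3 (List.drop 3 (List.drop 3 (List.drop 3 (List.drop 3 (List.drop 3 (List.drop 3 (List.drop 3 (List.drop 3 (List.drop 3 (List.drop 3 (List.drop 3 (List.drop 3 (List.drop 3 (List.drop 3 (List.drop 3 (List.drop 3 (List.drop 3 (List.drop 3 (List.drop 3 (List.drop 3 (List.drop 3 (List.drop 3 (List.drop 3 (List.drop 3 (List.drop 3 (List.drop 3 (List.drop 3 (List.drop 3 (frac)))))))))))))))))))))))))))))))))))))))))))))))))))))))))))))))))))))))))))))))))))))))))))))))))))))))))).all (cfgOK sizes cap) = true := by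
  decide +kernel

theorem cfg_105 : (List.take 3 (List.drop 3 (List.drop 3 (List.drop 3 (List.drop 3 (List.drop 3 (List.drop 3 (List.drop 3 (List.drop 3 (List.drop 3 (List.drop 3 (List.drop 3 (List.drop 3 (List.drop 3 (List.drop 3 (List.drop 3 (List.drop 3 (List.drop 3 (List.drop 3 (List.drop 3 (List.drop 3 (List.drop 3 (List.drop 3 (List.drop 3 (List.drop 3 (List.drop 3 (List.drop 3 (List.drop 3 (List.drop 3 (List.drop 3 (List.drop 3 (List.drop 3 (List.drop 3 (List.drop 3 (List.drop 3 (List.drop 3 (List.drop 3 (List.drop 3 (List.drop 3 (List.drop 3 (List.drop 3 (List.drop 3 (List.drop 3 (List.drop 3 (List.drop 3 (List.drop 3 (List.drop 3 (List.drop 3 (List.drop 3 (List.drop 3 (List.drop 3 (List.drop 3 (List.drop 3 (List.drop 3 (List.drop 3 (List.drop 3 (List.drop 3 (List.drop 3 (List.drop 3 (List.drop 3 (List.drop 3 (List.drop 3 (List.drop 3 (List.drop 3 (List.drop 3 (List.drop 3 (List.drop 3 (List.drop 3 (List.drop 3 (List.drop 3 (List.drop 3 (List.drop 3 (List.drop 3 (List.drop 3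 (List.drop 3 (List.drop 3 (List.drop 3 (List.drop 3 (List.drop 3 (List.drop 3 (List.drop 3 (List.drop 3 (List.drop 3 (List.drop 3 (List.drop 3 (List.drop 3 (List.drop 3 (List.drop 3 (List.drop 3 (List.drop 3 (List.drop 3 (List.drop 3 (List.drop 3 (List.drop 3 (List.drop 3 (List.drop 3 (List.drop 3 (List.drop 3 (List.drop 3 (List.drop 3 (List.drop 3 (List.drop 3 (List.drop 3 (List.drop 3 (List.drop 3 (List.drop 3 (frac))))))))))))))))))))))))))))))))))))))))))))))))))))))))))))))))))))))))))))))))))))))))))))))))))))))))))).all (cfgOK sizes cap) = true := by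
  decide +kernel

theorem cfg_106 : (List.take 3 (List.drop 3 (List.drop 3 (List.drop 3 (List.drop 3 (List.drop 3 (List.drop 3 (List.drop 3 (List.drop 3 (List.drop 3 (List.drop 3 (List.drop 3 (List.drop 3 (List.drop 3 (List.drop 3 (List.drop 3 (List.drop 3 (List.drop 3 (List.drop 3 (List.drop 3 (List.drop 3 (List.drop 3 (List.drop 3 (List.drop 3 (List.drop 3 (List.drop 3 (List.drop 3 (List.drop 3 (List.drop 3 (List.drop 3 (List.drop 3 (List.drop 3 (List.drop 3 (List.drop 3 (List.drop 3 (List.drop 3 (List.drop 3 (List.drop 3 (List.drop 3 (List.drop 3 (List.drop 3 (List.drop 3 (List.drop 3 (List.drop 3 (List.drop 3 (List.drop 3 (List.drop 3 (List.drop 3 (List.drop 3 (List.drop 3 (List.drop 3 (List.drop 3 (List.drop 3 (List.drop 3 (List.drop 3 (List.drop 3 (List.drop 3 (List.drop 3 (List.drop 3 (List.drop 3 (List.drop 3 (List.drop 3 (List.drop 3 (List.drop 3 (List.drop 3 (List.drop 3 (List.drop 3 (List.drop 3 (List.drop 3 (List.drop 3 (List.drop 3 (List.drop 3 (List.drop 3 (List.drop 3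 (List.drop 3 (List.drop 3 (List.drop 3 (List.drop 3 (List.drop 3 (List.drop 3 (List.drop 3 (List.drop 3 (List.drop 3 (List.drop 3 (List.drop 3 (List.drop 3 (List.drop 3 (List.drop 3 (List.drop 3 (List.drop 3 (List.drop 3 (List.drop 3 (List.drop 3 (List.drop 3 (List.drop 3 (List.drop 3 (List.drop 3 (List.drop 3 (List.drop 3 (List.drop 3 (List.drop 3 (List.drop 3 (List.drop 3 (List.drop 3 (List.drop 3 (List.drop 3 (List.drop 3 (frac)))))))))))))))))))))))))))))))))))))))))))))))))))))))))))))))))))))))))))))))))))))))))))))))))))))))))))).all (cfgOK sizes cap) = true := by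
  decide +kernel

theorem cfg_107 : (List.take 3 (List.drop 3 (List.drop 3 (List.drop 3 (List.drop 3 (List.drop 3 (List.drop 3 (List.drop 3 (List.drop 3 (List.drop 3 (List.drop 3 (List.drop 3 (List.drop 3 (List.drop 3 (List.drop 3 (List.drop 3 (List.drop 3 (List.drop 3 (List.drop 3 (List.drop 3 (List.drop 3 (List.drop 3 (List.drop 3 (List.drop 3 (List.drop 3 (List.drop 3 (List.drop 3 (List.drop 3 (List.drop 3 (List.drop 3 (List.drop 3 (List.drop 3 (List.drop 3 (List.drop 3 (List.drop 3 (List.drop 3 (List.drop 3 (List.drop 3 (List.drop 3 (List.drop 3 (List.drop 3 (List.drop 3 (List.drop 3 (List.drop 3 (List.drop 3 (List.drop 3 (List.drop 3 (List.drop 3 (List.drop 3 (List.drop 3 (List.drop 3 (List.drop 3 (List.drop 3 (List.drop 3 (List.drop 3 (List.drop 3 (List.drop 3 (List.drop 3 (List.drop 3 (List.drop 3 (List.drop 3 (List.drop 3 (List.drop 3 (List.drop 3 (List.drop 3 (List.drop 3 (List.drop 3 (List.drop 3 (List.drop 3 (List.drop 3 (List.drop 3 (List.drop 3 (List.drop 3 (List.drop 3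 (List.drop 3 (List.drop 3 (List.drop 3 (List.drop 3 (List.drop 3 (List.drop 3 (List.drop 3 (List.drop 3 (List.drop 3 (List.drop 3 (List.drop 3 (List.drop 3 (List.drop 3 (List.drop 3 (List.drop 3 (List.drop 3 (List.drop 3 (List.drop 3 (List.drop 3 (List.drop 3 (List.drop 3 (List.drop 3 (List.drop 3 (List.drop 3 (List.drop 3 (List.drop 3 (List.drop 3 (List.drop 3 (List.drop 3 (List.drop 3 (List.drop 3 (List.drop 3 (List.drop 3 (List.drop 3 (frac))))))))))))))))))))))))))))))))))))))))))))))))))))))))))))))))))))))))))))))))))))))))))))))))))))))))))))).all (cfgOK sizes cap) = true := by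
  decide +kernel

theorem cfg_108 : (List.take 3 (List.drop 3 (List.drop 3 (List.drop 3 (List.drop 3 (List.drop 3 (List.drop 3 (List.drop 3 (List.drop 3 (List.drop 3 (List.drop 3 (List.drop 3 (List.drop 3 (List.drop 3 (List.drop 3 (List.drop 3 (List.drop 3 (List.drop 3 (List.drop 3 (List.drop 3 (List.drop 3 (List.drop 3 (List.drop 3 (List.drop 3 (List.drop 3 (List.drop 3 (List.drop 3 (List.drop 3 (List.drop 3 (List.drop 3 (List.drop 3 (List.drop 3 (List.drop 3 (List.drop 3 (List.drop 3 (List.drop 3 (List.drop 3 (List.drop 3 (List.drop 3 (List.drop 3 (List.drop 3 (List.drop 3 (List.drop 3 (List.drop 3 (List.drop 3 (List.drop 3 (List.drop 3 (List.drop 3 (List.drop 3 (List.drop 3 (List.drop 3 (List.drop 3 (List.drop 3 (List.drop 3 (List.drop 3 (List.drop 3 (List.drop 3 (List.drop 3 (List.drop 3 (List.drop 3 (List.drop 3 (List.drop 3 (List.drop 3 (List.drop 3 (List.drop 3 (List.drop 3 (List.drop 3 (List.drop 3 (List.drop 3 (List.drop 3 (List.drop 3 (List.drop 3 (List.drop 3 (List.drop 3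 (List.drop 3 (List.drop 3 (List.drop 3 (List.drop 3 (List.drop 3 (List.drop 3 (List.drop 3 (List.drop 3 (List.drop 3 (List.drop 3 (List.drop 3 (List.drop 3 (List.drop 3 (List.drop 3 (List.drop 3 (List.drop 3 (List.drop 3 (List.drop 3 (List.drop 3 (List.drop 3 (List.drop 3 (List.drop 3 (List.drop 3 (List.drop 3 (List.drop 3 (List.drop 3 (List.drop 3 (List.drop 3 (List.drop 3 (List.drop 3 (List.drop 3 (List.drop 3 (List.drop 3 (List.drop 3 (List.drop 3 (frac)))))))))))))))))))))))))))))))))))))))))))))))))))))))))))))))))))))))))))))))))))))))))))))))))))))))))))))).all (cfgOK sizes cap) = true := by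
  decide +kernel

theorem cfg_109 : (List.take 3 (List.drop 3 (List.drop 3 (List.drop 3 (List.drop 3 (List.drop 3 (List.drop 3 (List.drop 3 (List.drop 3 (List.drop 3 (List.drop 3 (List.drop 3 (List.drop 3 (List.drop 3 (List.drop 3 (List.drop 3 (List.drop 3 (List.drop 3 (List.drop 3 (List.drop 3 (List.drop 3 (List.drop 3 (List.drop 3 (List.drop 3 (List.drop 3 (List.drop 3 (List.drop 3 (List.drop 3 (List.drop 3 (List.drop 3 (List.drop 3 (List.drop 3 (List.drop 3 (List.drop 3 (List.drop 3 (List.drop 3 (List.drop 3 (List.drop 3 (List.drop 3 (List.drop 3 (List.drop 3 (List.drop 3 (List.drop 3 (List.drop 3 (List.drop 3 (List.drop 3 (List.drop 3 (List.drop 3 (List.drop 3 (List.drop 3 (List.drop 3 (List.drop 3 (List.drop 3 (List.drop 3 (List.drop 3 (List.drop 3 (List.drop 3 (List.drop 3 (List.drop 3 (List.drop 3 (List.drop 3 (List.drop 3 (List.drop 3 (List.drop 3 (List.drop 3 (List.drop 3 (List.drop 3 (List.drop 3 (List.drop 3 (List.drop 3 (List.drop 3 (List.drop 3 (List.drop 3 (List.drop 3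 (List.drop 3 (List.drop 3 (List.drop 3 (List.drop 3 (List.drop 3 (List.drop 3 (List.drop 3 (List.drop 3 (List.drop 3 (List.drop 3 (List.drop 3 (List.drop 3 (List.drop 3 (List.drop 3 (List.drop 3 (List.drop 3 (List.drop 3 (List.drop 3 (List.drop 3 (List.drop 3 (List.drop 3 (List.drop 3 (List.drop 3 (List.drop 3 (List.drop 3 (List.drop 3 (List.drop 3 (List.drop 3 (List.drop 3 (List.drop 3 (List.drop 3 (List.drop 3 (List.drop 3 (List.drop 3 (List.drop 3 (List.drop 3 (frac))))))))))))))))))))))))))))))))))))))))))))))))))))))))))))))))))))))))))))))))))))))))))))))))))))))))))))))).all (cfgOK sizes cap) = true := by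
  decide +kernel

theorem cfg_110 : (List.take 3 (List.drop 3 (List.drop 3 (List.drop 3 (List.drop 3 (List.drop 3 (List.drop 3 (List.drop 3 (List.drop 3 (List.drop 3 (List.drop 3 (List.drop 3 (List.drop 3 (List.drop 3 (List.drop 3 (List.drop 3 (List.drop 3 (List.drop 3 (List.drop 3 (List.drop 3 (List.drop 3 (List.drop 3 (List.drop 3 (List.drop 3 (List.drop 3 (List.drop 3 (List.drop 3 (List.drop 3 (List.drop 3 (List.drop 3 (List.drop 3 (List.drop 3 (List.drop 3 (List.drop 3 (List.drop 3 (List.drop 3 (List.drop 3 (List.drop 3 (List.drop 3 (List.drop 3 (List.drop 3 (List.drop 3 (List.drop 3 (List.drop 3 (List.drop 3 (List.drop 3 (List.drop 3 (List.drop 3 (List.drop 3 (List.drop 3 (List.drop 3 (List.drop 3 (List.drop 3 (List.drop 3 (List.drop 3 (List.drop 3 (List.drop 3 (List.drop 3 (List.drop 3 (List.drop 3 (List.drop 3 (List.drop 3 (List.drop 3 (List.drop 3 (List.drop 3 (List.drop 3 (List.drop 3 (List.drop 3 (List.drop 3 (List.drop 3 (List.drop 3 (List.drop 3 (List.drop 3 (List.drop 3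 (List.drop 3 (List.drop 3 (List.drop 3 (List.drop 3 (List.drop 3 (List.drop 3 (List.drop 3 (List.drop 3 (List.drop 3 (List.drop 3 (List.drop 3 (List.drop 3 (List.drop 3 (List.drop 3 (List.drop 3 (List.drop 3 (List.drop 3 (List.drop 3 (List.drop 3 (List.drop 3 (List.drop 3 (List.drop 3 (List.drop 3 (List.drop 3 (List.drop 3 (List.drop 3 (List.drop 3 (List.drop 3 (List.drop 3 (List.drop 3 (List.drop 3 (List.drop 3 (List.drop 3 (List.drop 3 (List.drop 3 (List.drop 3 (List.drop 3 (frac)))))))))))))))))))))))))))))))))))))))))))))))))))))))))))))))))))))))))))))))))))))))))))))))))))))))))))))))).all (cfgOK sizes cap) = true := by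
  decide +kernel

theorem cfg_111 : (List.take 3 (List.drop 3 (List.drop 3 (List.drop 3 (List.drop 3 (List.drop 3 (List.drop 3 (List.drop 3 (List.drop 3 (List.drop 3 (List.drop 3 (List.drop 3 (List.drop 3 (List.drop 3 (List.drop 3 (List.drop 3 (List.drop 3 (List.drop 3 (List.drop 3 (List.drop 3 (List.drop 3 (List.drop 3 (List.drop 3 (List.drop 3 (List.drop 3 (List.drop 3 (List.drop 3 (List.drop 3 (List.drop 3 (List.drop 3 (List.drop 3 (List.drop 3 (List.drop 3 (List.drop 3 (List.drop 3 (List.drop 3 (List.drop 3 (List.drop 3 (List.drop 3 (List.drop 3 (List.drop 3 (List.drop 3 (List.drop 3 (List.drop 3 (List.drop 3 (List.drop 3 (List.drop 3 (List.drop 3 (List.drop 3 (List.drop 3 (List.drop 3 (List.drop 3 (List.drop 3 (List.drop 3 (List.drop 3 (List.drop 3 (List.drop 3 (List.drop 3 (List.drop 3 (List.drop 3 (List.drop 3 (List.drop 3 (List.drop 3 (List.drop 3 (List.drop 3 (List.drop 3 (List.drop 3 (List.drop 3 (List.drop 3 (List.drop 3 (List.drop 3 (List.drop 3 (List.drop 3 (List.drop 3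 (List.drop 3 (List.drop 3 (List.drop 3 (List.drop 3 (List.drop 3 (List.drop 3 (List.drop 3 (List.drop 3 (List.drop 3 (List.drop 3 (List.drop 3 (List.drop 3 (List.drop 3 (List.drop 3 (List.drop 3 (List.drop 3 (List.drop 3 (List.drop 3 (List.drop 3 (List.drop 3 (List.drop 3 (List.drop 3 (List.drop 3 (List.drop 3 (List.drop 3 (List.drop 3 (List.drop 3 (List.drop 3 (List.drop 3 (List.drop 3 (List.drop 3 (List.drop 3 (List.drop 3 (List.drop 3 (List.drop 3 (List.drop 3 (List.drop 3 (List.drop 3 (frac))))))))))))))))))))))))))))))))))))))))))))))))))))))))))))))))))))))))))))))))))))))))))))))))))))))))))))))))).all (cfgOK sizes cap) = true := by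
  decide +kernel

theorem cfg_112 : (List.take 3 (List.drop 3 (List.drop 3 (List.drop 3 (List.drop 3 (List.drop 3 (List.drop 3 (List.drop 3 (List.drop 3 (List.drop 3 (List.drop 3 (List.drop 3 (List.drop 3 (List.drop 3 (List.drop 3 (List.drop 3 (List.drop 3 (List.drop 3 (List.drop 3 (List.drop 3 (List.drop 3 (List.drop 3 (List.drop 3 (List.drop 3 (List.drop 3 (List.drop 3 (List.drop 3 (List.drop 3 (List.drop 3 (List.drop 3 (List.drop 3 (List.drop 3 (List.drop 3 (List.drop 3 (List.drop 3 (List.drop 3 (List.drop 3 (List.drop 3 (List.drop 3 (List.drop 3 (List.drop 3 (List.drop 3 (List.drop 3 (List.drop 3 (List.drop 3 (List.drop 3 (List.drop 3 (List.drop 3 (List.drop 3 (List.drop 3 (List.drop 3 (List.drop 3 (List.drop 3 (List.drop 3 (List.drop 3 (List.drop 3 (List.drop 3 (List.drop 3 (List.drop 3 (List.drop 3 (List.drop 3 (List.drop 3 (List.drop 3 (List.drop 3 (List.drop 3 (List.drop 3 (List.drop 3 (List.drop 3 (List.drop 3 (List.drop 3 (List.drop 3 (List.drop 3 (List.drop 3 (List.drop 3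 (List.drop 3 (List.drop 3 (List.drop 3 (List.drop 3 (List.drop 3 (List.drop 3 (List.drop 3 (List.drop 3 (List.drop 3 (List.drop 3 (List.drop 3 (List.drop 3 (List.drop 3 (List.drop 3 (List.drop 3 (List.drop 3 (List.drop 3 (List.drop 3 (List.drop 3 (List.drop 3 (List.drop 3 (List.drop 3 (List.drop 3 (List.drop 3 (List.drop 3 (List.drop 3 (List.drop 3 (List.drop 3 (List.drop 3 (List.drop 3 (List.drop 3 (List.drop 3 (List.drop 3 (List.drop 3 (List.drop 3 (List.drop 3 (List.drop 3 (List.drop 3 (List.drop 3 (frac)))))))))))))))))))))))))))))))))))))))))))))))))))))))))))))))))))))))))))))))))))))))))))))))))))))))))))))))))).all (cfgOK sizes cap) = true := by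
  decide +kernel

theorem cfg_113 : (List.take 3 (List.drop 3 (List.drop 3 (List.drop 3 (List.drop 3 (List.drop 3 (List.drop 3 (List.drop 3 (List.drop 3 (List.drop 3 (List.drop 3 (List.drop 3 (List.drop 3 (List.drop 3 (List.drop 3 (List.drop 3 (List.drop 3 (List.drop 3 (List.drop 3 (List.drop 3 (List.drop 3 (List.drop 3 (List.drop 3 (List.drop 3 (List.drop 3 (List.drop 3 (List.drop 3 (List.drop 3 (List.drop 3 (List.drop 3 (List.drop 3 (List.drop 3 (List.drop 3 (List.drop 3 (List.drop 3 (List.drop 3 (List.drop 3 (List.drop 3 (List.drop 3 (List.drop 3 (List.drop 3 (List.drop 3 (List.drop 3 (List.drop 3 (List.drop 3 (List.drop 3 (List.drop 3 (List.drop 3 (List.drop 3 (List.drop 3 (List.drop 3 (List.drop 3 (List.drop 3 (List.drop 3 (List.drop 3 (List.drop 3 (List.drop 3 (List.drop 3 (List.drop 3 (List.drop 3 (List.drop 3 (List.drop 3 (List.drop 3 (List.drop 3 (List.drop 3 (List.drop 3 (List.drop 3 (List.drop 3 (List.drop 3 (List.drop 3 (List.drop 3 (List.drop 3 (List.drop 3 (List.drop 3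 (List.drop 3 (List.drop 3 (List.drop 3 (List.drop 3 (List.drop 3 (List.drop 3 (List.drop 3 (List.drop 3 (List.drop 3 (List.drop 3 (List.drop 3 (List.drop 3 (List.drop 3 (List.drop 3 (List.drop 3 (List.drop 3 (List.drop 3 (List.drop 3 (List.drop 3 (List.drop 3 (List.drop 3 (List.drop 3 (List.drop 3 (List.drop 3 (List.drop 3 (List.drop 3 (List.drop 3 (List.drop 3 (List.drop 3 (List.drop 3 (List.drop 3 (List.drop 3 (List.drop 3 (List.drop 3 (List.drop 3 (List.drop 3 (List.drop 3 (List.drop 3 (List.drop 3 (List.drop 3 (frac))))))))))))))))))))))))))))))))))))))))))))))))))))))))))))))))))))))))))))))))))))))))))))))))))))))))))))))))))).all (cfgOK sizes cap) = true := by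
  decide +kernel

theorem cfg_114 : (List.take 3 (List.drop 3 (List.drop 3 (List.drop 3 (List.drop 3 (List.drop 3 (List.drop 3 (List.drop 3 (List.drop 3 (List.drop 3 (List.drop 3 (List.drop 3 (List.drop 3 (List.drop 3 (List.drop 3 (List.drop 3 (List.drop 3 (List.drop 3 (List.drop 3 (List.drop 3 (List.drop 3 (List.drop 3 (List.drop 3 (List.drop 3 (List.drop 3 (List.drop 3 (List.drop 3 (List.drop 3 (List.drop 3 (List.drop 3 (List.drop 3 (List.drop 3 (List.drop 3 (List.drop 3 (List.drop 3 (List.drop 3 (List.drop 3 (List.drop 3 (List.drop 3 (List.drop 3 (List.drop 3 (List.drop 3 (List.drop 3 (List.drop 3 (List.drop 3 (List.drop 3 (List.drop 3 (List.drop 3 (List.drop 3 (List.drop 3 (List.drop 3 (List.drop 3 (List.drop 3 (List.drop 3 (List.drop 3 (List.drop 3 (List.drop 3 (List.drop 3 (List.drop 3 (List.drop 3 (List.drop 3 (List.drop 3 (List.drop 3 (List.drop 3 (List.drop 3 (List.drop 3 (List.drop 3 (List.drop 3 (List.drop 3 (List.drop 3 (List.drop 3 (List.drop 3 (List.drop 3 (List.drop 3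 (List.drop 3 (List.drop 3 (List.drop 3 (List.drop 3 (List.drop 3 (List.drop 3 (List.drop 3 (List.drop 3 (List.drop 3 (List.drop 3 (List.drop 3 (List.drop 3 (List.drop 3 (List.drop 3 (List.drop 3 (List.drop 3 (List.drop 3 (List.drop 3 (List.drop 3 (List.drop 3 (List.drop 3 (List.drop 3 (List.drop 3 (List.drop 3 (List.drop 3 (List.drop 3 (List.drop 3 (List.drop 3 (List.drop 3 (List.drop 3 (List.drop 3 (List.drop 3 (List.drop 3 (List.drop 3 (List.drop 3 (List.drop 3 (List.drop 3 (List.drop 3 (List.drop 3 (List.drop 3 (List.drop 3 (frac)))))))))))))))))))))))))))))))))))))))))))))))))))))))))))))))))))))))))))))))))))))))))))))))))))))))))))))))))))).all (cfgOK sizes cap) = true := by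
  decide +kernel

theorem cfg_115 : (List.take 3 (List.drop 3 (List.drop 3 (List.drop 3 (List.drop 3 (List.drop 3 (List.drop 3 (List.drop 3 (List.drop 3 (List.drop 3 (List.drop 3 (List.drop 3 (List.drop 3 (List.drop 3 (List.drop 3 (List.drop 3 (List.drop 3 (List.drop 3 (List.drop 3 (List.drop 3 (List.drop 3 (List.drop 3 (List.drop 3 (List.drop 3 (List.drop 3 (List.drop 3 (List.drop 3 (List.drop 3 (List.drop 3 (List.drop 3 (List.drop 3 (List.drop 3 (List.drop 3 (List.drop 3 (List.drop 3 (List.drop 3 (List.drop 3 (List.drop 3 (List.drop 3 (List.drop 3 (List.drop 3 (List.drop 3 (List.drop 3 (List.drop 3 (List.drop 3 (List.drop 3 (List.drop 3 (List.drop 3 (List.drop 3 (List.drop 3 (List.drop 3 (List.drop 3 (List.drop 3 (List.drop 3 (List.drop 3 (List.drop 3 (List.drop 3 (List.drop 3 (List.drop 3 (List.drop 3 (List.drop 3 (List.drop 3 (List.drop 3 (List.drop 3 (List.drop 3 (List.drop 3 (List.drop 3 (List.drop 3 (List.drop 3 (List.drop 3 (List.drop 3 (List.drop 3 (List.drop 3 (List.drop 3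 (List.drop 3 (List.drop 3 (List.drop 3 (List.drop 3 (List.drop 3 (List.drop 3 (List.drop 3 (List.drop 3 (List.drop 3 (List.drop 3 (List.drop 3 (List.drop 3 (List.drop 3 (List.drop 3 (List.drop 3 (List.drop 3 (List.drop 3 (List.drop 3 (List.drop 3 (List.drop 3 (List.drop 3 (List.drop 3 (List.drop 3 (List.drop 3 (List.drop 3 (List.drop 3 (List.drop 3 (List.drop 3 (List.drop 3 (List.drop 3 (List.drop 3 (List.drop 3 (List.drop 3 (List.drop 3 (List.drop 3 (List.drop 3 (List.drop 3 (List.drop 3 (List.drop 3 (List.drop 3 (List.drop 3 (List.drop 3 (frac))))))))))))))))))))))))))))))))))))))))))))))))))))))))))))))))))))))))))))))))))))))))))))))))))))))))))))))))))))).all (cfgOK sizes cap) = true := by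
  decide +kernel

theorem cfg_116 : (List.take 3 (List.drop 3 (List.drop 3 (List.drop 3 (List.drop 3 (List.drop 3 (List.drop 3 (List.drop 3 (List.drop 3 (List.drop 3 (List.drop 3 (List.drop 3 (List.drop 3 (List.drop 3 (List.drop 3 (List.drop 3 (List.drop 3 (List.drop 3 (List.drop 3 (List.drop 3 (List.drop 3 (List.drop 3 (List.drop 3 (List.drop 3 (List.drop 3 (List.drop 3 (List.drop 3 (List.drop 3 (List.drop 3 (List.drop 3 (List.drop 3 (List.drop 3 (List.drop 3 (List.drop 3 (List.drop 3 (List.drop 3 (List.drop 3 (List.drop 3 (List.drop 3 (List.drop 3 (List.drop 3 (List.drop 3 (List.drop 3 (List.drop 3 (List.drop 3 (List.drop 3 (List.drop 3 (List.drop 3 (List.drop 3 (List.drop 3 (List.drop 3 (List.drop 3 (List.drop 3 (List.drop 3 (List.drop 3 (List.drop 3 (List.drop 3 (List.drop 3 (List.drop 3 (List.drop 3 (List.drop 3 (List.drop 3 (List.drop 3 (List.drop 3 (List.drop 3 (List.drop 3 (List.drop 3 (List.drop 3 (List.drop 3 (List.drop 3 (List.drop 3 (List.drop 3 (List.drop 3 (List.drop 3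 (List.drop 3 (List.drop 3 (List.drop 3 (List.drop 3 (List.drop 3 (List.drop 3 (List.drop 3 (List.drop 3 (List.drop 3 (List.drop 3 (List.drop 3 (List.drop 3 (List.drop 3 (List.drop 3 (List.drop 3 (List.drop 3 (List.drop 3 (List.drop 3 (List.drop 3 (List.drop 3 (List.drop 3 (List.drop 3 (List.drop 3 (List.drop 3 (List.drop 3 (List.drop 3 (List.drop 3 (List.drop 3 (List.drop 3 (List.drop 3 (List.drop 3 (List.drop 3 (List.drop 3 (List.drop 3 (List.drop 3 (List.drop 3 (List.drop 3 (List.drop 3 (List.drop 3 (List.drop 3 (List.drop 3 (List.drop 3 (List.drop 3 (frac)))))))))))))))))))))))))))))))))))))))))))))))))))))))))))))))))))))))))))))))))))))))))))))))))))))))))))))))))))))).all (cfgOK sizes cap) = true := by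
  decide +kernel

theorem cfg_117 : (List.take 3 (List.drop 3 (List.drop 3 (List.drop 3 (List.drop 3 (List.drop 3 (List.drop 3 (List.drop 3 (List.drop 3 (List.drop 3 (List.drop 3 (List.drop 3 (List.drop 3 (List.drop 3 (List.drop 3 (List.drop 3 (List.drop 3 (List.drop 3 (List.drop 3 (List.drop 3 (List.drop 3 (List.drop 3 (List.drop 3 (List.drop 3 (List.drop 3 (List.drop 3 (List.drop 3 (List.drop 3 (List.drop 3 (List.drop 3 (List.drop 3 (List.drop 3 (List.drop 3 (List.drop 3 (List.drop 3 (List.drop 3 (List.drop 3 (List.drop 3 (List.drop 3 (List.drop 3 (List.drop 3 (List.drop 3 (List.drop 3 (List.drop 3 (List.drop 3 (List.drop 3 (List.drop 3 (List.drop 3 (List.drop 3 (List.drop 3 (List.drop 3 (List.drop 3 (List.drop 3 (List.drop 3 (List.drop 3 (List.drop 3 (List.drop 3 (List.drop 3 (List.drop 3 (List.drop 3 (List.drop 3 (List.drop 3 (List.drop 3 (List.drop 3 (List.drop 3 (List.drop 3 (List.drop 3 (List.drop 3 (List.drop 3 (List.drop 3 (List.drop 3 (List.drop 3 (List.drop 3 (List.drop 3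 (List.drop 3 (List.drop 3 (List.drop 3 (List.drop 3 (List.drop 3 (List.drop 3 (List.drop 3 (List.drop 3 (List.drop 3 (List.drop 3 (List.drop 3 (List.drop 3 (List.drop 3 (List.drop 3 (List.drop 3 (List.drop 3 (List.drop 3 (List.drop 3 (List.drop 3 (List.drop 3 (List.drop 3 (List.drop 3 (List.drop 3 (List.drop 3 (List.drop 3 (List.drop 3 (List.drop 3 (List.drop 3 (List.drop 3 (List.drop 3 (List.drop 3 (List.drop 3 (List.drop 3 (List.drop 3 (List.drop 3 (List.drop 3 (List.drop 3 (List.drop 3 (List.drop 3 (List.drop 3 (List.drop 3 (List.drop 3 (List.drop 3 (List.drop 3 (frac))))))))))))))))))))))))))))))))))))))))))))))))))))))))))))))))))))))))))))))))))))))))))))))))))))))))))))))))))))))).all (cfgOK sizes cap) = true := by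
  decide +kernel

theorem cfg_118 : (List.take 3 (List.drop 3 (List.drop 3 (List.drop 3 (List.drop 3 (List.drop 3 (List.drop 3 (List.drop 3 (List.drop 3 (List.drop 3 (List.drop 3 (List.drop 3 (List.drop 3 (List.drop 3 (List.drop 3 (List.drop 3 (List.drop 3 (List.drop 3 (List.drop 3 (List.drop 3 (List.drop 3 (List.drop 3 (List.drop 3 (List.drop 3 (List.drop 3 (List.drop 3 (List.drop 3 (List.drop 3 (List.drop 3 (List.drop 3 (List.drop 3 (List.drop 3 (List.drop 3 (List.drop 3 (List.drop 3 (List.drop 3 (List.drop 3 (List.drop 3 (List.drop 3 (List.drop 3 (List.drop 3 (List.drop 3 (List.drop 3 (List.drop 3 (List.drop 3 (List.drop 3 (List.drop 3 (List.drop 3 (List.drop 3 (List.drop 3 (List.drop 3 (List.drop 3 (List.drop 3 (List.drop 3 (List.drop 3 (List.drop 3 (List.drop 3 (List.drop 3 (List.drop 3 (List.drop 3 (List.drop 3 (List.drop 3 (List.drop 3 (List.drop 3 (List.drop 3 (List.drop 3 (List.drop 3 (List.drop 3 (List.drop 3 (List.drop 3 (List.drop 3 (List.drop 3 (List.drop 3 (List.drop 3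 (List.drop 3 (List.drop 3 (List.drop 3 (List.drop 3 (List.drop 3 (List.drop 3 (List.drop 3 (List.drop 3 (List.drop 3 (List.drop 3 (List.drop 3 (List.drop 3 (List.drop 3 (List.drop 3 (List.drop 3 (List.drop 3 (List.drop 3 (List.drop 3 (List.drop 3 (List.drop 3 (List.drop 3 (List.drop 3 (List.drop 3 (List.drop 3 (List.drop 3 (List.drop 3 (List.drop 3 (List.drop 3 (List.drop 3 (List.drop 3 (List.drop 3 (List.drop 3 (List.drop 3 (List.drop 3 (List.drop 3 (List.drop 3 (List.drop 3 (List.drop 3 (List.drop 3 (List.drop 3 (List.drop 3 (List.drop 3 (List.drop 3 (List.drop 3 (List.drop 3 (frac)))))))))))))))))))))))))))))))))))))))))))))))))))))))))))))))))))))))))))))))))))))))))))))))))))))))))))))))))))))))).all (cfgOK sizes cap) = true := by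
  decide +kernel

theorem cfg_119 : (List.take 3 (List.drop 3 (List.drop 3 (List.drop 3 (List.drop 3 (List.drop 3 (List.drop 3 (List.drop 3 (List.drop 3 (List.drop 3 (List.drop 3 (List.drop 3 (List.drop 3 (List.drop 3 (List.drop 3 (List.drop 3 (List.drop 3 (List.drop 3 (List.drop 3 (List.drop 3 (List.drop 3 (List.drop 3 (List.drop 3 (List.drop 3 (List.drop 3 (List.drop 3 (List.drop 3 (List.drop 3 (List.drop 3 (List.drop 3 (List.drop 3 (List.drop 3 (List.drop 3 (List.drop 3 (List.drop 3 (List.drop 3 (List.drop 3 (List.drop 3 (List.drop 3 (List.drop 3 (List.drop 3 (List.drop 3 (List.drop 3 (List.drop 3 (List.drop 3 (List.drop 3 (List.drop 3 (List.drop 3 (List.drop 3 (List.drop 3 (List.drop 3 (List.drop 3 (List.drop 3 (List.drop 3 (List.drop 3 (List.drop 3 (List.drop 3 (List.drop 3 (List.drop 3 (List.drop 3 (List.drop 3 (List.drop 3 (List.drop 3 (List.drop 3 (List.drop 3 (List.drop 3 (List.drop 3 (List.drop 3 (List.drop 3 (List.drop 3 (List.drop 3 (List.drop 3 (List.drop 3 (List.drop 3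 (List.drop 3 (List.drop 3 (List.drop 3 (List.drop 3 (List.drop 3 (List.drop 3 (List.drop 3 (List.drop 3 (List.drop 3 (List.drop 3 (List.drop 3 (List.drop 3 (List.drop 3 (List.drop 3 (List.drop 3 (List.drop 3 (List.drop 3 (List.drop 3 (List.drop 3 (List.drop 3 (List.drop 3 (List.drop 3 (List.drop 3 (List.drop 3 (List.drop 3 (List.drop 3 (List.drop 3 (List.drop 3 (List.drop 3 (List.drop 3 (List.drop 3 (List.drop 3 (List.drop 3 (List.drop 3 (List.drop 3 (List.drop 3 (List.drop 3 (List.drop 3 (List.drop 3 (List.drop 3 (List.drop 3 (List.drop 3 (List.drop 3 (List.drop 3 (List.drop 3 (List.drop 3 (frac))))))))))))))))))))))))))))))))))))))))))))))))))))))))))))))))))))))))))))))))))))))))))))))))))))))))))))))))))))))))).all (cfgOK sizes cap) = true := by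
  decide +kernel

theorem cfg_120 : (List.take 3 (List.drop 3 (List.drop 3 (List.drop 3 (List.drop 3 (List.drop 3 (List.drop 3 (List.drop 3 (List.drop 3 (List.drop 3 (List.drop 3 (List.drop 3 (List.drop 3 (List.drop 3 (List.drop 3 (List.drop 3 (List.drop 3 (List.drop 3 (List.drop 3 (List.drop 3 (List.drop 3 (List.drop 3 (List.drop 3 (List.drop 3 (List.drop 3 (List.drop 3 (List.drop 3 (List.drop 3 (List.drop 3 (List.drop 3 (List.drop 3 (List.drop 3 (List.drop 3 (List.drop 3 (List.drop 3 (List.drop 3 (List.drop 3 (List.drop 3 (List.drop 3 (List.drop 3 (List.drop 3 (List.drop 3 (List.drop 3 (List.drop 3 (List.drop 3 (List.drop 3 (List.drop 3 (List.drop 3 (List.drop 3 (List.drop 3 (List.drop 3 (List.drop 3 (List.drop 3 (List.drop 3 (List.drop 3 (List.drop 3 (List.drop 3 (List.drop 3 (List.drop 3 (List.drop 3 (List.drop 3 (List.drop 3 (List.drop 3 (List.drop 3 (List.drop 3 (List.drop 3 (List.drop 3 (List.drop 3 (List.drop 3 (List.drop 3 (List.drop 3 (List.drop 3 (List.drop 3 (List.drop 3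 (List.drop 3 (List.drop 3 (List.drop 3 (List.drop 3 (List.drop 3 (List.drop 3 (List.drop 3 (List.drop 3 (List.drop 3 (List.drop 3 (List.drop 3 (List.drop 3 (List.drop 3 (List.drop 3 (List.drop 3 (List.drop 3 (List.drop 3 (List.drop 3 (List.drop 3 (List.drop 3 (List.drop 3 (List.drop 3 (List.drop 3 (List.drop 3 (List.drop 3 (List.drop 3 (List.drop 3 (List.drop 3 (List.drop 3 (List.drop 3 (List.drop 3 (List.drop 3 (List.drop 3 (List.drop 3 (List.drop 3 (List.drop 3 (List.drop 3 (List.drop 3 (List.drop 3 (List.drop 3 (List.drop 3 (List.drop 3 (List.drop 3 (List.drop 3 (List.drop 3 (List.drop 3 (List.drop 3 (frac)))))))))))))))))))))))))))))))))))))))))))))))))))))))))))))))))))))))))))))))))))))))))))))))))))))))))))))))))))))))))).all (cfgOK sizes cap) = true := by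
  decide +kernel

theorem cfg_121 : (List.take 3 (List.drop 3 (List.drop 3 (List.drop 3 (List.drop 3 (List.drop 3 (List.drop 3 (List.drop 3 (List.drop 3 (List.drop 3 (List.drop 3 (List.drop 3 (List.drop 3 (List.drop 3 (List.drop 3 (List.drop 3 (List.drop 3 (List.drop 3 (List.drop 3 (List.drop 3 (List.drop 3 (List.drop 3 (List.drop 3 (List.drop 3 (List.drop 3 (List.drop 3 (List.drop 3 (List.drop 3 (List.drop 3 (List.drop 3 (List.drop 3 (List.drop 3 (List.drop 3 (List.drop 3 (List.drop 3 (List.drop 3 (List.drop 3 (List.drop 3 (List.drop 3 (List.drop 3 (List.drop 3 (List.drop 3 (List.drop 3 (List.drop 3 (List.drop 3 (List.drop 3 (List.drop 3 (List.drop 3 (List.drop 3 (List.drop 3 (List.drop 3 (List.drop 3 (List.drop 3 (List.drop 3 (List.drop 3 (List.drop 3 (List.drop 3 (List.drop 3 (List.drop 3 (List.drop 3 (List.drop 3 (List.drop 3 (List.drop 3 (List.drop 3 (List.drop 3 (List.drop 3 (List.drop 3 (List.drop 3 (List.drop 3 (List.drop 3 (List.drop 3 (List.drop 3 (List.drop 3 (List.drop 3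 (List.drop 3 (List.drop 3 (List.drop 3 (List.drop 3 (List.drop 3 (List.drop 3 (List.drop 3 (List.drop 3 (List.drop 3 (List.drop 3 (List.drop 3 (List.drop 3 (List.drop 3 (List.drop 3 (List.drop 3 (List.drop 3 (List.drop 3 (List.drop 3 (List.drop 3 (List.drop 3 (List.drop 3 (List.drop 3 (List.drop 3 (List.drop 3 (List.drop 3 (List.drop 3 (List.drop 3 (List.drop 3 (List.drop 3 (List.drop 3 (List.drop 3 (List.drop 3 (List.drop 3 (List.drop 3 (List.drop 3 (List.drop 3 (List.drop 3 (List.drop 3 (List.drop 3 (List.drop 3 (List.drop 3 (List.drop 3 (List.drop 3 (List.drop 3 (List.drop 3 (List.drop 3 (List.drop 3 (List.drop 3 (frac))))))))))))))))))))))))))))))))))))))))))))))))))))))))))))))))))))))))))))))))))))))))))))))))))))))))))))))))))))))))))).all (cfgOK sizes cap) = true := by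
  decide +kernel

theorem cfg_122 : (List.take 3 (List.drop 3 (List.drop 3 (List.drop 3 (List.drop 3 (List.drop 3 (List.drop 3 (List.drop 3 (List.drop 3 (List.drop 3 (List.drop 3 (List.drop 3 (List.drop 3 (List.drop 3 (List.drop 3 (List.drop 3 (List.drop 3 (List.drop 3 (List.drop 3 (List.drop 3 (List.drop 3 (List.drop 3 (List.drop 3 (List.drop 3 (List.drop 3 (List.drop 3 (List.drop 3 (List.drop 3 (List.drop 3 (List.drop 3 (List.drop 3 (List.drop 3 (List.drop 3 (List.drop 3 (List.drop 3 (List.drop 3 (List.drop 3 (List.drop 3 (List.drop 3 (List.drop 3 (List.drop 3 (List.drop 3 (List.drop 3 (List.drop 3 (List.drop 3 (List.drop 3 (List.drop 3 (List.drop 3 (List.drop 3 (List.drop 3 (List.drop 3 (List.drop 3 (List.drop 3 (List.drop 3 (List.drop 3 (List.drop 3 (List.drop 3 (List.drop 3 (List.drop 3 (List.drop 3 (List.drop 3 (List.drop 3 (List.drop 3 (List.drop 3 (List.drop 3 (List.drop 3 (List.drop 3 (List.drop 3 (List.drop 3 (List.drop 3 (List.drop 3 (List.drop 3 (List.drop 3 (List.drop 3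 (List.drop 3 (List.drop 3 (List.drop 3 (List.drop 3 (List.drop 3 (List.drop 3 (List.drop 3 (List.drop 3 (List.drop 3 (List.drop 3 (List.drop 3 (List.drop 3 (List.drop 3 (List.drop 3 (List.drop 3 (List.drop 3 (List.drop 3 (List.drop 3 (List.drop 3 (List.drop 3 (List.drop 3 (List.drop 3 (List.drop 3 (List.drop 3 (List.drop 3 (List.drop 3 (List.drop 3 (List.drop 3 (List.drop 3 (List.drop 3 (List.drop 3 (List.drop 3 (List.drop 3 (List.drop 3 (List.drop 3 (List.drop 3 (List.drop 3 (List.drop 3 (List.drop 3 (List.drop 3 (List.drop 3 (List.drop 3 (List.drop 3 (List.drop 3 (List.drop 3 (List.drop 3 (List.drop 3 (List.drop 3 (List.drop 3 (frac)))))))))))))))))))))))))))))))))))))))))))))))))))))))))))))))))))))))))))))))))))))))))))))))))))))))))))))))))))))))))))).all (cfgOK sizes cap) = true := by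
  decide +kernel

theorem cfg_123 : (List.take 3 (List.drop 3 (List.drop 3 (List.drop 3 (List.drop 3 (List.drop 3 (List.drop 3 (List.drop 3 (List.drop 3 (List.drop 3 (List.drop 3 (List.drop 3 (List.drop 3 (List.drop 3 (List.drop 3 (List.drop 3 (List.drop 3 (List.drop 3 (List.drop 3 (List.drop 3 (List.drop 3 (List.drop 3 (List.drop 3 (List.drop 3 (List.drop 3 (List.drop 3 (List.drop 3 (List.drop 3 (List.drop 3 (List.drop 3 (List.drop 3 (List.drop 3 (List.drop 3 (List.drop 3 (List.drop 3 (List.drop 3 (List.drop 3 (List.drop 3 (List.drop 3 (List.drop 3 (List.drop 3 (List.drop 3 (List.drop 3 (List.drop 3 (List.drop 3 (List.drop 3 (List.drop 3 (List.drop 3 (List.drop 3 (List.drop 3 (List.drop 3 (List.drop 3 (List.drop 3 (List.drop 3 (List.drop 3 (List.drop 3 (List.drop 3 (List.drop 3 (List.drop 3 (List.drop 3 (List.drop 3 (List.drop 3 (List.drop 3 (List.drop 3 (List.drop 3 (List.drop 3 (List.drop 3 (List.drop 3 (List.drop 3 (List.drop 3 (List.drop 3 (List.drop 3 (List.drop 3 (List.drop 3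 (List.drop 3 (List.drop 3 (List.drop 3 (List.drop 3 (List.drop 3 (List.drop 3 (List.drop 3 (List.drop 3 (List.drop 3 (List.drop 3 (List.drop 3 (List.drop 3 (List.drop 3 (List.drop 3 (List.drop 3 (List.drop 3 (List.drop 3 (List.drop 3 (List.drop 3 (List.drop 3 (List.drop 3 (List.drop 3 (List.drop 3 (List.drop 3 (List.drop 3 (List.drop 3 (List.drop 3 (List.drop 3 (List.drop 3 (List.drop 3 (List.drop 3 (List.drop 3 (List.drop 3 (List.drop 3 (List.drop 3 (List.drop 3 (List.drop 3 (List.drop 3 (List.drop 3 (List.drop 3 (List.drop 3 (List.drop 3 (List.drop 3 (List.drop 3 (List.drop 3 (List.drop 3 (List.drop 3 (List.drop 3 (List.drop 3 (List.drop 3 (frac))))))))))))))))))))))))))))))))))))))))))))))))))))))))))))))))))))))))))))))))))))))))))))))))))))))))))))))))))))))))))))).all (cfgOK sizes cap) = true := by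
  decide +kernel

theorem cfg_124 : (List.take 3 (List.drop 3 (List.drop 3 (List.drop 3 (List.drop 3 (List.drop 3 (List.drop 3 (List.drop 3 (List.drop 3 (List.drop 3 (List.drop 3 (List.drop 3 (List.drop 3 (List.drop 3 (List.drop 3 (List.drop 3 (List.drop 3 (List.drop 3 (List.drop 3 (List.drop 3 (List.drop 3 (List.drop 3 (List.drop 3 (List.drop 3 (List.drop 3 (List.drop 3 (List.drop 3 (List.drop 3 (List.drop 3 (List.drop 3 (List.drop 3 (List.drop 3 (List.drop 3 (List.drop 3 (List.drop 3 (List.drop 3 (List.drop 3 (List.drop 3 (List.drop 3 (List.drop 3 (List.drop 3 (List.drop 3 (List.drop 3 (List.drop 3 (List.drop 3 (List.drop 3 (List.drop 3 (List.drop 3 (List.drop 3 (List.drop 3 (List.drop 3 (List.drop 3 (List.drop 3 (List.drop 3 (List.drop 3 (List.drop 3 (List.drop 3 (List.drop 3 (List.drop 3 (List.drop 3 (List.drop 3 (List.drop 3 (List.drop 3 (List.drop 3 (List.drop 3 (List.drop 3 (List.drop 3 (List.drop 3 (List.drop 3 (List.drop 3 (List.drop 3 (List.drop 3 (List.drop 3 (List.drop 3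 (List.drop 3 (List.drop 3 (List.drop 3 (List.drop 3 (List.drop 3 (List.drop 3 (List.drop 3 (List.drop 3 (List.drop 3 (List.drop 3 (List.drop 3 (List.drop 3 (List.drop 3 (List.drop 3 (List.drop 3 (List.drop 3 (List.drop 3 (List.drop 3 (List.drop 3 (List.drop 3 (List.drop 3 (List.drop 3 (List.drop 3 (List.drop 3 (List.drop 3 (List.drop 3 (List.drop 3 (List.drop 3 (List.drop 3 (List.drop 3 (List.drop 3 (List.drop 3 (List.drop 3 (List.drop 3 (List.drop 3 (List.drop 3 (List.drop 3 (List.drop 3 (List.drop 3 (List.drop 3 (List.drop 3 (List.drop 3 (List.drop 3 (List.drop 3 (List.drop 3 (List.drop 3 (List.drop 3 (List.drop 3 (List.drop 3 (List.drop 3 (List.drop 3 (frac)))))))))))))))))))))))))))))))))))))))))))))))))))))))))))))))))))))))))))))))))))))))))))))))))))))))))))))))))))))))))))))).all (cfgOK sizes cap) = true := by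
  decide +kernel

end Vale.Agent.Lib.P302.helper8.Th863
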