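import Mathlib
import Vale.Agent.Lib.P302.helper8.Th863.F0
import Vale.Agent.Lib.P302.helper8.Th863.F8

/-!
# P302: the fractional solution of the 863-item instance, checked in pieces (part 10)
-/

namespace Vale.Agent.Lib.P302.helper8.Th863

open Vale.Agent.Lib.P302.helper14 Vale.Agent.Lib.P302.helper8 Vale.Agent.Lib.P302.helper9

set_option maxRecDepth 8192

theorem cov_27 : (List.take 2 (List.drop 2 (List.drop 2 (List.drop 2 (List.drop 2 (List.drop 2 (List.drop 2 (List.drop 2 (List.drop 2 (List.drop 2 (List.drop 2 (List.drop 2 (List.drop 2 (List.drop 2 (List.drop 2 (List.drop 2 (List.drop 2 (List.drop 2 (List.drop 2 (List.drop 2 (List.drop 2 (List.drop 2 (List.drop 2 (List.drop 2 (List.drop 2 (List.drop 2 (List.drop 2 (List.drop 2 (sizes))))))))))))))))))))))))))))).all (covOK sizes 63700992 frac) = true := by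
  decide +kernel

theorem cov_28 : (List.take 2 (List.drop 2 (List.drop 2 (List.drop 2 (List.drop 2 (List.drop 2 (List.drop 2 (List.drop 2 (List.drop 2 (List.drop 2 (List.drop 2 (List.drop 2 (List.drop 2 (List.drop 2 (List.drop 2 (List.drop 2 (List.drop 2 (List.drop 2 (List.drop 2 (List.drop 2 (List.drop 2 (List.drop 2 (List.drop 2 (List.drop 2 (List.drop 2 (List.drop 2 (List.drop 2 (List.drop 2 (List.drop 2 (sizes)))))))))))))))))))))))))))))).all (covOK sizes 63700992 frac) = true := by
  decide +kernel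

theorem cov_29 : (List.take 2 (List.drop 2 (List.drop 2 (List.drop 2 (List.drop 2 (List.drop 2 (List.drop 2 (List.drop 2 (List.drop 2 (List.drop 2 (List.drop 2 (List.drop 2 (List.drop 2 (List.drop 2 (List.drop 2 (List.drop 2 (List.drop 2 (List.drop 2 (List.drop 2 (List.drop 2 (List.drop 2 (List.drop 2 (List.drop 2 (List.drop 2 (List.drop 2 (List.drop 2 (List.drop 2 (List.drop 2 (List.drop 2 (List.drop 2 (sizes))))))))))))))))))))))))))))))).all (covOK sizes 63700992 frac) = true := by
  decide +kernel

theorem cov_30 : (List.take 2 (List.drop 2 (List.drop 2 (List.drop 2 (List.drop 2 (List.drop 2 (List.drop 2 (List.drop 2 (List.drop 2 (List.drop 2 (List.drop 2 (List.drop 2 (List.drop 2 (List.drop 2 (List.drop 2 (List.drop 2 (List.drop 2 (List.drop 2 (List.drop 2 (List.drop 2 (List.drop 2 (List.drop 2 (List.drop 2 (List.drop 2 (List.drop 2 (List.drop 2 (List.drop 2 (List.drop 2 (List.drop 2 (List.drop 2 (List.drop 2 (sizes)))))))))))))))))))))))))))))))).all (covOK sizes 63700992 frac) = true := by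
  decide +kernel

theorem cov_31 : (List.take 2 (List.drop 2 (List.drop 2 (List.drop 2 (List.drop 2 (List.drop 2 (List.drop 2 (List.drop 2 (List.drop 2 (List.drop 2 (List.drop 2 (List.drop 2 (List.drop 2 (List.drop 2 (List.drop 2 (List.drop 2 (List.drop 2 (List.drop 2 (List.drop 2 (List.drop 2 (List.drop 2 (List.drop 2 (List.drop 2 (List.drop 2 (List.drop 2 (List.drop 2 (List.drop 2 (List.drop 2 (List.drop 2 (List.drop 2 (List.drop 2 (List.drop 2 (sizes))))))))))))))))))))))))))))))))).all (covOK sizes 63700992 frac) = true := by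
  decide +kernel

theorem cov_32 : (List.take 2 (List.drop 2 (List.drop 2 (List.drop 2 (List.drop 2 (List.drop 2 (List.drop 2 (List.drop 2 (List.drop 2 (List.drop 2 (List.drop 2 (List.drop 2 (List.drop 2 (List.drop 2 (List.drop 2 (List.drop 2 (List.drop 2 (List.drop 2 (List.drop 2 (List.drop 2 (List.drop 2 (List.drop 2 (List.drop 2 (List.drop 2 (List.drop 2 (List.drop 2 (List.drop 2 (List.drop 2 (List.drop 2 (List.drop 2 (List.drop 2 (List.drop 2 (List.drop 2 (sizes)))))))))))))))))))))))))))))))))).all (covOK sizes 63700992 frac) = true := by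
  decide +kernel

theorem cov_33 : (List.take 2 (List.drop 2 (List.drop 2 (List.drop 2 (List.drop 2 (List.drop 2 (List.drop 2 (List.drop 2 (List.drop 2 (List.drop 2 (List.drop 2 (List.drop 2 (List.drop 2 (List.drop 2 (List.drop 2 (List.drop 2 (List.drop 2 (List.drop 2 (List.drop 2 (List.drop 2 (List.drop 2 (List.drop 2 (List.drop 2 (List.drop 2 (List.drop 2 (List.drop 2 (List.drop 2 (List.drop 2 (List.drop 2 (List.drop 2 (List.drop 2 (List.drop 2 (List.drop 2 (List.drop 2 (sizes))))))))))))))))))))))))))))))))))).all (covOK sizes 63700992 frac) = true := by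
  decide +kernel

theorem cov_34 : (List.take 2 (List.drop 2 (List.drop 2 (List.drop 2 (List.drop 2 (List.drop 2 (List.drop 2 (List.drop 2 (List.drop 2 (List.drop 2 (List.drop 2 (List.drop 2 (List.drop 2 (List.drop 2 (List.drop 2 (List.drop 2 (List.drop 2 (List.drop 2 (List.drop 2 (List.drop 2 (List.drop 2 (List.drop 2 (List.drop 2 (List.drop 2 (List.drop 2 (List.drop 2 (List.drop 2 (List.drop 2 (List.drop 2 (List.drop 2 (List.drop 2 (List.drop 2 (List.drop 2 (List.drop 2 (List.drop 2 (sizes)))))))))))))))))))))))))))))))))))).all (covOK sizes 63700992 frac) = true := by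
  decide +kernel

theorem cov_35 : (List.take 2 (List.drop 2 (List.drop 2 (List.drop 2 (List.drop 2 (List.drop 2 (List.drop 2 (List.drop 2 (List.drop 2 (List.drop 2 (List.drop 2 (List.drop 2 (List.drop 2 (List.drop 2 (List.drop 2 (List.drop 2 (List.drop 2 (List.drop 2 (List.drop 2 (List.drop 2 (List.drop 2 (List.drop 2 (List.drop 2 (List.drop 2 (List.drop 2 (List.drop 2 (List.drop 2 (List.drop 2 (List.drop 2 (List.drop 2 (List.drop 2 (List.drop 2 (List.drop 2 (List.drop 2 (List.drop 2 (List.drop 2 (sizes))))))))))))))))))))))))))))))))))))).all (covOK sizes 63700992 frac) = true := by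
  decide +kernel

theorem cov_36 : (List.take 2 (List.drop 2 (List.drop 2 (List.drop 2 (List.drop 2 (List.drop 2 (List.drop 2 (List.drop 2 (List.drop 2 (List.drop 2 (List.drop 2 (List.drop 2 (List.drop 2 (List.drop 2 (List.drop 2 (List.drop 2 (List.drop 2 (List.drop 2 (List.drop 2 (List.drop 2 (List.drop 2 (List.drop 2 (List.drop 2 (List.drop 2 (List.drop 2 (List.drop 2 (List.drop 2 (List.drop 2 (List.drop 2 (List.drop 2 (List.drop 2 (List.drop 2 (List.drop 2 (List.drop 2 (List.drop 2 (List.drop 2 (List.drop 2 (sizes)))))))))))))))))))))))))))))))))))))).all (covOK sizes 63700992 frac) = true := by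
  decide +kernel

theorem cov_37 : (List.take 2 (List.drop 2 (List.drop 2 (List.drop 2 (List.drop 2 (List.drop 2 (List.drop 2 (List.drop 2 (List.drop 2 (List.drop 2 (List.drop 2 (List.drop 2 (List.drop 2 (List.drop 2 (List.drop 2 (List.drop 2 (List.drop 2 (List.drop 2 (List.drop 2 (List.drop 2 (List.drop 2 (List.drop 2 (List.drop 2 (List.drop 2 (List.drop 2 (List.drop 2 (List.drop 2 (List.drop 2 (List.drop 2 (List.drop 2 (List.drop 2 (List.drop 2 (List.drop 2 (List.drop 2 (List.drop 2 (List.drop 2 (List.drop 2 (List.drop 2 (sizes))))))))))))))))))))))))))))))))))))))).all (covOK sizes 63700992 frac) = true := by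
  decide +kernel

theorem cov_38 : (List.take 2 (List.drop 2 (List.drop 2 (List.drop 2 (List.drop 2 (List.drop 2 (List.drop 2 (List.drop 2 (List.drop 2 (List.drop 2 (List.drop 2 (List.drop 2 (List.drop 2 (List.drop 2 (List.drop 2 (List.drop 2 (List.drop 2 (List.drop 2 (List.drop 2 (List.drop 2 (List.drop 2 (List.drop 2 (List.drop 2 (List.drop 2 (List.drop 2 (List.drop 2 (List.drop 2 (List.drop 2 (List.drop 2 (List.drop 2 (List.drop 2 (List.drop 2 (List.drop 2 (List.drop 2 (List.drop 2 (List.drop 2 (List.drop 2 (List.drop 2 (List.drop 2 (sizes)))))))))))))))))))))))))))))))))))))))).all (covOK sizes 63700992 frac) = true := by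
  decide +kernel

theorem cov_39 : (List.take 2 (List.drop 2 (List.drop 2 (List.drop 2 (List.drop 2 (List.drop 2 (List.drop 2 (List.drop 2 (List.drop 2 (List.drop 2 (List.drop 2 (List.drop 2 (List.drop 2 (List.drop 2 (List.drop 2 (List.drop 2 (List.drop 2 (List.drop 2 (List.drop 2 (List.drop 2 (List.drop 2 (List.drop 2 (List.drop 2 (List.drop 2 (List.drop 2 (List.drop 2 (List.drop 2 (List.drop 2 (List.drop 2 (List.drop 2 (List.drop 2 (List.drop 2 (List.drop 2 (List.drop 2 (List.drop 2 (List.drop 2 (List.drop 2 (List.drop 2 (List.drop 2 (List.drop 2 (sizes))))))))))))))))))))))))))))))))))))))))).all (covOK sizes 63700992 frac) = true := by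
  decide +kernel

theorem cov_40 : (List.take 2 (List.drop 2 (List.drop 2 (List.drop 2 (List.drop 2 (List.drop 2 (List.drop 2 (List.drop 2 (List.drop 2 (List.drop 2 (List.drop 2 (List.drop 2 (List.drop 2 (List.drop 2 (List.drop 2 (List.drop 2 (List.drop 2 (List.drop 2 (List.drop 2 (List.drop 2 (List.drop 2 (List.drop 2 (List.drop 2 (List.drop 2 (List.drop 2 (List.drop 2 (List.drop 2 (List.drop 2 (List.drop 2 (List.drop 2 (List.drop 2 (List.drop 2 (List.drop 2 (List.drop 2 (List.drop 2 (List.drop 2 (List.drop 2 (List.drop 2 (List.drop 2 (List.drop 2 (List.drop 2 (sizes)))))))))))))))))))))))))))))))))))))))))).all (covOK sizes 63700992 frac) = true := by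
  decide +kernel

theorem cov_41 : (List.take 2 (List.drop 2 (List.drop 2 (List.drop 2 (List.drop 2 (List.drop 2 (List.drop 2 (List.drop 2 (List.drop 2 (List.drop 2 (List.drop 2 (List.drop 2 (List.drop 2 (List.drop 2 (List.drop 2 (List.drop 2 (List.drop 2 (List.drop 2 (List.drop 2 (List.drop 2 (List.drop 2 (List.drop 2 (List.drop 2 (List.drop 2 (List.drop 2 (List.drop 2 (List.drop 2 (List.drop 2 (List.drop 2 (List.drop 2 (List.drop 2 (List.drop 2 (List.drop 2 (List.drop 2 (List.drop 2 (List.drop 2 (List.drop 2 (List.drop 2 (List.drop 2 (List.drop 2 (List.drop 2 (List.drop 2 (sizes))))))))))))))))))))))))))))))))))))))))))).all (covOK sizes 63700992 frac) = true := by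
  decide +kernel

theorem cov_42 : (List.take 2 (List.drop 2 (List.drop 2 (List.drop 2 (List.drop 2 (List.drop 2 (List.drop 2 (List.drop 2 (List.drop 2 (List.drop 2 (List.drop 2 (List.drop 2 (List.drop 2 (List.drop 2 (List.drop 2 (List.drop 2 (List.drop 2 (List.drop 2 (List.drop 2 (List.drop 2 (List.drop 2 (List.drop 2 (List.drop 2 (List.drop 2 (List.drop 2 (List.drop 2 (List.drop 2 (List.drop 2 (List.drop 2 (List.drop 2 (List.drop 2 (List.drop 2 (List.drop 2 (List.drop 2 (List.drop 2 (List.drop 2 (List.drop 2 (List.drop 2 (List.drop 2 (List.drop 2 (List.drop 2 (List.drop 2 (List.drop 2 (sizes)))))))))))))))))))))))))))))))))))))))))))).all (covOK sizes 63700992 frac) = true := by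
  decide +kernel

theorem cov_43 : (List.take 2 (List.drop 2 (List.drop 2 (List.drop 2 (List.drop 2 (List.drop 2 (List.drop 2 (List.drop 2 (List.drop 2 (List.drop 2 (List.drop 2 (List.drop 2 (List.drop 2 (List.drop 2 (List.drop 2 (List.drop 2 (List.drop 2 (List.drop 2 (List.drop 2 (List.drop 2 (List.drop 2 (List.drop 2 (List.drop 2 (List.drop 2 (List.drop 2 (List.drop 2 (List.drop 2 (List.drop 2 (List.drop 2 (List.drop 2 (List.drop 2 (List.drop 2 (List.drop 2 (List.drop 2 (List.drop 2 (List.drop 2 (List.drop 2 (List.drop 2 (List.drop 2 (List.drop 2 (List.drop 2 (List.drop 2 (List.drop 2 (List.drop 2 (sizes))))))))))))))))))))))))))))))))))))))))))))).all (covOK sizes 63700992 frac) = true := by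
  decide +kernel

theorem cov_44 : (List.take 2 (List.drop 2 (List.drop 2 (List.drop 2 (List.drop 2 (List.drop 2 (List.drop 2 (List.drop 2 (List.drop 2 (List.drop 2 (List.drop 2 (List.drop 2 (List.drop 2 (List.drop 2 (List.drop 2 (List.drop 2 (List.drop 2 (List.drop 2 (List.drop 2 (List.drop 2 (List.drop 2 (List.drop 2 (List.drop 2 (List.drop 2 (List.drop 2 (List.drop 2 (List.drop 2 (List.drop 2 (List.drop 2 (List.drop 2 (List.drop 2 (List.drop 2 (List.drop 2 (List.drop 2 (List.drop 2 (List.drop 2 (List.drop 2 (List.drop 2 (List.drop 2 (List.drop 2 (List.drop 2 (List.drop 2 (List.drop 2 (List.drop 2 (List.drop 2 (sizes)))))))))))))))))))))))))))))))))))))))))))))).all (covOK sizes 63700992 frac) = true := by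
  decide +kernel

theorem cov_45 : (List.take 2 (List.drop 2 (List.drop 2 (List.drop 2 (List.drop 2 (List.drop 2 (List.drop 2 (List.drop 2 (List.drop 2 (List.drop 2 (List.drop 2 (List.drop 2 (List.drop 2 (List.drop 2 (List.drop 2 (List.drop 2 (List.drop 2 (List.drop 2 (List.drop 2 (List.drop 2 (List.drop 2 (List.drop 2 (List.drop 2 (List.drop 2 (List.drop 2 (List.drop 2 (List.drop 2 (List.drop 2 (List.drop 2 (List.drop 2 (List.drop 2 (List.drop 2 (List.drop 2 (List.drop 2 (List.drop 2 (List.drop 2 (List.drop 2 (List.drop 2 (List.drop 2 (List.drop 2 (List.drop 2 (List.drop 2 (List.drop 2 (List.drop 2 (List.drop 2 (List.drop 2 (sizes))))))))))))))))))))))))))))))))))))))))))))))).all (covOK sizes 63700992 frac) = true := by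
  decide +kernel

theorem cov_46 : (List.take 2 (List.drop 2 (List.drop 2 (List.drop 2 (List.drop 2 (List.drop 2 (List.drop 2 (List.drop 2 (List.drop 2 (List.drop 2 (List.drop 2 (List.drop 2 (List.drop 2 (List.drop 2 (List.drop 2 (List.drop 2 (List.drop 2 (List.drop 2 (List.drop 2 (List.drop 2 (List.drop 2 (List.drop 2 (List.drop 2 (List.drop 2 (List.drop 2 (List.drop 2 (List.drop 2 (List.drop 2 (List.drop 2 (List.drop 2 (List.drop 2 (List.drop 2 (List.drop 2 (List.drop 2 (List.drop 2 (List.drop 2 (List.drop 2 (List.drop 2 (List.drop 2 (List.drop 2 (List.drop 2 (List.drop 2 (List.drop 2 (List.drop 2 (List.drop 2 (List.drop 2 (List.drop 2 (sizes)))))))))))))))))))))))))))))))))))))))))))))))).all (covOK sizes 63700992 frac) = true := by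
  decide +kernel

theorem cov_47 : (List.take 2 (List.drop 2 (List.drop 2 (List.drop 2 (List.drop 2 (List.drop 2 (List.drop 2 (List.drop 2 (List.drop 2 (List.drop 2 (List.drop 2 (List.drop 2 (List.drop 2 (List.drop 2 (List.drop 2 (List.drop 2 (List.drop 2 (List.drop 2 (List.drop 2 (List.drop 2 (List.drop 2 (List.drop 2 (List.drop 2 (List.drop 2 (List.drop 2 (List.drop 2 (List.drop 2 (List.drop 2 (List.drop 2 (List.drop 2 (List.drop 2 (List.drop 2 (List.drop 2 (List.drop 2 (List.drop 2 (List.drop 2 (List.drop 2 (List.drop 2 (List.drop 2 (List.drop 2 (List.drop 2 (List.drop 2 (List.drop 2 (List.drop 2 (List.drop 2 (List.drop 2 (List.drop 2 (List.drop 2 (sizes))))))))))))))))))))))))))))))))))))))))))))))))).all (covOK sizes 63700992 frac) = true := by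
  decide +kernel

theorem cov_48 : (List.take 2 (List.drop 2 (List.drop 2 (List.drop 2 (List.drop 2 (List.drop 2 (List.drop 2 (List.drop 2 (List.drop 2 (List.drop 2 (List.drop 2 (List.drop 2 (List.drop 2 (List.drop 2 (List.drop 2 (List.drop 2 (List.drop 2 (List.drop 2 (List.drop 2 (List.drop 2 (List.drop 2 (List.drop 2 (List.drop 2 (List.drop 2 (List.drop 2 (List.drop 2 (List.drop 2 (List.drop 2 (List.drop 2 (List.drop 2 (List.drop 2 (List.drop 2 (List.drop 2 (List.drop 2 (List.drop 2 (List.drop 2 (List.drop 2 (List.drop 2 (List.drop 2 (List.drop 2 (List.drop 2 (List.drop 2 (List.drop 2 (List.drop 2 (List.drop 2 (List.drop 2 (List.drop 2 (List.drop 2 (List.drop 2 (sizes)))))))))))))))))))))))))))))))))))))))))))))))))).all (covOK sizes 63700992 frac) = true := by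
  decide +kernel

theorem cov_49 : (List.take 2 (List.drop 2 (List.drop 2 (List.drop 2 (List.drop 2 (List.drop 2 (List.drop 2 (List.drop 2 (List.drop 2 (List.drop 2 (List.drop 2 (List.drop 2 (List.drop 2 (List.drop 2 (List.drop 2 (List.drop 2 (List.drop 2 (List.drop 2 (List.drop 2 (List.drop 2 (List.drop 2 (List.drop 2 (List.drop 2 (List.drop 2 (List.drop 2 (List.drop 2 (List.drop 2 (List.drop 2 (List.drop 2 (List.drop 2 (List.drop 2 (List.drop 2 (List.drop 2 (List.drop 2 (List.drop 2 (List.drop 2 (List.drop 2 (List.drop 2 (List.drop 2 (List.drop 2 (List.drop 2 (List.drop 2 (List.drop 2 (List.drop 2 (List.drop 2 (List.drop 2 (List.drop 2 (List.drop 2 (List.drop 2 (List.drop 2 (sizes))))))))))))))))))))))))))))))))))))))))))))))))))).all (covOK sizes 63700992 frac) = true := by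
  decide +kernel

theorem cov_50 : (List.take 2 (List.drop 2 (List.drop 2 (List.drop 2 (List.drop 2 (List.drop 2 (List.drop 2 (List.drop 2 (List.drop 2 (List.drop 2 (List.drop 2 (List.drop 2 (List.drop 2 (List.drop 2 (List.drop 2 (List.drop 2 (List.drop 2 (List.drop 2 (List.drop 2 (List.drop 2 (List.drop 2 (List.drop 2 (List.drop 2 (List.drop 2 (List.drop 2 (List.drop 2 (List.drop 2 (List.drop 2 (List.drop 2 (List.drop 2 (List.drop 2 (List.drop 2 (List.drop 2 (List.drop 2 (List.drop 2 (List.drop 2 (List.drop 2 (List.drop 2 (List.drop 2 (List.drop 2 (List.drop 2 (List.drop 2 (List.drop 2 (List.drop 2 (List.drop 2 (List.drop 2 (List.drop 2 (List.drop 2 (List.drop 2 (List.drop 2 (List.drop 2 (sizes)))))))))))))))))))))))))))))))))))))))))))))))))))).all (covOK sizes 63700992 frac) = true := by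
  decide +kernel

theorem cov_51 : (List.take 2 (List.drop 2 (List.drop 2 (List.drop 2 (List.drop 2 (List.drop 2 (List.drop 2 (List.drop 2 (List.drop 2 (List.drop 2 (List.drop 2 (List.drop 2 (List.drop 2 (List.drop 2 (List.drop 2 (List.drop 2 (List.drop 2 (List.drop 2 (List.drop 2 (List.drop 2 (List.drop 2 (List.drop 2 (List.drop 2 (List.drop 2 (List.drop 2 (List.drop 2 (List.drop 2 (List.drop 2 (List.drop 2 (List.drop 2 (List.drop 2 (List.drop 2 (List.drop 2 (List.drop 2 (List.drop 2 (List.drop 2 (List.drop 2 (List.drop 2 (List.drop 2 (List.drop 2 (List.drop 2 (List.drop 2 (List.drop 2 (List.drop 2 (List.drop 2 (List.drop 2 (List.drop 2 (List.drop 2 (List.drop 2 (List.drop 2 (List.drop 2 (List.drop 2 (sizes))))))))))))))))))))))))))))))))))))))))))))))))))))).all (covOK sizes 63700992 frac) = true := by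
  decide +kernel

end Vale.Agent.Lib.P302.helper8.Th863
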