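import Mathlib
import Vale.Agent.Lib.P302.helper8.Th863.F0
import Vale.Agent.Lib.P302.helper8.Th863.F1

/-!
# P302: the fractional solution of the 863-item instance, checked in pieces (part 3)
-/

namespace Vale.Agent.Lib.P302.helper8.Th863

open Vale.Agent.Lib.P302.helper14 Vale.Agent.Lib.P302.helper8 Vale.Agent.Lib.P302.helper9

set_option maxRecDepth 8192

theorem cfg_75 : (List.take 3 (List.drop 3 (List.drop 3 (List.drop 3 (List.drop 3 (List.drop 3 (List.drop 3 (List.drop 3 (List.drop 3 (List.drop 3 (List.drop 3 (List.drop 3 (List.drop 3 (List.drop 3 (List.drop 3 (List.drop 3 (List.drop 3 (List.drop 3 (List.drop 3 (List.drop 3 (List.drop 3 (List.drop 3 (List.drop 3 (List.drop 3 (List.drop 3 (List.drop 3 (List.drop 3 (List.drop 3 (List.drop 3 (List.drop 3 (List.drop 3 (List.drop 3 (List.drop 3 (List.drop 3 (List.drop 3 (List.drop 3 (List.drop 3 (List.drop 3 (List.drop 3 (List.drop 3 (List.drop 3 (List.drop 3 (List.drop 3 (List.drop 3 (List.drop 3 (List.drop 3 (List.drop 3 (List.drop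 3 (List.drop 3 (List.drop 3 (List.drop 3 (List.drop 3 (List.drop 3 (List.drop 3 (List.drop 3 (List.drop 3 (List.drop 3 (List.drop 3 (List.drop 3 (List.drop 3 (List.drop 3 (List.drop 3 (List.drop 3 (List.drop 3 (List.drop 3 (List.drop 3 (List.drop 3 (List.drop 3 (List.drop 3 (List.drop 3 (List.drop 3 (List.drop 3 (List.drop 3 (List.drop 3 (List.drop 3 (List.drop 3 (frac))))))))))))))))))))))))))))))))))))))))))))))))))))))))))))))))))))))))))))).all (cfgOK sizes cap) = true := by
  decide +kernel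

theorem cfg_76 : (List.take 3 (List.drop 3 (List.drop 3 (List.drop 3 (List.drop 3 (List.drop 3 (List.drop 3 (List.drop 3 (List.drop 3 (List.drop 3 (List.drop 3 (List.drop 3 (List.drop 3 (List.drop 3 (List.drop 3 (List.drop 3 (List.drop 3 (List.drop 3 (List.drop 3 (List.drop 3 (List.drop 3 (List.drop 3 (List.drop 3 (List.drop 3 (List.drop 3 (List.drop 3 (List.drop 3 (List.drop 3 (List.drop 3 (List.drop 3 (List.drop 3 (List.drop 3 (List.drop 3 (List.drop 3 (List.drop 3 (List.drop 3 (List.drop 3 (List.drop 3 (List.drop 3 (List.drop 3 (List.drop 3 (List.drop 3 (List.drop 3 (List.drop 3 (List.drop 3 (List.drop 3 (List.drop 3 (List.drop 3 (List.drop 3 (List.drop 3 (List.drop 3 (List.drop 3 (List.drop 3 (List.drop 3 (List.drop 3 (List.drop 3 (List.drop 3 (List.drop 3 (List.drop 3 (List.drop 3 (List.drop 3 (List.drop 3 (List.drop 3 (List.drop 3 (List.drop 3 (List.drop 3 (List.drop 3 (List.drop 3 (List.drop 3 (List.drop 3 (List.drop 3 (List.drop 3 (List.drop 3 (List.drop 3 (List.drop 3 (List.drop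 3 (List.drop 3 (frac)))))))))))))))))))))))))))))))))))))))))))))))))))))))))))))))))))))))))))))).all (cfgOK sizes cap) = true := by
  decide +kernel

theorem cfg_77 : (List.take 3 (List.drop 3 (List.drop 3 (List.drop 3 (List.drop 3 (List.drop 3 (List.drop 3 (List.drop 3 (List.drop 3 (List.drop 3 (List.drop 3 (List.drop 3 (List.drop 3 (List.drop 3 (List.drop 3 (List.drop 3 (List.drop 3 (List.drop 3 (List.drop 3 (List.drop 3 (List.drop 3 (List.drop 3 (List.drop 3 (List.drop 3 (List.drop 3 (List.drop 3 (List.drop 3 (List.drop 3 (List.drop 3 (List.drop 3 (List.drop 3 (List.drop 3 (List.drop 3 (List.drop 3 (List.drop 3 (List.drop 3 (List.drop 3 (List.drop 3 (List.drop 3 (List.drop 3 (List.drop 3 (List.drop 3 (List.drop 3 (List.drop 3 (List.drop 3 (List.drop 3 (List.drop 3 (List.drop 3 (List.drop 3 (List.drop 3 (List.drop 3 (List.drop 3 (List.drop 3 (List.drop 3 (List.drop 3 (List.drop 3 (List.drop 3 (List.drop 3 (List.drop 3 (List.drop 3 (List.drop 3 (List.drop 3 (List.drop 3 (List.drop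 3 (List.drop 3 (List.drop 3 (List.drop 3 (List.drop 3 (List.drop 3 (List.drop 3 (List.drop 3 (List.drop 3 (List.drop 3 (List.drop 3 (List.drop 3 (List.drop 3 (List.drop 3 (List.drop 3 (frac))))))))))))))))))))))))))))))))))))))))))))))))))))))))))))))))))))))))))))))).all (cfgOK sizes cap) = true := by
  decide +kernel

theorem cfg_78 : (List.take 3 (List.drop 3 (List.drop 3 (List.drop 3 (List.drop 3 (List.drop 3 (List.drop 3 (List.drop 3 (List.drop 3 (List.drop 3 (List.drop 3 (List.drop 3 (List.drop 3 (List.drop 3 (List.drop 3 (List.drop 3 (List.drop 3 (List.drop 3 (List.drop 3 (List.drop 3 (List.drop 3 (List.drop 3 (List.drop 3 (List.drop 3 (List.drop 3 (List.drop 3 (List.drop 3 (List.drop 3 (List.drop 3 (List.drop 3 (List.drop 3 (List.drop 3 (List.drop 3 (List.drop 3 (List.drop 3 (List.drop 3 (List.drop 3 (List.drop 3 (List.drop 3 (List.drop 3 (List.drop 3 (List.drop 3 (List.drop 3 (List.drop 3 (List.drop 3 (List.drop 3 (List.drop 3 (List.drop 3 (List.drop 3 (List.drop 3 (List.drop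 3 (List.drop 3 (List.drop 3 (List.drop 3 (List.drop 3 (List.drop 3 (List.drop 3 (List.drop 3 (List.drop 3 (List.drop 3 (List.drop 3 (List.drop 3 (List.drop 3 (List.drop 3 (List.drop 3 (List.drop 3 (List.drop 3 (List.drop 3 (List.drop 3 (List.drop 3 (List.drop 3 (List.drop 3 (List.drop 3 (List.drop 3 (List.drop 3 (List.drop 3 (List.drop 3 (List.drop 3 (List.drop 3 (frac)))))))))))))))))))))))))))))))))))))))))))))))))))))))))))))))))))))))))))))))).all (cfgOK sizes cap) = true := by
  decide +kernel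

theorem cfg_79 : (List.take 3 (List.drop 3 (List.drop 3 (List.drop 3 (List.drop 3 (List.drop 3 (List.drop 3 (List.drop 3 (List.drop 3 (List.drop 3 (List.drop 3 (List.drop 3 (List.drop 3 (List.drop 3 (List.drop 3 (List.drop 3 (List.drop 3 (List.drop 3 (List.drop 3 (List.drop 3 (List.drop 3 (List.drop 3 (List.drop 3 (List.drop 3 (List.drop 3 (List.drop 3 (List.drop 3 (List.drop 3 (List.drop 3 (List.drop 3 (List.drop 3 (List.drop 3 (List.drop 3 (List.drop 3 (List.drop 3 (List.drop 3 (List.drop 3 (List.drop 3 (List.drop 3 (List.drop 3 (List.drop 3 (List.drop 3 (List.drop 3 (List.drop 3 (List.drop 3 (List.drop 3 (List.drop 3 (List.drop 3 (List.drop 3 (List.drop 3 (List.drop 3 (List.drop 3 (List.drop 3 (List.drop 3 (List.drop 3 (List.drop 3 (List.drop 3 (List.drop 3 (List.drop 3 (List.drop 3 (List.drop 3 (List.drop 3 (List.drop 3 (List.drop 3 (List.drop 3 (List.drop 3 (List.drop 3 (List.drop 3 (List.drop 3 (List.drop 3 (List.drop 3 (List.drop 3 (List.drop 3 (List.drop 3 (List.drop 3 (List.drop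 3 (List.drop 3 (List.drop 3 (List.drop 3 (List.drop 3 (frac))))))))))))))))))))))))))))))))))))))))))))))))))))))))))))))))))))))))))))))))).all (cfgOK sizes cap) = true := by
  decide +kernel

theorem cfg_80 : (List.take 3 (List.drop 3 (List.drop 3 (List.drop 3 (List.drop 3 (List.drop 3 (List.drop 3 (List.drop 3 (List.drop 3 (List.drop 3 (List.drop 3 (List.drop 3 (List.drop 3 (List.drop 3 (List.drop 3 (List.drop 3 (List.drop 3 (List.drop 3 (List.drop 3 (List.drop 3 (List.drop 3 (List.drop 3 (List.drop 3 (List.drop 3 (List.drop 3 (List.drop 3 (List.drop 3 (List.drop 3 (List.drop 3 (List.drop 3 (List.drop 3 (List.drop 3 (List.drop 3 (List.drop 3 (List.drop 3 (List.drop 3 (List.drop 3 (List.drop 3 (List.drop 3 (List.drop 3 (List.drop 3 (List.drop 3 (List.drop 3 (List.drop 3 (List.drop 3 (List.drop 3 (List.drop 3 (List.drop 3 (List.drop 3 (List.drop 3 (List.drop 3 (List.drop 3 (List.drop 3 (List.drop 3 (List.drop 3 (List.drop 3 (List.drop 3 (List.drop 3 (List.drop 3 (List.drop 3 (List.drop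 3 (List.drop 3 (List.drop 3 (List.drop 3 (List.drop 3 (List.drop 3 (List.drop 3 (List.drop 3 (List.drop 3 (List.drop 3 (List.drop 3 (List.drop 3 (List.drop 3 (List.drop 3 (List.drop 3 (List.drop 3 (List.drop 3 (List.drop 3 (List.drop 3 (List.drop 3 (List.drop 3 (frac)))))))))))))))))))))))))))))))))))))))))))))))))))))))))))))))))))))))))))))))))).all (cfgOK sizes cap) = true := by
  decide +kernel

theorem cfg_81 : (List.take 3 (List.drop 3 (List.drop 3 (List.drop 3 (List.drop 3 (List.drop 3 (List.drop 3 (List.drop 3 (List.drop 3 (List.drop 3 (List.drop 3 (List.drop 3 (List.drop 3 (List.drop 3 (List.drop 3 (List.drop 3 (List.drop 3 (List.drop 3 (List.drop 3 (List.drop 3 (List.drop 3 (List.drop 3 (List.drop 3 (List.drop 3 (List.drop 3 (List.drop 3 (List.drop 3 (List.drop 3 (List.drop 3 (List.drop 3 (List.drop 3 (List.drop 3 (List.drop 3 (List.drop 3 (List.drop 3 (List.drop 3 (List.drop 3 (List.drop 3 (List.drop 3 (List.drop 3 (List.drop 3 (List.drop 3 (List.drop 3 (List.drop 3 (List.drop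 3 (List.drop 3 (List.drop 3 (List.drop 3 (List.drop 3 (List.drop 3 (List.drop 3 (List.drop 3 (List.drop 3 (List.drop 3 (List.drop 3 (List.drop 3 (List.drop 3 (List.drop 3 (List.drop 3 (List.drop 3 (List.drop 3 (List.drop 3 (List.drop 3 (List.drop 3 (List.drop 3 (List.drop 3 (List.drop 3 (List.drop 3 (List.drop 3 (List.drop 3 (List.drop 3 (List.drop 3 (List.drop 3 (List.drop 3 (List.drop 3 (List.drop 3 (List.drop 3 (List.drop 3 (List.drop 3 (List.drop 3 (List.drop 3 (List.drop 3 (frac))))))))))))))))))))))))))))))))))))))))))))))))))))))))))))))))))))))))))))))))))).all (cfgOK sizes cap) = true := by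
  decide +kernel

theorem cfg_82 : (List.take 3 (List.drop 3 (List.drop 3 (List.drop 3 (List.drop 3 (List.drop 3 (List.drop 3 (List.drop 3 (List.drop 3 (List.drop 3 (List.drop 3 (List.drop 3 (List.drop 3 (List.drop 3 (List.drop 3 (List.drop 3 (List.drop 3 (List.drop 3 (List.drop 3 (List.drop 3 (List.drop 3 (List.drop 3 (List.drop 3 (List.drop 3 (List.drop 3 (List.drop 3 (List.drop 3 (List.drop 3 (List.drop 3 (List.drop 3 (List.drop 3 (List.drop 3 (List.drop 3 (List.drop 3 (List.drop 3 (List.drop 3 (List.drop 3 (List.drop 3 (List.drop 3 (List.drop 3 (List.drop 3 (List.drop 3 (List.drop 3 (List.drop 3 (List.drop 3 (List.drop 3 (List.drop 3 (List.drop 3 (List.drop 3 (List.drop 3 (List.drop 3 (List.drop 3 (List.drop 3 (List.drop 3 (List.drop 3 (List.drop 3 (List.drop 3 (List.drop 3 (List.drop 3 (List.drop 3 (List.drop 3 (List.drop 3 (List.drop 3 (List.drop 3 (List.drop 3 (List.drop 3 (List.drop 3 (List.drop 3 (List.drop 3 (List.drop 3 (List.drop 3 (List.drop 3 (List.drop 3 (List.drop 3 (List.drop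 3 (List.drop 3 (List.drop 3 (List.drop 3 (List.drop 3 (List.drop 3 (List.drop 3 (List.drop 3 (List.drop 3 (frac)))))))))))))))))))))))))))))))))))))))))))))))))))))))))))))))))))))))))))))))))))).all (cfgOK sizes cap) = true := by
  decide +kernel

theorem cfg_83 : (List.take 3 (List.drop 3 (List.drop 3 (List.drop 3 (List.drop 3 (List.drop 3 (List.drop 3 (List.drop 3 (List.drop 3 (List.drop 3 (List.drop 3 (List.drop 3 (List.drop 3 (List.drop 3 (List.drop 3 (List.drop 3 (List.drop 3 (List.drop 3 (List.drop 3 (List.drop 3 (List.drop 3 (List.drop 3 (List.drop 3 (List.drop 3 (List.drop 3 (List.drop 3 (List.drop 3 (List.drop 3 (List.drop 3 (List.drop 3 (List.drop 3 (List.drop 3 (List.drop 3 (List.drop 3 (List.drop 3 (List.drop 3 (List.drop 3 (List.drop 3 (List.drop 3 (List.drop 3 (List.drop 3 (List.drop 3 (List.drop 3 (List.drop 3 (List.drop 3 (List.drop 3 (List.drop 3 (List.drop 3 (List.drop 3 (List.drop 3 (List.drop 3 (List.drop 3 (List.drop 3 (List.drop 3 (List.drop 3 (List.drop 3 (List.drop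 3 (List.drop 3 (List.drop 3 (List.drop 3 (List.drop 3 (List.drop 3 (List.drop 3 (List.drop 3 (List.drop 3 (List.drop 3 (List.drop 3 (List.drop 3 (List.drop 3 (List.drop 3 (List.drop 3 (List.drop 3 (List.drop 3 (List.drop 3 (List.drop 3 (List.drop 3 (List.drop 3 (List.drop 3 (List.drop 3 (List.drop 3 (List.drop 3 (List.drop 3 (List.drop 3 (List.drop 3 (frac))))))))))))))))))))))))))))))))))))))))))))))))))))))))))))))))))))))))))))))))))))).all (cfgOK sizes cap) = true := by
  decide +kernel

theorem cfg_84 : (List.take 3 (List.drop 3 (List.drop 3 (List.drop 3 (List.drop 3 (List.drop 3 (List.drop 3 (List.drop 3 (List.drop 3 (List.drop 3 (List.drop 3 (List.drop 3 (List.drop 3 (List.drop 3 (List.drop 3 (List.drop 3 (List.drop 3 (List.drop 3 (List.drop 3 (List.drop 3 (List.drop 3 (List.drop 3 (List.drop 3 (List.drop 3 (List.drop 3 (List.drop 3 (List.drop 3 (List.drop 3 (List.drop 3 (List.drop 3 (List.drop 3 (List.drop 3 (List.drop 3 (List.drop 3 (List.drop 3 (List.drop 3 (List.drop 3 (List.drop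 3 (List.drop 3 (List.drop 3 (List.drop 3 (List.drop 3 (List.drop 3 (List.drop 3 (List.drop 3 (List.drop 3 (List.drop 3 (List.drop 3 (List.drop 3 (List.drop 3 (List.drop 3 (List.drop 3 (List.drop 3 (List.drop 3 (List.drop 3 (List.drop 3 (List.drop 3 (List.drop 3 (List.drop 3 (List.drop 3 (List.drop 3 (List.drop 3 (List.drop 3 (List.drop 3 (List.drop 3 (List.drop 3 (List.drop 3 (List.drop 3 (List.drop 3 (List.drop 3 (List.drop 3 (List.drop 3 (List.drop 3 (List.drop 3 (List.drop 3 (List.drop 3 (List.drop 3 (List.drop 3 (List.drop 3 (List.drop 3 (List.drop 3 (List.drop 3 (List.drop 3 (List.drop 3 (List.drop 3 (frac)))))))))))))))))))))))))))))))))))))))))))))))))))))))))))))))))))))))))))))))))))))).all (cfgOK sizes cap) = true := by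
  decide +kernel

theorem cfg_85 : (List.take 3 (List.drop 3 (List.drop 3 (List.drop 3 (List.drop 3 (List.drop 3 (List.drop 3 (List.drop 3 (List.drop 3 (List.drop 3 (List.drop 3 (List.drop 3 (List.drop 3 (List.drop 3 (List.drop 3 (List.drop 3 (List.drop 3 (List.drop 3 (List.drop 3 (List.drop 3 (List.drop 3 (List.drop 3 (List.drop 3 (List.drop 3 (List.drop 3 (List.drop 3 (List.drop 3 (List.drop 3 (List.drop 3 (List.drop 3 (List.drop 3 (List.drop 3 (List.drop 3 (List.drop 3 (List.drop 3 (List.drop 3 (List.drop 3 (List.drop 3 (List.drop 3 (List.drop 3 (List.drop 3 (List.drop 3 (List.drop 3 (List.drop 3 (List.drop 3 (List.drop 3 (List.drop 3 (List.drop 3 (List.drop 3 (List.drop 3 (List.drop 3 (List.drop 3 (List.drop 3 (List.drop 3 (List.drop 3 (List.drop 3 (List.drop 3 (List.drop 3 (List.drop 3 (List.drop 3 (List.drop 3 (List.drop 3 (List.drop 3 (List.drop 3 (List.drop 3 (List.drop 3 (List.drop 3 (List.drop 3 (List.drop 3 (List.drop 3 (List.drop 3 (List.drop 3 (List.drop 3 (List.drop 3 (List.drop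 3 (List.drop 3 (List.drop 3 (List.drop 3 (List.drop 3 (List.drop 3 (List.drop 3 (List.drop 3 (List.drop 3 (List.drop 3 (List.drop 3 (List.drop 3 (frac))))))))))))))))))))))))))))))))))))))))))))))))))))))))))))))))))))))))))))))))))))))).all (cfgOK sizes cap) = true := by
  decide +kernel

theorem cfg_86 : (List.take 3 (List.drop 3 (List.drop 3 (List.drop 3 (List.drop 3 (List.drop 3 (List.drop 3 (List.drop 3 (List.drop 3 (List.drop 3 (List.drop 3 (List.drop 3 (List.drop 3 (List.drop 3 (List.drop 3 (List.drop 3 (List.drop 3 (List.drop 3 (List.drop 3 (List.drop 3 (List.drop 3 (List.drop 3 (List.drop 3 (List.drop 3 (List.drop 3 (List.drop 3 (List.drop 3 (List.drop 3 (List.drop 3 (List.drop 3 (List.drop 3 (List.drop 3 (List.drop 3 (List.drop 3 (List.drop 3 (List.drop 3 (List.drop 3 (List.drop 3 (List.drop 3 (List.drop 3 (List.drop 3 (List.drop 3 (List.drop 3 (List.drop 3 (List.drop 3 (List.drop 3 (List.drop 3 (List.drop 3 (List.drop 3 (List.drop 3 (List.drop 3 (List.drop 3 (List.drop 3 (List.drop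 3 (List.drop 3 (List.drop 3 (List.drop 3 (List.drop 3 (List.drop 3 (List.drop 3 (List.drop 3 (List.drop 3 (List.drop 3 (List.drop 3 (List.drop 3 (List.drop 3 (List.drop 3 (List.drop 3 (List.drop 3 (List.drop 3 (List.drop 3 (List.drop 3 (List.drop 3 (List.drop 3 (List.drop 3 (List.drop 3 (List.drop 3 (List.drop 3 (List.drop 3 (List.drop 3 (List.drop 3 (List.drop 3 (List.drop 3 (List.drop 3 (List.drop 3 (List.drop 3 (List.drop 3 (frac)))))))))))))))))))))))))))))))))))))))))))))))))))))))))))))))))))))))))))))))))))))))).all (cfgOK sizes cap) = true := by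
  decide +kernel

theorem cfg_87 : (List.take 3 (List.drop 3 (List.drop 3 (List.drop 3 (List.drop 3 (List.drop 3 (List.drop 3 (List.drop 3 (List.drop 3 (List.drop 3 (List.drop 3 (List.drop 3 (List.drop 3 (List.drop 3 (List.drop 3 (List.drop 3 (List.drop 3 (List.drop 3 (List.drop 3 (List.drop 3 (List.drop 3 (List.drop 3 (List.drop 3 (List.drop 3 (List.drop 3 (List.drop 3 (List.drop 3 (List.drop 3 (List.drop 3 (List.drop 3 (List.drop 3 (List.drop 3 (List.drop 3 (List.drop 3 (List.drop 3 (List.drop 3 (List.drop 3 (List.drop 3 (List.drop 3 (List.drop 3 (List.drop 3 (List.drop 3 (List.drop 3 (List.drop 3 (List.drop 3 (List.drop 3 (List.drop 3 (List.drop 3 (List.drop 3 (List.drop 3 (List.drop 3 (List.drop 3 (List.drop 3 (List.drop 3 (List.drop 3 (List.drop 3 (List.drop 3 (List.drop 3 (List.drop 3 (List.drop 3 (List.drop 3 (List.drop 3 (List.drop 3 (List.drop 3 (List.drop 3 (List.drop 3 (List.drop 3 (List.drop 3 (List.drop 3 (List.drop 3 (List.drop 3 (List.drop 3 (List.drop 3 (List.drop 3 (List.drop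 3 (List.drop 3 (List.drop 3 (List.drop 3 (List.drop 3 (List.drop 3 (List.drop 3 (List.drop 3 (List.drop 3 (List.drop 3 (List.drop 3 (List.drop 3 (List.drop 3 (List.drop 3 (frac))))))))))))))))))))))))))))))))))))))))))))))))))))))))))))))))))))))))))))))))))))))))).all (cfgOK sizes cap) = true := by
  decide +kernel

theorem cfg_88 : (List.take 3 (List.drop 3 (List.drop 3 (List.drop 3 (List.drop 3 (List.drop 3 (List.drop 3 (List.drop 3 (List.drop 3 (List.drop 3 (List.drop 3 (List.drop 3 (List.drop 3 (List.drop 3 (List.drop 3 (List.drop 3 (List.drop 3 (List.drop 3 (List.drop 3 (List.drop 3 (List.drop 3 (List.drop 3 (List.drop 3 (List.drop 3 (List.drop 3 (List.drop 3 (List.drop 3 (List.drop 3 (List.drop 3 (List.drop 3 (List.drop 3 (List.drop 3 (List.drop 3 (List.drop 3 (List.drop 3 (List.drop 3 (List.drop 3 (List.drop 3 (List.drop 3 (List.drop 3 (List.drop 3 (List.drop 3 (List.drop 3 (List.drop 3 (List.drop 3 (List.drop 3 (List.drop 3 (List.drop 3 (List.drop 3 (List.drop 3 (List.drop 3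 (List.drop 3 (List.drop 3 (List.drop 3 (List.drop 3 (List.drop 3 (List.drop 3 (List.drop 3 (List.drop 3 (List.drop 3 (List.drop 3 (List.drop 3 (List.drop 3 (List.drop 3 (List.drop 3 (List.drop 3 (List.drop 3 (List.drop 3 (List.drop 3 (List.drop 3 (List.drop 3 (List.drop 3 (List.drop 3 (List.drop 3 (List.drop 3 (List.drop 3 (List.drop 3 (List.drop 3 (List.drop 3 (List.drop 3 (List.drop 3 (List.drop 3 (List.drop 3 (List.drop 3 (List.drop 3 (List.drop 3 (List.drop 3 (List.drop 3 (List.drop 3 (frac)))))))))))))))))))))))))))))))))))))))))))))))))))))))))))))))))))))))))))))))))))))))))).all (cfgOK sizes cap) = true := by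
  decide +kernel

theorem cfg_89 : (List.take 3 (List.drop 3 (List.drop 3 (List.drop 3 (List.drop 3 (List.drop 3 (List.drop 3 (List.drop 3 (List.drop 3 (List.drop 3 (List.drop 3 (List.drop 3 (List.drop 3 (List.drop 3 (List.drop 3 (List.drop 3 (List.drop 3 (List.drop 3 (List.drop 3 (List.drop 3 (List.drop 3 (List.drop 3 (List.drop 3 (List.drop 3 (List.drop 3 (List.drop 3 (List.drop 3 (List.drop 3 (List.drop 3 (List.drop 3 (List.drop 3 (List.drop 3 (List.drop 3 (List.drop 3 (List.drop 3 (List.drop 3 (List.drop 3 (List.drop 3 (List.drop 3 (List.drop 3 (List.drop 3 (List.drop 3 (List.drop 3 (List.drop 3 (List.drop 3 (List.drop 3 (List.drop 3 (List.drop 3 (List.drop 3 (List.drop 3 (List.drop 3 (List.drop 3 (List.drop 3 (List.drop 3 (List.drop 3 (List.drop 3 (List.drop 3 (List.drop 3 (List.drop 3 (List.drop 3 (List.drop 3 (List.drop 3 (List.drop 3 (List.drop 3 (List.drop 3 (List.drop 3 (List.drop 3 (List.drop 3 (List.drop 3 (List.drop 3 (List.drop 3 (List.drop 3 (List.drop 3 (List.drop 3 (List.drop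 3 (List.drop 3 (List.drop 3 (List.drop 3 (List.drop 3 (List.drop 3 (List.drop 3 (List.drop 3 (List.drop 3 (List.drop 3 (List.drop 3 (List.drop 3 (List.drop 3 (List.drop 3 (List.drop 3 (List.drop 3 (frac))))))))))))))))))))))))))))))))))))))))))))))))))))))))))))))))))))))))))))))))))))))))))).all (cfgOK sizes cap) = true := by
  decide +kernel

theorem cfg_90 : (List.take 3 (List.drop 3 (List.drop 3 (List.drop 3 (List.drop 3 (List.drop 3 (List.drop 3 (List.drop 3 (List.drop 3 (List.drop 3 (List.drop 3 (List.drop 3 (List.drop 3 (List.drop 3 (List.drop 3 (List.drop 3 (List.drop 3 (List.drop 3 (List.drop 3 (List.drop 3 (List.drop 3 (List.drop 3 (List.drop 3 (List.drop 3 (List.drop 3 (List.drop 3 (List.drop 3 (List.drop 3 (List.drop 3 (List.drop 3 (List.drop 3 (List.drop 3 (List.drop 3 (List.drop 3 (List.drop 3 (List.drop 3 (List.drop 3 (List.drop 3 (List.drop 3 (List.drop 3 (List.drop 3 (List.drop 3 (List.drop 3 (List.drop 3 (List.drop 3 (List.drop 3 (List.drop 3 (List.drop 3 (List.drop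 3 (List.drop 3 (List.drop 3 (List.drop 3 (List.drop 3 (List.drop 3 (List.drop 3 (List.drop 3 (List.drop 3 (List.drop 3 (List.drop 3 (List.drop 3 (List.drop 3 (List.drop 3 (List.drop 3 (List.drop 3 (List.drop 3 (List.drop 3 (List.drop 3 (List.drop 3 (List.drop 3 (List.drop 3 (List.drop 3 (List.drop 3 (List.drop 3 (List.drop 3 (List.drop 3 (List.drop 3 (List.drop 3 (List.drop 3 (List.drop 3 (List.drop 3 (List.drop 3 (List.drop 3 (List.drop 3 (List.drop 3 (List.drop 3 (List.drop 3 (List.drop 3 (List.drop 3 (List.drop 3 (List.drop 3 (List.drop 3 (frac)))))))))))))))))))))))))))))))))))))))))))))))))))))))))))))))))))))))))))))))))))))))))))).all (cfgOK sizes cap) = true := by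
  decide +kernel

theorem cfg_91 : (List.take 3 (List.drop 3 (List.drop 3 (List.drop 3 (List.drop 3 (List.drop 3 (List.drop 3 (List.drop 3 (List.drop 3 (List.drop 3 (List.drop 3 (List.drop 3 (List.drop 3 (List.drop 3 (List.drop 3 (List.drop 3 (List.drop 3 (List.drop 3 (List.drop 3 (List.drop 3 (List.drop 3 (List.drop 3 (List.drop 3 (List.drop 3 (List.drop 3 (List.drop 3 (List.drop 3 (List.drop 3 (List.drop 3 (List.drop 3 (List.drop 3 (List.drop 3 (List.drop 3 (List.drop 3 (List.drop 3 (List.drop 3 (List.drop 3 (List.drop 3 (List.drop 3 (List.drop 3 (List.drop 3 (List.drop 3 (List.drop 3 (List.drop 3 (List.drop 3 (List.drop 3 (List.drop 3 (List.drop 3 (List.drop 3 (List.drop 3 (List.drop 3 (List.drop 3 (List.drop 3 (List.drop 3 (List.drop 3 (List.drop 3 (List.drop 3 (List.drop 3 (List.drop 3 (List.drop 3 (List.drop 3 (List.drop 3 (List.drop 3 (List.drop 3 (List.drop 3 (List.drop 3 (List.drop 3 (List.drop 3 (List.drop 3 (List.drop 3 (List.drop 3 (List.drop 3 (List.drop 3 (List.drop 3 (List.drop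 3 (List.drop 3 (List.drop 3 (List.drop 3 (List.drop 3 (List.drop 3 (List.drop 3 (List.drop 3 (List.drop 3 (List.drop 3 (List.drop 3 (List.drop 3 (List.drop 3 (List.drop 3 (List.drop 3 (List.drop 3 (List.drop 3 (List.drop 3 (frac))))))))))))))))))))))))))))))))))))))))))))))))))))))))))))))))))))))))))))))))))))))))))))).all (cfgOK sizes cap) = true := by
  decide +kernel

theorem cfg_92 : (List.take 3 (List.drop 3 (List.drop 3 (List.drop 3 (List.drop 3 (List.drop 3 (List.drop 3 (List.drop 3 (List.drop 3 (List.drop 3 (List.drop 3 (List.drop 3 (List.drop 3 (List.drop 3 (List.drop 3 (List.drop 3 (List.drop 3 (List.drop 3 (List.drop 3 (List.drop 3 (List.drop 3 (List.drop 3 (List.drop 3 (List.drop 3 (List.drop 3 (List.drop 3 (List.drop 3 (List.drop 3 (List.drop 3 (List.drop 3 (List.drop 3 (List.drop 3 (List.drop 3 (List.drop 3 (List.drop 3 (List.drop 3 (List.drop 3 (List.drop 3 (List.drop 3 (List.drop 3 (List.drop 3 (List.drop 3 (List.drop 3 (List.drop 3 (List.drop 3 (List.drop 3 (List.drop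 3 (List.drop 3 (List.drop 3 (List.drop 3 (List.drop 3 (List.drop 3 (List.drop 3 (List.drop 3 (List.drop 3 (List.drop 3 (List.drop 3 (List.drop 3 (List.drop 3 (List.drop 3 (List.drop 3 (List.drop 3 (List.drop 3 (List.drop 3 (List.drop 3 (List.drop 3 (List.drop 3 (List.drop 3 (List.drop 3 (List.drop 3 (List.drop 3 (List.drop 3 (List.drop 3 (List.drop 3 (List.drop 3 (List.drop 3 (List.drop 3 (List.drop 3 (List.drop 3 (List.drop 3 (List.drop 3 (List.drop 3 (List.drop 3 (List.drop 3 (List.drop 3 (List.drop 3 (List.drop 3 (List.drop 3 (List.drop 3 (List.drop 3 (List.drop 3 (List.drop 3 (List.drop 3 (frac)))))))))))))))))))))))))))))))))))))))))))))))))))))))))))))))))))))))))))))))))))))))))))))).all (cfgOK sizes cap) = true := by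
  decide +kernel

theorem cfg_93 : (List.take 3 (List.drop 3 (List.drop 3 (List.drop 3 (List.drop 3 (List.drop 3 (List.drop 3 (List.drop 3 (List.drop 3 (List.drop 3 (List.drop 3 (List.drop 3 (List.drop 3 (List.drop 3 (List.drop 3 (List.drop 3 (List.drop 3 (List.drop 3 (List.drop 3 (List.drop 3 (List.drop 3 (List.drop 3 (List.drop 3 (List.drop 3 (List.drop 3 (List.drop 3 (List.drop 3 (List.drop 3 (List.drop 3 (List.drop 3 (List.drop 3 (List.drop 3 (List.drop 3 (List.drop 3 (List.drop 3 (List.drop 3 (List.drop 3 (List.drop 3 (List.drop 3 (List.drop 3 (List.drop 3 (List.drop 3 (List.drop 3 (List.drop 3 (List.drop 3 (List.drop 3 (List.drop 3 (List.drop 3 (List.drop 3 (List.drop 3 (List.drop 3 (List.drop 3 (List.drop 3 (List.drop 3 (List.drop 3 (List.drop 3 (List.drop 3 (List.drop 3 (List.drop 3 (List.drop 3 (List.drop 3 (List.drop 3 (List.drop 3 (List.drop 3 (List.drop 3 (List.drop 3 (List.drop 3 (List.drop 3 (List.drop 3 (List.drop 3 (List.drop 3 (List.drop 3 (List.drop 3 (List.drop 3 (List.drop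 3 (List.drop 3 (List.drop 3 (List.drop 3 (List.drop 3 (List.drop 3 (List.drop 3 (List.drop 3 (List.drop 3 (List.drop 3 (List.drop 3 (List.drop 3 (List.drop 3 (List.drop 3 (List.drop 3 (List.drop 3 (List.drop 3 (List.drop 3 (List.drop 3 (List.drop 3 (frac))))))))))))))))))))))))))))))))))))))))))))))))))))))))))))))))))))))))))))))))))))))))))))))).all (cfgOK sizes cap) = true := by
  decide +kernel

theorem cfg_94 : (List.take 3 (List.drop 3 (List.drop 3 (List.drop 3 (List.drop 3 (List.drop 3 (List.drop 3 (List.drop 3 (List.drop 3 (List.drop 3 (List.drop 3 (List.drop 3 (List.drop 3 (List.drop 3 (List.drop 3 (List.drop 3 (List.drop 3 (List.drop 3 (List.drop 3 (List.drop 3 (List.drop 3 (List.drop 3 (List.drop 3 (List.drop 3 (List.drop 3 (List.drop 3 (List.drop 3 (List.drop 3 (List.drop 3 (List.drop 3 (List.drop 3 (List.drop 3 (List.drop 3 (List.drop 3 (List.drop 3 (List.drop 3 (List.drop 3 (List.drop 3 (List.drop 3 (List.drop 3 (List.drop 3 (List.drop 3 (List.drop 3 (List.drop 3 (List.drop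 3 (List.drop 3 (List.drop 3 (List.drop 3 (List.drop 3 (List.drop 3 (List.drop 3 (List.drop 3 (List.drop 3 (List.drop 3 (List.drop 3 (List.drop 3 (List.drop 3 (List.drop 3 (List.drop 3 (List.drop 3 (List.drop 3 (List.drop 3 (List.drop 3 (List.drop 3 (List.drop 3 (List.drop 3 (List.drop 3 (List.drop 3 (List.drop 3 (List.drop 3 (List.drop 3 (List.drop 3 (List.drop 3 (List.drop 3 (List.drop 3 (List.drop 3 (List.drop 3 (List.drop 3 (List.drop 3 (List.drop 3 (List.drop 3 (List.drop 3 (List.drop 3 (List.drop 3 (List.drop 3 (List.drop 3 (List.drop 3 (List.drop 3 (List.drop 3 (List.drop 3 (List.drop 3 (List.drop 3 (List.drop 3 (List.drop 3 (List.drop 3 (frac)))))))))))))))))))))))))))))))))))))))))))))))))))))))))))))))))))))))))))))))))))))))))))))))).all (cfgOK sizes cap) = true := by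
  decide +kernel

theorem cfg_95 : (List.take 3 (List.drop 3 (List.drop 3 (List.drop 3 (List.drop 3 (List.drop 3 (List.drop 3 (List.drop 3 (List.drop 3 (List.drop 3 (List.drop 3 (List.drop 3 (List.drop 3 (List.drop 3 (List.drop 3 (List.drop 3 (List.drop 3 (List.drop 3 (List.drop 3 (List.drop 3 (List.drop 3 (List.drop 3 (List.drop 3 (List.drop 3 (List.drop 3 (List.drop 3 (List.drop 3 (List.drop 3 (List.drop 3 (List.drop 3 (List.drop 3 (List.drop 3 (List.drop 3 (List.drop 3 (List.drop 3 (List.drop 3 (List.drop 3 (List.drop 3 (List.drop 3 (List.drop 3 (List.drop 3 (List.drop 3 (List.drop 3 (List.drop 3 (List.drop 3 (List.drop 3 (List.drop 3 (List.drop 3 (List.drop 3 (List.drop 3 (List.drop 3 (List.drop 3 (List.drop 3 (List.drop 3 (List.drop 3 (List.drop 3 (List.drop 3 (List.drop 3 (List.drop 3 (List.drop 3 (List.drop 3 (List.drop 3 (List.drop 3 (List.drop 3 (List.drop 3 (List.drop 3 (List.drop 3 (List.drop 3 (List.drop 3 (List.drop 3 (List.drop 3 (List.drop 3 (List.drop 3 (List.drop 3 (List.drop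 3 (List.drop 3 (List.drop 3 (List.drop 3 (List.drop 3 (List.drop 3 (List.drop 3 (List.drop 3 (List.drop 3 (List.drop 3 (List.drop 3 (List.drop 3 (List.drop 3 (List.drop 3 (List.drop 3 (List.drop 3 (List.drop 3 (List.drop 3 (List.drop 3 (List.drop 3 (List.drop 3 (List.drop 3 (frac))))))))))))))))))))))))))))))))))))))))))))))))))))))))))))))))))))))))))))))))))))))))))))))))).all (cfgOK sizes cap) = true := by
  decide +kernel

theorem cfg_96 : (List.take 3 (List.drop 3 (List.drop 3 (List.drop 3 (List.drop 3 (List.drop 3 (List.drop 3 (List.drop 3 (List.drop 3 (List.drop 3 (List.drop 3 (List.drop 3 (List.drop 3 (List.drop 3 (List.drop 3 (List.drop 3 (List.drop 3 (List.drop 3 (List.drop 3 (List.drop 3 (List.drop 3 (List.drop 3 (List.drop 3 (List.drop 3 (List.drop 3 (List.drop 3 (List.drop 3 (List.drop 3 (List.drop 3 (List.drop 3 (List.drop 3 (List.drop 3 (List.drop 3 (List.drop 3 (List.drop 3 (List.drop 3 (List.drop 3 (List.drop 3 (List.drop 3 (List.drop 3 (List.drop 3 (List.drop 3 (List.drop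 3 (List.drop 3 (List.drop 3 (List.drop 3 (List.drop 3 (List.drop 3 (List.drop 3 (List.drop 3 (List.drop 3 (List.drop 3 (List.drop 3 (List.drop 3 (List.drop 3 (List.drop 3 (List.drop 3 (List.drop 3 (List.drop 3 (List.drop 3 (List.drop 3 (List.drop 3 (List.drop 3 (List.drop 3 (List.drop 3 (List.drop 3 (List.drop 3 (List.drop 3 (List.drop 3 (List.drop 3 (List.drop 3 (List.drop 3 (List.drop 3 (List.drop 3 (List.drop 3 (List.drop 3 (List.drop 3 (List.drop 3 (List.drop 3 (List.drop 3 (List.drop 3 (List.drop 3 (List.drop 3 (List.drop 3 (List.drop 3 (List.drop 3 (List.drop 3 (List.drop 3 (List.drop 3 (List.drop 3 (List.drop 3 (List.drop 3 (List.drop 3 (List.drop 3 (List.drop 3 (List.drop 3 (List.drop 3 (frac)))))))))))))))))))))))))))))))))))))))))))))))))))))))))))))))))))))))))))))))))))))))))))))))))).all (cfgOK sizes cap) = true := by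
  decide +kernel

theorem cfg_97 : (List.take 3 (List.drop 3 (List.drop 3 (List.drop 3 (List.drop 3 (List.drop 3 (List.drop 3 (List.drop 3 (List.drop 3 (List.drop 3 (List.drop 3 (List.drop 3 (List.drop 3 (List.drop 3 (List.drop 3 (List.drop 3 (List.drop 3 (List.drop 3 (List.drop 3 (List.drop 3 (List.drop 3 (List.drop 3 (List.drop 3 (List.drop 3 (List.drop 3 (List.drop 3 (List.drop 3 (List.drop 3 (List.drop 3 (List.drop 3 (List.drop 3 (List.drop 3 (List.drop 3 (List.drop 3 (List.drop 3 (List.drop 3 (List.drop 3 (List.drop 3 (List.drop 3 (List.drop 3 (List.drop 3 (List.drop 3 (List.drop 3 (List.drop 3 (List.drop 3 (List.drop 3 (List.drop 3 (List.drop 3 (List.drop 3 (List.drop 3 (List.drop 3 (List.drop 3 (List.drop 3 (List.drop 3 (List.drop 3 (List.drop 3 (List.drop 3 (List.drop 3 (List.drop 3 (List.drop 3 (List.drop 3 (List.drop 3 (List.drop 3 (List.drop 3 (List.drop 3 (List.drop 3 (List.drop 3 (List.drop 3 (List.drop 3 (List.drop 3 (List.drop 3 (List.drop 3 (List.drop 3 (List.drop 3 (List.drop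 3 (List.drop 3 (List.drop 3 (List.drop 3 (List.drop 3 (List.drop 3 (List.drop 3 (List.drop 3 (List.drop 3 (List.drop 3 (List.drop 3 (List.drop 3 (List.drop 3 (List.drop 3 (List.drop 3 (List.drop 3 (List.drop 3 (List.drop 3 (List.drop 3 (List.drop 3 (List.drop 3 (List.drop 3 (List.drop 3 (List.drop 3 (frac))))))))))))))))))))))))))))))))))))))))))))))))))))))))))))))))))))))))))))))))))))))))))))))))))).all (cfgOK sizes cap) = true := by
  decide +kernel

theorem cfg_98 : (List.take 3 (List.drop 3 (List.drop 3 (List.drop 3 (List.drop 3 (List.drop 3 (List.drop 3 (List.drop 3 (List.drop 3 (List.drop 3 (List.drop 3 (List.drop 3 (List.drop 3 (List.drop 3 (List.drop 3 (List.drop 3 (List.drop 3 (List.drop 3 (List.drop 3 (List.drop 3 (List.drop 3 (List.drop 3 (List.drop 3 (List.drop 3 (List.drop 3 (List.drop 3 (List.drop 3 (List.drop 3 (List.drop 3 (List.drop 3 (List.drop 3 (List.drop 3 (List.drop 3 (List.drop 3 (List.drop 3 (List.drop 3 (List.drop 3 (List.drop 3 (List.drop 3 (List.drop 3 (List.drop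 3 (List.drop 3 (List.drop 3 (List.drop 3 (List.drop 3 (List.drop 3 (List.drop 3 (List.drop 3 (List.drop 3 (List.drop 3 (List.drop 3 (List.drop 3 (List.drop 3 (List.drop 3 (List.drop 3 (List.drop 3 (List.drop 3 (List.drop 3 (List.drop 3 (List.drop 3 (List.drop 3 (List.drop 3 (List.drop 3 (List.drop 3 (List.drop 3 (List.drop 3 (List.drop 3 (List.drop 3 (List.drop 3 (List.drop 3 (List.drop 3 (List.drop 3 (List.drop 3 (List.drop 3 (List.drop 3 (List.drop 3 (List.drop 3 (List.drop 3 (List.drop 3 (List.drop 3 (List.drop 3 (List.drop 3 (List.drop 3 (List.drop 3 (List.drop 3 (List.drop 3 (List.drop 3 (List.drop 3 (List.drop 3 (List.drop 3 (List.drop 3 (List.drop 3 (List.drop 3 (List.drop 3 (List.drop 3 (List.drop 3 (List.drop 3 (List.drop 3 (List.drop 3 (frac)))))))))))))))))))))))))))))))))))))))))))))))))))))))))))))))))))))))))))))))))))))))))))))))))))).all (cfgOK sizes cap) = true := by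
  decide +kernel

theorem cfg_99 : (List.take 3 (List.drop 3 (List.drop 3 (List.drop 3 (List.drop 3 (List.drop 3 (List.drop 3 (List.drop 3 (List.drop 3 (List.drop 3 (List.drop 3 (List.drop 3 (List.drop 3 (List.drop 3 (List.drop 3 (List.drop 3 (List.drop 3 (List.drop 3 (List.drop 3 (List.drop 3 (List.drop 3 (List.drop 3 (List.drop 3 (List.drop 3 (List.drop 3 (List.drop 3 (List.drop 3 (List.drop 3 (List.drop 3 (List.drop 3 (List.drop 3 (List.drop 3 (List.drop 3 (List.drop 3 (List.drop 3 (List.drop 3 (List.drop 3 (List.drop 3 (List.drop 3 (List.drop 3 (List.drop 3 (List.drop 3 (List.drop 3 (List.drop 3 (List.drop 3 (List.drop 3 (List.drop 3 (List.drop 3 (List.drop 3 (List.drop 3 (List.drop 3 (List.drop 3 (List.drop 3 (List.drop 3 (List.drop 3 (List.drop 3 (List.drop 3 (List.drop 3 (List.drop 3 (List.drop 3 (List.drop 3 (List.drop 3 (List.drop 3 (List.drop 3 (List.drop 3 (List.drop 3 (List.drop 3 (List.drop 3 (List.drop 3 (List.drop 3 (List.drop 3 (List.drop 3 (List.drop 3 (List.drop 3 (List.drop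 3 (List.drop 3 (List.drop 3 (List.drop 3 (List.drop 3 (List.drop 3 (List.drop 3 (List.drop 3 (List.drop 3 (List.drop 3 (List.drop 3 (List.drop 3 (List.drop 3 (List.drop 3 (List.drop 3 (List.drop 3 (List.drop 3 (List.drop 3 (List.drop 3 (List.drop 3 (List.drop 3 (List.drop 3 (List.drop 3 (List.drop 3 (List.drop 3 (List.drop 3 (frac))))))))))))))))))))))))))))))))))))))))))))))))))))))))))))))))))))))))))))))))))))))))))))))))))))).all (cfgOK sizes cap) = true := by
  decide +kernel

end Vale.Agent.Lib.P302.helper8.Th863
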