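import Mathlib
import Vale.Agent.Lib.P302.helper8.Th863.F0
import Vale.Agent.Lib.P302.helper8.Th863.F3

/-!
# P302: the fractional solution of the 863-item instance, checked in pieces (part 5)
-/

namespace Vale.Agent.Lib.P302.helper8.Th863

open Vale.Agent.Lib.P302.helper14 Vale.Agent.Lib.P302.helper8 Vale.Agent.Lib.P302.helper9

set_option maxRecDepth 8192

theorem cfg_125 : (List.take 3 (List.drop 3 (List.drop 3 (List.drop 3 (List.drop 3 (List.drop 3 (List.drop 3 (List.drop 3 (List.drop 3 (List.drop 3 (List.drop 3 (List.drop 3 (List.drop 3 (List.drop 3 (List.drop 3 (List.drop 3 (List.drop 3 (List.drop 3 (List.drop 3 (List.drop 3 (List.drop 3 (List.drop 3 (List.drop 3 (List.drop 3 (List.drop 3 (List.drop 3 (List.drop 3 (List.drop 3 (List.drop 3 (List.drop 3 (List.drop 3 (List.drop 3 (List.drop 3 (List.drop 3 (List.drop 3 (List.drop 3 (List.drop 3 (List.drop 3 (List.drop 3 (List.drop 3 (List.drop 3 (List.drop 3 (List.drop 3 (List.drop 3 (List.drop 3 (List.drop 3 (List.drop 3 (List.drop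 3 (List.drop 3 (List.drop 3 (List.drop 3 (List.drop 3 (List.drop 3 (List.drop 3 (List.drop 3 (List.drop 3 (List.drop 3 (List.drop 3 (List.drop 3 (List.drop 3 (List.drop 3 (List.drop 3 (List.drop 3 (List.drop 3 (List.drop 3 (List.drop 3 (List.drop 3 (List.drop 3 (List.drop 3 (List.drop 3 (List.drop 3 (List.drop 3 (List.drop 3 (List.drop 3 (List.drop 3 (List.drop 3 (List.drop 3 (List.drop 3 (List.drop 3 (List.drop 3 (List.drop 3 (List.drop 3 (List.drop 3 (List.drop 3 (List.drop 3 (List.drop 3 (List.drop 3 (List.drop 3 (List.drop 3 (List.drop 3 (List.drop 3 (List.drop 3 (List.drop 3 (List.drop 3 (List.drop 3 (List.drop 3 (List.drop 3 (List.drop 3 (List.drop 3 (List.drop 3 (List.drop 3 (List.drop 3 (List.drop 3 (List.drop 3 (List.drop 3 (List.drop 3 (List.drop 3 (List.drop 3 (List.drop 3 (List.drop 3 (List.drop 3 (List.drop 3 (List.drop 3 (List.drop 3 (List.drop 3 (List.drop 3 (List.drop 3 (List.drop 3 (List.drop 3 (List.drop 3 (List.drop 3 (List.drop 3 (List.drop 3 (List.drop 3 (List.drop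 3 (List.drop 3 (frac))))))))))))))))))))))))))))))))))))))))))))))))))))))))))))))))))))))))))))))))))))))))))))))))))))))))))))))))))))))))))))))).all (cfgOK sizes cap) = true := by
  decide +kernel

theorem cfg_126 : (List.take 3 (List.drop 3 (List.drop 3 (List.drop 3 (List.drop 3 (List.drop 3 (List.drop 3 (List.drop 3 (List.drop 3 (List.drop 3 (List.drop 3 (List.drop 3 (List.drop 3 (List.drop 3 (List.drop 3 (List.drop 3 (List.drop 3 (List.drop 3 (List.drop 3 (List.drop 3 (List.drop 3 (List.drop 3 (List.drop 3 (List.drop 3 (List.drop 3 (List.drop 3 (List.drop 3 (List.drop 3 (List.drop 3 (List.drop 3 (List.drop 3 (List.drop 3 (List.drop 3 (List.drop 3 (List.drop 3 (List.drop 3 (List.drop 3 (List.drop 3 (List.drop 3 (List.drop 3 (List.drop 3 (List.drop 3 (List.drop 3 (List.drop 3 (List.drop 3 (List.drop 3 (List.drop 3 (List.drop 3 (List.drop 3 (List.drop 3 (List.drop 3 (List.drop 3 (List.drop 3 (List.drop 3 (List.drop 3 (List.drop 3 (List.drop 3 (List.drop 3 (List.drop 3 (List.drop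 3 (List.drop 3 (List.drop 3 (List.drop 3 (List.drop 3 (List.drop 3 (List.drop 3 (List.drop 3 (List.drop 3 (List.drop 3 (List.drop 3 (List.drop 3 (List.drop 3 (List.drop 3 (List.drop 3 (List.drop 3 (List.drop 3 (List.drop 3 (List.drop 3 (List.drop 3 (List.drop 3 (List.drop 3 (List.drop 3 (List.drop 3 (List.drop 3 (List.drop 3 (List.drop 3 (List.drop 3 (List.drop 3 (List.drop 3 (List.drop 3 (List.drop 3 (List.drop 3 (List.drop 3 (List.drop 3 (List.drop 3 (List.drop 3 (List.drop 3 (List.drop 3 (List.drop 3 (List.drop 3 (List.drop 3 (List.drop 3 (List.drop 3 (List.drop 3 (List.drop 3 (List.drop 3 (List.drop 3 (List.drop 3 (List.drop 3 (List.drop 3 (List.drop 3 (List.drop 3 (List.drop 3 (List.drop 3 (List.drop 3 (List.drop 3 (List.drop 3 (List.drop 3 (List.drop 3 (List.drop 3 (List.drop 3 (List.drop 3 (List.drop 3 (List.drop 3 (List.drop 3 (List.drop 3 (List.drop 3 (frac)))))))))))))))))))))))))))))))))))))))))))))))))))))))))))))))))))))))))))))))))))))))))))))))))))))))))))))))))))))))))))))))).all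 (cfgOK sizes cap) = true := by
  decide +kernel

theorem cfg_127 : (List.take 3 (List.drop 3 (List.drop 3 (List.drop 3 (List.drop 3 (List.drop 3 (List.drop 3 (List.drop 3 (List.drop 3 (List.drop 3 (List.drop 3 (List.drop 3 (List.drop 3 (List.drop 3 (List.drop 3 (List.drop 3 (List.drop 3 (List.drop 3 (List.drop 3 (List.drop 3 (List.drop 3 (List.drop 3 (List.drop 3 (List.drop 3 (List.drop 3 (List.drop 3 (List.drop 3 (List.drop 3 (List.drop 3 (List.drop 3 (List.drop 3 (List.drop 3 (List.drop 3 (List.drop 3 (List.drop 3 (List.drop 3 (List.drop 3 (List.drop 3 (List.drop 3 (List.drop 3 (List.drop 3 (List.drop 3 (List.drop 3 (List.drop 3 (List.drop 3 (List.drop 3 (List.drop 3 (List.drop 3 (List.drop 3 (List.drop 3 (List.drop 3 (List.drop 3 (List.drop 3 (List.drop 3 (List.drop 3 (List.drop 3 (List.drop 3 (List.drop 3 (List.drop 3 (List.drop 3 (List.drop 3 (List.drop 3 (List.drop 3 (List.drop 3 (List.drop 3 (List.drop 3 (List.drop 3 (List.drop 3 (List.drop 3 (List.drop 3 (List.drop 3 (List.drop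 3 (List.drop 3 (List.drop 3 (List.drop 3 (List.drop 3 (List.drop 3 (List.drop 3 (List.drop 3 (List.drop 3 (List.drop 3 (List.drop 3 (List.drop 3 (List.drop 3 (List.drop 3 (List.drop 3 (List.drop 3 (List.drop 3 (List.drop 3 (List.drop 3 (List.drop 3 (List.drop 3 (List.drop 3 (List.drop 3 (List.drop 3 (List.drop 3 (List.drop 3 (List.drop 3 (List.drop 3 (List.drop 3 (List.drop 3 (List.drop 3 (List.drop 3 (List.drop 3 (List.drop 3 (List.drop 3 (List.drop 3 (List.drop 3 (List.drop 3 (List.drop 3 (List.drop 3 (List.drop 3 (List.drop 3 (List.drop 3 (List.drop 3 (List.drop 3 (List.drop 3 (List.drop 3 (List.drop 3 (List.drop 3 (List.drop 3 (List.drop 3 (List.drop 3 (List.drop 3 (List.drop 3 (List.drop 3 (List.drop 3 (List.drop 3 (frac))))))))))))))))))))))))))))))))))))))))))))))))))))))))))))))))))))))))))))))))))))))))))))))))))))))))))))))))))))))))))))))))).all (cfgOK sizes cap) = true := by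
  decide +kernel

theorem cfg_128 : (List.take 3 (List.drop 3 (List.drop 3 (List.drop 3 (List.drop 3 (List.drop 3 (List.drop 3 (List.drop 3 (List.drop 3 (List.drop 3 (List.drop 3 (List.drop 3 (List.drop 3 (List.drop 3 (List.drop 3 (List.drop 3 (List.drop 3 (List.drop 3 (List.drop 3 (List.drop 3 (List.drop 3 (List.drop 3 (List.drop 3 (List.drop 3 (List.drop 3 (List.drop 3 (List.drop 3 (List.drop 3 (List.drop 3 (List.drop 3 (List.drop 3 (List.drop 3 (List.drop 3 (List.drop 3 (List.drop 3 (List.drop 3 (List.drop 3 (List.drop 3 (List.drop 3 (List.drop 3 (List.drop 3 (List.drop 3 (List.drop 3 (List.drop 3 (List.drop 3 (List.drop 3 (List.drop 3 (List.drop 3 (List.drop 3 (List.drop 3 (List.drop 3 (List.drop 3 (List.drop 3 (List.drop 3 (List.drop 3 (List.drop 3 (List.drop 3 (List.drop 3 (List.drop 3 (List.drop 3 (List.drop 3 (List.drop 3 (List.drop 3 (List.drop 3 (List.drop 3 (List.drop 3 (List.drop 3 (List.drop 3 (List.drop 3 (List.drop 3 (List.drop 3 (List.drop 3 (List.drop 3 (List.drop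 3 (List.drop 3 (List.drop 3 (List.drop 3 (List.drop 3 (List.drop 3 (List.drop 3 (List.drop 3 (List.drop 3 (List.drop 3 (List.drop 3 (List.drop 3 (List.drop 3 (List.drop 3 (List.drop 3 (List.drop 3 (List.drop 3 (List.drop 3 (List.drop 3 (List.drop 3 (List.drop 3 (List.drop 3 (List.drop 3 (List.drop 3 (List.drop 3 (List.drop 3 (List.drop 3 (List.drop 3 (List.drop 3 (List.drop 3 (List.drop 3 (List.drop 3 (List.drop 3 (List.drop 3 (List.drop 3 (List.drop 3 (List.drop 3 (List.drop 3 (List.drop 3 (List.drop 3 (List.drop 3 (List.drop 3 (List.drop 3 (List.drop 3 (List.drop 3 (List.drop 3 (List.drop 3 (List.drop 3 (List.drop 3 (List.drop 3 (List.drop 3 (List.drop 3 (List.drop 3 (List.drop 3 (List.drop 3 (List.drop 3 (frac)))))))))))))))))))))))))))))))))))))))))))))))))))))))))))))))))))))))))))))))))))))))))))))))))))))))))))))))))))))))))))))))))).all (cfgOK sizes cap) = true := by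
  decide +kernel

theorem cfg_129 : (List.take 3 (List.drop 3 (List.drop 3 (List.drop 3 (List.drop 3 (List.drop 3 (List.drop 3 (List.drop 3 (List.drop 3 (List.drop 3 (List.drop 3 (List.drop 3 (List.drop 3 (List.drop 3 (List.drop 3 (List.drop 3 (List.drop 3 (List.drop 3 (List.drop 3 (List.drop 3 (List.drop 3 (List.drop 3 (List.drop 3 (List.drop 3 (List.drop 3 (List.drop 3 (List.drop 3 (List.drop 3 (List.drop 3 (List.drop 3 (List.drop 3 (List.drop 3 (List.drop 3 (List.drop 3 (List.drop 3 (List.drop 3 (List.drop 3 (List.drop 3 (List.drop 3 (List.drop 3 (List.drop 3 (List.drop 3 (List.drop 3 (List.drop 3 (List.drop 3 (List.drop 3 (List.drop 3 (List.drop 3 (List.drop 3 (List.drop 3 (List.drop 3 (List.drop 3 (List.drop 3 (List.drop 3 (List.drop 3 (List.drop 3 (List.drop 3 (List.drop 3 (List.drop 3 (List.drop 3 (List.drop 3 (List.drop 3 (List.drop 3 (List.drop 3 (List.drop 3 (List.drop 3 (List.drop 3 (List.drop 3 (List.drop 3 (List.drop 3 (List.drop 3 (List.drop 3 (List.drop 3 (List.drop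 3 (List.drop 3 (List.drop 3 (List.drop 3 (List.drop 3 (List.drop 3 (List.drop 3 (List.drop 3 (List.drop 3 (List.drop 3 (List.drop 3 (List.drop 3 (List.drop 3 (List.drop 3 (List.drop 3 (List.drop 3 (List.drop 3 (List.drop 3 (List.drop 3 (List.drop 3 (List.drop 3 (List.drop 3 (List.drop 3 (List.drop 3 (List.drop 3 (List.drop 3 (List.drop 3 (List.drop 3 (List.drop 3 (List.drop 3 (List.drop 3 (List.drop 3 (List.drop 3 (List.drop 3 (List.drop 3 (List.drop 3 (List.drop 3 (List.drop 3 (List.drop 3 (List.drop 3 (List.drop 3 (List.drop 3 (List.drop 3 (List.drop 3 (List.drop 3 (List.drop 3 (List.drop 3 (List.drop 3 (List.drop 3 (List.drop 3 (List.drop 3 (List.drop 3 (List.drop 3 (List.drop 3 (List.drop 3 (List.drop 3 (List.drop 3 (frac))))))))))))))))))))))))))))))))))))))))))))))))))))))))))))))))))))))))))))))))))))))))))))))))))))))))))))))))))))))))))))))))))).all (cfgOK sizes cap) = true := by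
  decide +kernel

theorem cfg_130 : (List.take 3 (List.drop 3 (List.drop 3 (List.drop 3 (List.drop 3 (List.drop 3 (List.drop 3 (List.drop 3 (List.drop 3 (List.drop 3 (List.drop 3 (List.drop 3 (List.drop 3 (List.drop 3 (List.drop 3 (List.drop 3 (List.drop 3 (List.drop 3 (List.drop 3 (List.drop 3 (List.drop 3 (List.drop 3 (List.drop 3 (List.drop 3 (List.drop 3 (List.drop 3 (List.drop 3 (List.drop 3 (List.drop 3 (List.drop 3 (List.drop 3 (List.drop 3 (List.drop 3 (List.drop 3 (List.drop 3 (List.drop 3 (List.drop 3 (List.drop 3 (List.drop 3 (List.drop 3 (List.drop 3 (List.drop 3 (List.drop 3 (List.drop 3 (List.drop 3 (List.drop 3 (List.drop 3 (List.drop 3 (List.drop 3 (List.drop 3 (List.drop 3 (List.drop 3 (List.drop 3 (List.drop 3 (List.drop 3 (List.drop 3 (List.drop 3 (List.drop 3 (List.drop 3 (List.drop 3 (List.drop 3 (List.drop 3 (List.drop 3 (List.drop 3 (List.drop 3 (List.drop 3 (List.drop 3 (List.drop 3 (List.drop 3 (List.drop 3 (List.drop 3 (List.drop 3 (List.drop 3 (List.drop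 3 (List.drop 3 (List.drop 3 (List.drop 3 (List.drop 3 (List.drop 3 (List.drop 3 (List.drop 3 (List.drop 3 (List.drop 3 (List.drop 3 (List.drop 3 (List.drop 3 (List.drop 3 (List.drop 3 (List.drop 3 (List.drop 3 (List.drop 3 (List.drop 3 (List.drop 3 (List.drop 3 (List.drop 3 (List.drop 3 (List.drop 3 (List.drop 3 (List.drop 3 (List.drop 3 (List.drop 3 (List.drop 3 (List.drop 3 (List.drop 3 (List.drop 3 (List.drop 3 (List.drop 3 (List.drop 3 (List.drop 3 (List.drop 3 (List.drop 3 (List.drop 3 (List.drop 3 (List.drop 3 (List.drop 3 (List.drop 3 (List.drop 3 (List.drop 3 (List.drop 3 (List.drop 3 (List.drop 3 (List.drop 3 (List.drop 3 (List.drop 3 (List.drop 3 (List.drop 3 (List.drop 3 (List.drop 3 (List.drop 3 (List.drop 3 (List.drop 3 (frac)))))))))))))))))))))))))))))))))))))))))))))))))))))))))))))))))))))))))))))))))))))))))))))))))))))))))))))))))))))))))))))))))))).all (cfgOK sizes cap) = true := by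
  decide +kernel

theorem cfg_131 : (List.take 3 (List.drop 3 (List.drop 3 (List.drop 3 (List.drop 3 (List.drop 3 (List.drop 3 (List.drop 3 (List.drop 3 (List.drop 3 (List.drop 3 (List.drop 3 (List.drop 3 (List.drop 3 (List.drop 3 (List.drop 3 (List.drop 3 (List.drop 3 (List.drop 3 (List.drop 3 (List.drop 3 (List.drop 3 (List.drop 3 (List.drop 3 (List.drop 3 (List.drop 3 (List.drop 3 (List.drop 3 (List.drop 3 (List.drop 3 (List.drop 3 (List.drop 3 (List.drop 3 (List.drop 3 (List.drop 3 (List.drop 3 (List.drop 3 (List.drop 3 (List.drop 3 (List.drop 3 (List.drop 3 (List.drop 3 (List.drop 3 (List.drop 3 (List.drop 3 (List.drop 3 (List.drop 3 (List.drop 3 (List.drop 3 (List.drop 3 (List.drop 3 (List.drop 3 (List.drop 3 (List.drop 3 (List.drop 3 (List.drop 3 (List.drop 3 (List.drop 3 (List.drop 3 (List.drop 3 (List.drop 3 (List.drop 3 (List.drop 3 (List.drop 3 (List.drop 3 (List.drop 3 (List.drop 3 (List.drop 3 (List.drop 3 (List.drop 3 (List.drop 3 (List.drop 3 (List.drop 3 (List.drop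 3 (List.drop 3 (List.drop 3 (List.drop 3 (List.drop 3 (List.drop 3 (List.drop 3 (List.drop 3 (List.drop 3 (List.drop 3 (List.drop 3 (List.drop 3 (List.drop 3 (List.drop 3 (List.drop 3 (List.drop 3 (List.drop 3 (List.drop 3 (List.drop 3 (List.drop 3 (List.drop 3 (List.drop 3 (List.drop 3 (List.drop 3 (List.drop 3 (List.drop 3 (List.drop 3 (List.drop 3 (List.drop 3 (List.drop 3 (List.drop 3 (List.drop 3 (List.drop 3 (List.drop 3 (List.drop 3 (List.drop 3 (List.drop 3 (List.drop 3 (List.drop 3 (List.drop 3 (List.drop 3 (List.drop 3 (List.drop 3 (List.drop 3 (List.drop 3 (List.drop 3 (List.drop 3 (List.drop 3 (List.drop 3 (List.drop 3 (List.drop 3 (List.drop 3 (List.drop 3 (List.drop 3 (List.drop 3 (List.drop 3 (List.drop 3 (List.drop 3 (List.drop 3 (frac))))))))))))))))))))))))))))))))))))))))))))))))))))))))))))))))))))))))))))))))))))))))))))))))))))))))))))))))))))))))))))))))))))).all (cfgOK sizes cap) = true := by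
  decide +kernel

theorem cfg_132 : (List.take 3 (List.drop 3 (List.drop 3 (List.drop 3 (List.drop 3 (List.drop 3 (List.drop 3 (List.drop 3 (List.drop 3 (List.drop 3 (List.drop 3 (List.drop 3 (List.drop 3 (List.drop 3 (List.drop 3 (List.drop 3 (List.drop 3 (List.drop 3 (List.drop 3 (List.drop 3 (List.drop 3 (List.drop 3 (List.drop 3 (List.drop 3 (List.drop 3 (List.drop 3 (List.drop 3 (List.drop 3 (List.drop 3 (List.drop 3 (List.drop 3 (List.drop 3 (List.drop 3 (List.drop 3 (List.drop 3 (List.drop 3 (List.drop 3 (List.drop 3 (List.drop 3 (List.drop 3 (List.drop 3 (List.drop 3 (List.drop 3 (List.drop 3 (List.drop 3 (List.drop 3 (List.drop 3 (List.drop 3 (List.drop 3 (List.drop 3 (List.drop 3 (List.drop 3 (List.drop 3 (List.drop 3 (List.drop 3 (List.drop 3 (List.drop 3 (List.drop 3 (List.drop 3 (List.drop 3 (List.drop 3 (List.drop 3 (List.drop 3 (List.drop 3 (List.drop 3 (List.drop 3 (List.drop 3 (List.drop 3 (List.drop 3 (List.drop 3 (List.drop 3 (List.drop 3 (List.drop 3 (List.drop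 3 (List.drop 3 (List.drop 3 (List.drop 3 (List.drop 3 (List.drop 3 (List.drop 3 (List.drop 3 (List.drop 3 (List.drop 3 (List.drop 3 (List.drop 3 (List.drop 3 (List.drop 3 (List.drop 3 (List.drop 3 (List.drop 3 (List.drop 3 (List.drop 3 (List.drop 3 (List.drop 3 (List.drop 3 (List.drop 3 (List.drop 3 (List.drop 3 (List.drop 3 (List.drop 3 (List.drop 3 (List.drop 3 (List.drop 3 (List.drop 3 (List.drop 3 (List.drop 3 (List.drop 3 (List.drop 3 (List.drop 3 (List.drop 3 (List.drop 3 (List.drop 3 (List.drop 3 (List.drop 3 (List.drop 3 (List.drop 3 (List.drop 3 (List.drop 3 (List.drop 3 (List.drop 3 (List.drop 3 (List.drop 3 (List.drop 3 (List.drop 3 (List.drop 3 (List.drop 3 (List.drop 3 (List.drop 3 (List.drop 3 (List.drop 3 (List.drop 3 (List.drop 3 (List.drop 3 (frac)))))))))))))))))))))))))))))))))))))))))))))))))))))))))))))))))))))))))))))))))))))))))))))))))))))))))))))))))))))))))))))))))))))).all (cfgOK sizes cap) = true := by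
  decide +kernel

theorem cfg_133 : (List.take 3 (List.drop 3 (List.drop 3 (List.drop 3 (List.drop 3 (List.drop 3 (List.drop 3 (List.drop 3 (List.drop 3 (List.drop 3 (List.drop 3 (List.drop 3 (List.drop 3 (List.drop 3 (List.drop 3 (List.drop 3 (List.drop 3 (List.drop 3 (List.drop 3 (List.drop 3 (List.drop 3 (List.drop 3 (List.drop 3 (List.drop 3 (List.drop 3 (List.drop 3 (List.drop 3 (List.drop 3 (List.drop 3 (List.drop 3 (List.drop 3 (List.drop 3 (List.drop 3 (List.drop 3 (List.drop 3 (List.drop 3 (List.drop 3 (List.drop 3 (List.drop 3 (List.drop 3 (List.drop 3 (List.drop 3 (List.drop 3 (List.drop 3 (List.drop 3 (List.drop 3 (List.drop 3 (List.drop 3 (List.drop 3 (List.drop 3 (List.drop 3 (List.drop 3 (List.drop 3 (List.drop 3 (List.drop 3 (List.drop 3 (List.drop 3 (List.drop 3 (List.drop 3 (List.drop 3 (List.drop 3 (List.drop 3 (List.drop 3 (List.drop 3 (List.drop 3 (List.drop 3 (List.drop 3 (List.drop 3 (List.drop 3 (List.drop 3 (List.drop 3 (List.drop 3 (List.drop 3 (List.drop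 3 (List.drop 3 (List.drop 3 (List.drop 3 (List.drop 3 (List.drop 3 (List.drop 3 (List.drop 3 (List.drop 3 (List.drop 3 (List.drop 3 (List.drop 3 (List.drop 3 (List.drop 3 (List.drop 3 (List.drop 3 (List.drop 3 (List.drop 3 (List.drop 3 (List.drop 3 (List.drop 3 (List.drop 3 (List.drop 3 (List.drop 3 (List.drop 3 (List.drop 3 (List.drop 3 (List.drop 3 (List.drop 3 (List.drop 3 (List.drop 3 (List.drop 3 (List.drop 3 (List.drop 3 (List.drop 3 (List.drop 3 (List.drop 3 (List.drop 3 (List.drop 3 (List.drop 3 (List.drop 3 (List.drop 3 (List.drop 3 (List.drop 3 (List.drop 3 (List.drop 3 (List.drop 3 (List.drop 3 (List.drop 3 (List.drop 3 (List.drop 3 (List.drop 3 (List.drop 3 (List.drop 3 (List.drop 3 (List.drop 3 (List.drop 3 (List.drop 3 (List.drop 3 (List.drop 3 (List.drop 3 (frac))))))))))))))))))))))))))))))))))))))))))))))))))))))))))))))))))))))))))))))))))))))))))))))))))))))))))))))))))))))))))))))))))))))).all (cfgOK sizes cap) = true := by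
  decide +kernel

theorem cfg_134 : (List.take 3 (List.drop 3 (List.drop 3 (List.drop 3 (List.drop 3 (List.drop 3 (List.drop 3 (List.drop 3 (List.drop 3 (List.drop 3 (List.drop 3 (List.drop 3 (List.drop 3 (List.drop 3 (List.drop 3 (List.drop 3 (List.drop 3 (List.drop 3 (List.drop 3 (List.drop 3 (List.drop 3 (List.drop 3 (List.drop 3 (List.drop 3 (List.drop 3 (List.drop 3 (List.drop 3 (List.drop 3 (List.drop 3 (List.drop 3 (List.drop 3 (List.drop 3 (List.drop 3 (List.drop 3 (List.drop 3 (List.drop 3 (List.drop 3 (List.drop 3 (List.drop 3 (List.drop 3 (List.drop 3 (List.drop 3 (List.drop 3 (List.drop 3 (List.drop 3 (List.drop 3 (List.drop 3 (List.drop 3 (List.drop 3 (List.drop 3 (List.drop 3 (List.drop 3 (List.drop 3 (List.drop 3 (List.drop 3 (List.drop 3 (List.drop 3 (List.drop 3 (List.drop 3 (List.drop 3 (List.drop 3 (List.drop 3 (List.drop 3 (List.drop 3 (List.drop 3 (List.drop 3 (List.drop 3 (List.drop 3 (List.drop 3 (List.drop 3 (List.drop 3 (List.drop 3 (List.drop 3 (List.drop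 3 (List.drop 3 (List.drop 3 (List.drop 3 (List.drop 3 (List.drop 3 (List.drop 3 (List.drop 3 (List.drop 3 (List.drop 3 (List.drop 3 (List.drop 3 (List.drop 3 (List.drop 3 (List.drop 3 (List.drop 3 (List.drop 3 (List.drop 3 (List.drop 3 (List.drop 3 (List.drop 3 (List.drop 3 (List.drop 3 (List.drop 3 (List.drop 3 (List.drop 3 (List.drop 3 (List.drop 3 (List.drop 3 (List.drop 3 (List.drop 3 (List.drop 3 (List.drop 3 (List.drop 3 (List.drop 3 (List.drop 3 (List.drop 3 (List.drop 3 (List.drop 3 (List.drop 3 (List.drop 3 (List.drop 3 (List.drop 3 (List.drop 3 (List.drop 3 (List.drop 3 (List.drop 3 (List.drop 3 (List.drop 3 (List.drop 3 (List.drop 3 (List.drop 3 (List.drop 3 (List.drop 3 (List.drop 3 (List.drop 3 (List.drop 3 (List.drop 3 (List.drop 3 (List.drop 3 (List.drop 3 (List.drop 3 (frac)))))))))))))))))))))))))))))))))))))))))))))))))))))))))))))))))))))))))))))))))))))))))))))))))))))))))))))))))))))))))))))))))))))))).all (cfgOK sizes cap) = true := by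
  decide +kernel

theorem cfg_135 : (List.take 3 (List.drop 3 (List.drop 3 (List.drop 3 (List.drop 3 (List.drop 3 (List.drop 3 (List.drop 3 (List.drop 3 (List.drop 3 (List.drop 3 (List.drop 3 (List.drop 3 (List.drop 3 (List.drop 3 (List.drop 3 (List.drop 3 (List.drop 3 (List.drop 3 (List.drop 3 (List.drop 3 (List.drop 3 (List.drop 3 (List.drop 3 (List.drop 3 (List.drop 3 (List.drop 3 (List.drop 3 (List.drop 3 (List.drop 3 (List.drop 3 (List.drop 3 (List.drop 3 (List.drop 3 (List.drop 3 (List.drop 3 (List.drop 3 (List.drop 3 (List.drop 3 (List.drop 3 (List.drop 3 (List.drop 3 (List.drop 3 (List.drop 3 (List.drop 3 (List.drop 3 (List.drop 3 (List.drop 3 (List.drop 3 (List.drop 3 (List.drop 3 (List.drop 3 (List.drop 3 (List.drop 3 (List.drop 3 (List.drop 3 (List.drop 3 (List.drop 3 (List.drop 3 (List.drop 3 (List.drop 3 (List.drop 3 (List.drop 3 (List.drop 3 (List.drop 3 (List.drop 3 (List.drop 3 (List.drop 3 (List.drop 3 (List.drop 3 (List.drop 3 (List.drop 3 (List.drop 3 (List.drop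 3 (List.drop 3 (List.drop 3 (List.drop 3 (List.drop 3 (List.drop 3 (List.drop 3 (List.drop 3 (List.drop 3 (List.drop 3 (List.drop 3 (List.drop 3 (List.drop 3 (List.drop 3 (List.drop 3 (List.drop 3 (List.drop 3 (List.drop 3 (List.drop 3 (List.drop 3 (List.drop 3 (List.drop 3 (List.drop 3 (List.drop 3 (List.drop 3 (List.drop 3 (List.drop 3 (List.drop 3 (List.drop 3 (List.drop 3 (List.drop 3 (List.drop 3 (List.drop 3 (List.drop 3 (List.drop 3 (List.drop 3 (List.drop 3 (List.drop 3 (List.drop 3 (List.drop 3 (List.drop 3 (List.drop 3 (List.drop 3 (List.drop 3 (List.drop 3 (List.drop 3 (List.drop 3 (List.drop 3 (List.drop 3 (List.drop 3 (List.drop 3 (List.drop 3 (List.drop 3 (List.drop 3 (List.drop 3 (List.drop 3 (List.drop 3 (List.drop 3 (List.drop 3 (List.drop 3 (List.drop 3 (List.drop 3 (List.drop 3 (frac))))))))))))))))))))))))))))))))))))))))))))))))))))))))))))))))))))))))))))))))))))))))))))))))))))))))))))))))))))))))))))))))))))))))).all (cfgOK sizes cap) = true := by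
  decide +kernel

theorem cfg_136 : (List.take 3 (List.drop 3 (List.drop 3 (List.drop 3 (List.drop 3 (List.drop 3 (List.drop 3 (List.drop 3 (List.drop 3 (List.drop 3 (List.drop 3 (List.drop 3 (List.drop 3 (List.drop 3 (List.drop 3 (List.drop 3 (List.drop 3 (List.drop 3 (List.drop 3 (List.drop 3 (List.drop 3 (List.drop 3 (List.drop 3 (List.drop 3 (List.drop 3 (List.drop 3 (List.drop 3 (List.drop 3 (List.drop 3 (List.drop 3 (List.drop 3 (List.drop 3 (List.drop 3 (List.drop 3 (List.drop 3 (List.drop 3 (List.drop 3 (List.drop 3 (List.drop 3 (List.drop 3 (List.drop 3 (List.drop 3 (List.drop 3 (List.drop 3 (List.drop 3 (List.drop 3 (List.drop 3 (List.drop 3 (List.drop 3 (List.drop 3 (List.drop 3 (List.drop 3 (List.drop 3 (List.drop 3 (List.drop 3 (List.drop 3 (List.drop 3 (List.drop 3 (List.drop 3 (List.drop 3 (List.drop 3 (List.drop 3 (List.drop 3 (List.drop 3 (List.drop 3 (List.drop 3 (List.drop 3 (List.drop 3 (List.drop 3 (List.drop 3 (List.drop 3 (List.drop 3 (List.drop 3 (List.drop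 3 (List.drop 3 (List.drop 3 (List.drop 3 (List.drop 3 (List.drop 3 (List.drop 3 (List.drop 3 (List.drop 3 (List.drop 3 (List.drop 3 (List.drop 3 (List.drop 3 (List.drop 3 (List.drop 3 (List.drop 3 (List.drop 3 (List.drop 3 (List.drop 3 (List.drop 3 (List.drop 3 (List.drop 3 (List.drop 3 (List.drop 3 (List.drop 3 (List.drop 3 (List.drop 3 (List.drop 3 (List.drop 3 (List.drop 3 (List.drop 3 (List.drop 3 (List.drop 3 (List.drop 3 (List.drop 3 (List.drop 3 (List.drop 3 (List.drop 3 (List.drop 3 (List.drop 3 (List.drop 3 (List.drop 3 (List.drop 3 (List.drop 3 (List.drop 3 (List.drop 3 (List.drop 3 (List.drop 3 (List.drop 3 (List.drop 3 (List.drop 3 (List.drop 3 (List.drop 3 (List.drop 3 (List.drop 3 (List.drop 3 (List.drop 3 (List.drop 3 (List.drop 3 (List.drop 3 (List.drop 3 (List.drop 3 (List.drop 3 (List.drop 3 (frac)))))))))))))))))))))))))))))))))))))))))))))))))))))))))))))))))))))))))))))))))))))))))))))))))))))))))))))))))))))))))))))))))))))))))).all (cfgOK sizes cap) = true :=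 by
  decide +kernel

theorem cfg_137 : (List.take 3 (List.drop 3 (List.drop 3 (List.drop 3 (List.drop 3 (List.drop 3 (List.drop 3 (List.drop 3 (List.drop 3 (List.drop 3 (List.drop 3 (List.drop 3 (List.drop 3 (List.drop 3 (List.drop 3 (List.drop 3 (List.drop 3 (List.drop 3 (List.drop 3 (List.drop 3 (List.drop 3 (List.drop 3 (List.drop 3 (List.drop 3 (List.drop 3 (List.drop 3 (List.drop 3 (List.drop 3 (List.drop 3 (List.drop 3 (List.drop 3 (List.drop 3 (List.drop 3 (List.drop 3 (List.drop 3 (List.drop 3 (List.drop 3 (List.drop 3 (List.drop 3 (List.drop 3 (List.drop 3 (List.drop 3 (List.drop 3 (List.drop 3 (List.drop 3 (List.drop 3 (List.drop 3 (List.drop 3 (List.drop 3 (List.drop 3 (List.drop 3 (List.drop 3 (List.drop 3 (List.drop 3 (List.drop 3 (List.drop 3 (List.drop 3 (List.drop 3 (List.drop 3 (List.drop 3 (List.drop 3 (List.drop 3 (List.drop 3 (List.drop 3 (List.drop 3 (List.drop 3 (List.drop 3 (List.drop 3 (List.drop 3 (List.drop 3 (List.drop 3 (List.drop 3 (List.drop 3 (List.drop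 3 (List.drop 3 (List.drop 3 (List.drop 3 (List.drop 3 (List.drop 3 (List.drop 3 (List.drop 3 (List.drop 3 (List.drop 3 (List.drop 3 (List.drop 3 (List.drop 3 (List.drop 3 (List.drop 3 (List.drop 3 (List.drop 3 (List.drop 3 (List.drop 3 (List.drop 3 (List.drop 3 (List.drop 3 (List.drop 3 (List.drop 3 (List.drop 3 (List.drop 3 (List.drop 3 (List.drop 3 (List.drop 3 (List.drop 3 (List.drop 3 (List.drop 3 (List.drop 3 (List.drop 3 (List.drop 3 (List.drop 3 (List.drop 3 (List.drop 3 (List.drop 3 (List.drop 3 (List.drop 3 (List.drop 3 (List.drop 3 (List.drop 3 (List.drop 3 (List.drop 3 (List.drop 3 (List.drop 3 (List.drop 3 (List.drop 3 (List.drop 3 (List.drop 3 (List.drop 3 (List.drop 3 (List.drop 3 (List.drop 3 (List.drop 3 (List.drop 3 (List.drop 3 (List.drop 3 (List.drop 3 (List.drop 3 (List.drop 3 (List.drop 3 (List.drop 3 (frac))))))))))))))))))))))))))))))))))))))))))))))))))))))))))))))))))))))))))))))))))))))))))))))))))))))))))))))))))))))))))))))))))))))))))).all (cfgOK sizes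 cap) = true := by
  decide +kernel

theorem cfg_138 : (List.take 3 (List.drop 3 (List.drop 3 (List.drop 3 (List.drop 3 (List.drop 3 (List.drop 3 (List.drop 3 (List.drop 3 (List.drop 3 (List.drop 3 (List.drop 3 (List.drop 3 (List.drop 3 (List.drop 3 (List.drop 3 (List.drop 3 (List.drop 3 (List.drop 3 (List.drop 3 (List.drop 3 (List.drop 3 (List.drop 3 (List.drop 3 (List.drop 3 (List.drop 3 (List.drop 3 (List.drop 3 (List.drop 3 (List.drop 3 (List.drop 3 (List.drop 3 (List.drop 3 (List.drop 3 (List.drop 3 (List.drop 3 (List.drop 3 (List.drop 3 (List.drop 3 (List.drop 3 (List.drop 3 (List.drop 3 (List.drop 3 (List.drop 3 (List.drop 3 (List.drop 3 (List.drop 3 (List.drop 3 (List.drop 3 (List.drop 3 (List.drop 3 (List.drop 3 (List.drop 3 (List.drop 3 (List.drop 3 (List.drop 3 (List.drop 3 (List.drop 3 (List.drop 3 (List.drop 3 (List.drop 3 (List.drop 3 (List.drop 3 (List.drop 3 (List.drop 3 (List.drop 3 (List.drop 3 (List.drop 3 (List.drop 3 (List.drop 3 (List.drop 3 (List.drop 3 (List.drop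 3 (List.drop 3 (List.drop 3 (List.drop 3 (List.drop 3 (List.drop 3 (List.drop 3 (List.drop 3 (List.drop 3 (List.drop 3 (List.drop 3 (List.drop 3 (List.drop 3 (List.drop 3 (List.drop 3 (List.drop 3 (List.drop 3 (List.drop 3 (List.drop 3 (List.drop 3 (List.drop 3 (List.drop 3 (List.drop 3 (List.drop 3 (List.drop 3 (List.drop 3 (List.drop 3 (List.drop 3 (List.drop 3 (List.drop 3 (List.drop 3 (List.drop 3 (List.drop 3 (List.drop 3 (List.drop 3 (List.drop 3 (List.drop 3 (List.drop 3 (List.drop 3 (List.drop 3 (List.drop 3 (List.drop 3 (List.drop 3 (List.drop 3 (List.drop 3 (List.drop 3 (List.drop 3 (List.drop 3 (List.drop 3 (List.drop 3 (List.drop 3 (List.drop 3 (List.drop 3 (List.drop 3 (List.drop 3 (List.drop 3 (List.drop 3 (List.drop 3 (List.drop 3 (List.drop 3 (List.drop 3 (List.drop 3 (List.drop 3 (List.drop 3 (List.drop 3 (List.drop 3 (List.drop 3 (frac)))))))))))))))))))))))))))))))))))))))))))))))))))))))))))))))))))))))))))))))))))))))))))))))))))))))))))))))))))))))))))))))))))))))))))).all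 (cfgOK sizes cap) = true := by
  decide +kernel

theorem cfg_139 : (List.take 3 (List.drop 3 (List.drop 3 (List.drop 3 (List.drop 3 (List.drop 3 (List.drop 3 (List.drop 3 (List.drop 3 (List.drop 3 (List.drop 3 (List.drop 3 (List.drop 3 (List.drop 3 (List.drop 3 (List.drop 3 (List.drop 3 (List.drop 3 (List.drop 3 (List.drop 3 (List.drop 3 (List.drop 3 (List.drop 3 (List.drop 3 (List.drop 3 (List.drop 3 (List.drop 3 (List.drop 3 (List.drop 3 (List.drop 3 (List.drop 3 (List.drop 3 (List.drop 3 (List.drop 3 (List.drop 3 (List.drop 3 (List.drop 3 (List.drop 3 (List.drop 3 (List.drop 3 (List.drop 3 (List.drop 3 (List.drop 3 (List.drop 3 (List.drop 3 (List.drop 3 (List.drop 3 (List.drop 3 (List.drop 3 (List.drop 3 (List.drop 3 (List.drop 3 (List.drop 3 (List.drop 3 (List.drop 3 (List.drop 3 (List.drop 3 (List.drop 3 (List.drop 3 (List.drop 3 (List.drop 3 (List.drop 3 (List.drop 3 (List.drop 3 (List.drop 3 (List.drop 3 (List.drop 3 (List.drop 3 (List.drop 3 (List.drop 3 (List.drop 3 (List.drop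 3 (List.drop 3 (List.drop 3 (List.drop 3 (List.drop 3 (List.drop 3 (List.drop 3 (List.drop 3 (List.drop 3 (List.drop 3 (List.drop 3 (List.drop 3 (List.drop 3 (List.drop 3 (List.drop 3 (List.drop 3 (List.drop 3 (List.drop 3 (List.drop 3 (List.drop 3 (List.drop 3 (List.drop 3 (List.drop 3 (List.drop 3 (List.drop 3 (List.drop 3 (List.drop 3 (List.drop 3 (List.drop 3 (List.drop 3 (List.drop 3 (List.drop 3 (List.drop 3 (List.drop 3 (List.drop 3 (List.drop 3 (List.drop 3 (List.drop 3 (List.drop 3 (List.drop 3 (List.drop 3 (List.drop 3 (List.drop 3 (List.drop 3 (List.drop 3 (List.drop 3 (List.drop 3 (List.drop 3 (List.drop 3 (List.drop 3 (List.drop 3 (List.drop 3 (List.drop 3 (List.drop 3 (List.drop 3 (List.drop 3 (List.drop 3 (List.drop 3 (List.drop 3 (List.drop 3 (List.drop 3 (List.drop 3 (List.drop 3 (List.drop 3 (List.drop 3 (List.drop 3 (List.drop 3 (List.drop 3 (List.drop 3 (frac))))))))))))))))))))))))))))))))))))))))))))))))))))))))))))))))))))))))))))))))))))))))))))))))))))))))))))))))))))))))))))))))))))))))))))).all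 (cfgOK sizes cap) = true := by
  decide +kernel

theorem cfg_140 : (List.take 3 (List.drop 3 (List.drop 3 (List.drop 3 (List.drop 3 (List.drop 3 (List.drop 3 (List.drop 3 (List.drop 3 (List.drop 3 (List.drop 3 (List.drop 3 (List.drop 3 (List.drop 3 (List.drop 3 (List.drop 3 (List.drop 3 (List.drop 3 (List.drop 3 (List.drop 3 (List.drop 3 (List.drop 3 (List.drop 3 (List.drop 3 (List.drop 3 (List.drop 3 (List.drop 3 (List.drop 3 (List.drop 3 (List.drop 3 (List.drop 3 (List.drop 3 (List.drop 3 (List.drop 3 (List.drop 3 (List.drop 3 (List.drop 3 (List.drop 3 (List.drop 3 (List.drop 3 (List.drop 3 (List.drop 3 (List.drop 3 (List.drop 3 (List.drop 3 (List.drop 3 (List.drop 3 (List.drop 3 (List.drop 3 (List.drop 3 (List.drop 3 (List.drop 3 (List.drop 3 (List.drop 3 (List.drop 3 (List.drop 3 (List.drop 3 (List.drop 3 (List.drop 3 (List.drop 3 (List.drop 3 (List.drop 3 (List.drop 3 (List.drop 3 (List.drop 3 (List.drop 3 (List.drop 3 (List.drop 3 (List.drop 3 (List.drop 3 (List.drop 3 (List.drop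 3 (List.drop 3 (List.drop 3 (List.drop 3 (List.drop 3 (List.drop 3 (List.drop 3 (List.drop 3 (List.drop 3 (List.drop 3 (List.drop 3 (List.drop 3 (List.drop 3 (List.drop 3 (List.drop 3 (List.drop 3 (List.drop 3 (List.drop 3 (List.drop 3 (List.drop 3 (List.drop 3 (List.drop 3 (List.drop 3 (List.drop 3 (List.drop 3 (List.drop 3 (List.drop 3 (List.drop 3 (List.drop 3 (List.drop 3 (List.drop 3 (List.drop 3 (List.drop 3 (List.drop 3 (List.drop 3 (List.drop 3 (List.drop 3 (List.drop 3 (List.drop 3 (List.drop 3 (List.drop 3 (List.drop 3 (List.drop 3 (List.drop 3 (List.drop 3 (List.drop 3 (List.drop 3 (List.drop 3 (List.drop 3 (List.drop 3 (List.drop 3 (List.drop 3 (List.drop 3 (List.drop 3 (List.drop 3 (List.drop 3 (List.drop 3 (List.drop 3 (List.drop 3 (List.drop 3 (List.drop 3 (List.drop 3 (List.drop 3 (List.drop 3 (List.drop 3 (List.drop 3 (List.drop 3 (List.drop 3 (List.drop 3 (List.drop 3 (frac)))))))))))))))))))))))))))))))))))))))))))))))))))))))))))))))))))))))))))))))))))))))))))))))))))))))))))))))))))))))))))))))))))))))))))))).all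 (cfgOK sizes cap) = true := by
  decide +kernel

theorem cfg_141 : (List.take 3 (List.drop 3 (List.drop 3 (List.drop 3 (List.drop 3 (List.drop 3 (List.drop 3 (List.drop 3 (List.drop 3 (List.drop 3 (List.drop 3 (List.drop 3 (List.drop 3 (List.drop 3 (List.drop 3 (List.drop 3 (List.drop 3 (List.drop 3 (List.drop 3 (List.drop 3 (List.drop 3 (List.drop 3 (List.drop 3 (List.drop 3 (List.drop 3 (List.drop 3 (List.drop 3 (List.drop 3 (List.drop 3 (List.drop 3 (List.drop 3 (List.drop 3 (List.drop 3 (List.drop 3 (List.drop 3 (List.drop 3 (List.drop 3 (List.drop 3 (List.drop 3 (List.drop 3 (List.drop 3 (List.drop 3 (List.drop 3 (List.drop 3 (List.drop 3 (List.drop 3 (List.drop 3 (List.drop 3 (List.drop 3 (List.drop 3 (List.drop 3 (List.drop 3 (List.drop 3 (List.drop 3 (List.drop 3 (List.drop 3 (List.drop 3 (List.drop 3 (List.drop 3 (List.drop 3 (List.drop 3 (List.drop 3 (List.drop 3 (List.drop 3 (List.drop 3 (List.drop 3 (List.drop 3 (List.drop 3 (List.drop 3 (List.drop 3 (List.drop 3 (List.drop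 3 (List.drop 3 (List.drop 3 (List.drop 3 (List.drop 3 (List.drop 3 (List.drop 3 (List.drop 3 (List.drop 3 (List.drop 3 (List.drop 3 (List.drop 3 (List.drop 3 (List.drop 3 (List.drop 3 (List.drop 3 (List.drop 3 (List.drop 3 (List.drop 3 (List.drop 3 (List.drop 3 (List.drop 3 (List.drop 3 (List.drop 3 (List.drop 3 (List.drop 3 (List.drop 3 (List.drop 3 (List.drop 3 (List.drop 3 (List.drop 3 (List.drop 3 (List.drop 3 (List.drop 3 (List.drop 3 (List.drop 3 (List.drop 3 (List.drop 3 (List.drop 3 (List.drop 3 (List.drop 3 (List.drop 3 (List.drop 3 (List.drop 3 (List.drop 3 (List.drop 3 (List.drop 3 (List.drop 3 (List.drop 3 (List.drop 3 (List.drop 3 (List.drop 3 (List.drop 3 (List.drop 3 (List.drop 3 (List.drop 3 (List.drop 3 (List.drop 3 (List.drop 3 (List.drop 3 (List.drop 3 (List.drop 3 (List.drop 3 (List.drop 3 (List.drop 3 (List.drop 3 (List.drop 3 (List.drop 3 (List.drop 3 (List.drop 3 (List.drop 3 (frac))))))))))))))))))))))))))))))))))))))))))))))))))))))))))))))))))))))))))))))))))))))))))))))))))))))))))))))))))))))))))))))))))))))))))))))).all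 (cfgOK sizes cap) = true := by
  decide +kernel

theorem cfg_142 : (List.take 3 (List.drop 3 (List.drop 3 (List.drop 3 (List.drop 3 (List.drop 3 (List.drop 3 (List.drop 3 (List.drop 3 (List.drop 3 (List.drop 3 (List.drop 3 (List.drop 3 (List.drop 3 (List.drop 3 (List.drop 3 (List.drop 3 (List.drop 3 (List.drop 3 (List.drop 3 (List.drop 3 (List.drop 3 (List.drop 3 (List.drop 3 (List.drop 3 (List.drop 3 (List.drop 3 (List.drop 3 (List.drop 3 (List.drop 3 (List.drop 3 (List.drop 3 (List.drop 3 (List.drop 3 (List.drop 3 (List.drop 3 (List.drop 3 (List.drop 3 (List.drop 3 (List.drop 3 (List.drop 3 (List.drop 3 (List.drop 3 (List.drop 3 (List.drop 3 (List.drop 3 (List.drop 3 (List.drop 3 (List.drop 3 (List.drop 3 (List.drop 3 (List.drop 3 (List.drop 3 (List.drop 3 (List.drop 3 (List.drop 3 (List.drop 3 (List.drop 3 (List.drop 3 (List.drop 3 (List.drop 3 (List.drop 3 (List.drop 3 (List.drop 3 (List.drop 3 (List.drop 3 (List.drop 3 (List.drop 3 (List.drop 3 (List.drop 3 (List.drop 3 (List.drop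 3 (List.drop 3 (List.drop 3 (List.drop 3 (List.drop 3 (List.drop 3 (List.drop 3 (List.drop 3 (List.drop 3 (List.drop 3 (List.drop 3 (List.drop 3 (List.drop 3 (List.drop 3 (List.drop 3 (List.drop 3 (List.drop 3 (List.drop 3 (List.drop 3 (List.drop 3 (List.drop 3 (List.drop 3 (List.drop 3 (List.drop 3 (List.drop 3 (List.drop 3 (List.drop 3 (List.drop 3 (List.drop 3 (List.drop 3 (List.drop 3 (List.drop 3 (List.drop 3 (List.drop 3 (List.drop 3 (List.drop 3 (List.drop 3 (List.drop 3 (List.drop 3 (List.drop 3 (List.drop 3 (List.drop 3 (List.drop 3 (List.drop 3 (List.drop 3 (List.drop 3 (List.drop 3 (List.drop 3 (List.drop 3 (List.drop 3 (List.drop 3 (List.drop 3 (List.drop 3 (List.drop 3 (List.drop 3 (List.drop 3 (List.drop 3 (List.drop 3 (List.drop 3 (List.drop 3 (List.drop 3 (List.drop 3 (List.drop 3 (List.drop 3 (List.drop 3 (List.drop 3 (List.drop 3 (List.drop 3 (List.drop 3 (List.drop 3 (List.drop 3 (List.drop 3 (frac)))))))))))))))))))))))))))))))))))))))))))))))))))))))))))))))))))))))))))))))))))))))))))))))))))))))))))))))))))))))))))))))))))))))))))))))).all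 (cfgOK sizes cap) = true := by
  decide +kernel

theorem cfg_143 : (List.take 3 (List.drop 3 (List.drop 3 (List.drop 3 (List.drop 3 (List.drop 3 (List.drop 3 (List.drop 3 (List.drop 3 (List.drop 3 (List.drop 3 (List.drop 3 (List.drop 3 (List.drop 3 (List.drop 3 (List.drop 3 (List.drop 3 (List.drop 3 (List.drop 3 (List.drop 3 (List.drop 3 (List.drop 3 (List.drop 3 (List.drop 3 (List.drop 3 (List.drop 3 (List.drop 3 (List.drop 3 (List.drop 3 (List.drop 3 (List.drop 3 (List.drop 3 (List.drop 3 (List.drop 3 (List.drop 3 (List.drop 3 (List.drop 3 (List.drop 3 (List.drop 3 (List.drop 3 (List.drop 3 (List.drop 3 (List.drop 3 (List.drop 3 (List.drop 3 (List.drop 3 (List.drop 3 (List.drop 3 (List.drop 3 (List.drop 3 (List.drop 3 (List.drop 3 (List.drop 3 (List.drop 3 (List.drop 3 (List.drop 3 (List.drop 3 (List.drop 3 (List.drop 3 (List.drop 3 (List.drop 3 (List.drop 3 (List.drop 3 (List.drop 3 (List.drop 3 (List.drop 3 (List.drop 3 (List.drop 3 (List.drop 3 (List.drop 3 (List.drop 3 (List.drop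 3 (List.drop 3 (List.drop 3 (List.drop 3 (List.drop 3 (List.drop 3 (List.drop 3 (List.drop 3 (List.drop 3 (List.drop 3 (List.drop 3 (List.drop 3 (List.drop 3 (List.drop 3 (List.drop 3 (List.drop 3 (List.drop 3 (List.drop 3 (List.drop 3 (List.drop 3 (List.drop 3 (List.drop 3 (List.drop 3 (List.drop 3 (List.drop 3 (List.drop 3 (List.drop 3 (List.drop 3 (List.drop 3 (List.drop 3 (List.drop 3 (List.drop 3 (List.drop 3 (List.drop 3 (List.drop 3 (List.drop 3 (List.drop 3 (List.drop 3 (List.drop 3 (List.drop 3 (List.drop 3 (List.drop 3 (List.drop 3 (List.drop 3 (List.drop 3 (List.drop 3 (List.drop 3 (List.drop 3 (List.drop 3 (List.drop 3 (List.drop 3 (List.drop 3 (List.drop 3 (List.drop 3 (List.drop 3 (List.drop 3 (List.drop 3 (List.drop 3 (List.drop 3 (List.drop 3 (List.drop 3 (List.drop 3 (List.drop 3 (List.drop 3 (List.drop 3 (List.drop 3 (List.drop 3 (List.drop 3 (List.drop 3 (List.drop 3 (List.drop 3 (List.drop 3 (List.drop 3 (frac))))))))))))))))))))))))))))))))))))))))))))))))))))))))))))))))))))))))))))))))))))))))))))))))))))))))))))))))))))))))))))))))))))))))))))))))).all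 (cfgOK sizes cap) = true := by
  decide +kernel

theorem cfg_144 : (List.take 3 (List.drop 3 (List.drop 3 (List.drop 3 (List.drop 3 (List.drop 3 (List.drop 3 (List.drop 3 (List.drop 3 (List.drop 3 (List.drop 3 (List.drop 3 (List.drop 3 (List.drop 3 (List.drop 3 (List.drop 3 (List.drop 3 (List.drop 3 (List.drop 3 (List.drop 3 (List.drop 3 (List.drop 3 (List.drop 3 (List.drop 3 (List.drop 3 (List.drop 3 (List.drop 3 (List.drop 3 (List.drop 3 (List.drop 3 (List.drop 3 (List.drop 3 (List.drop 3 (List.drop 3 (List.drop 3 (List.drop 3 (List.drop 3 (List.drop 3 (List.drop 3 (List.drop 3 (List.drop 3 (List.drop 3 (List.drop 3 (List.drop 3 (List.drop 3 (List.drop 3 (List.drop 3 (List.drop 3 (List.drop 3 (List.drop 3 (List.drop 3 (List.drop 3 (List.drop 3 (List.drop 3 (List.drop 3 (List.drop 3 (List.drop 3 (List.drop 3 (List.drop 3 (List.drop 3 (List.drop 3 (List.drop 3 (List.drop 3 (List.drop 3 (List.drop 3 (List.drop 3 (List.drop 3 (List.drop 3 (List.drop 3 (List.drop 3 (List.drop 3 (List.drop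 3 (List.drop 3 (List.drop 3 (List.drop 3 (List.drop 3 (List.drop 3 (List.drop 3 (List.drop 3 (List.drop 3 (List.drop 3 (List.drop 3 (List.drop 3 (List.drop 3 (List.drop 3 (List.drop 3 (List.drop 3 (List.drop 3 (List.drop 3 (List.drop 3 (List.drop 3 (List.drop 3 (List.drop 3 (List.drop 3 (List.drop 3 (List.drop 3 (List.drop 3 (List.drop 3 (List.drop 3 (List.drop 3 (List.drop 3 (List.drop 3 (List.drop 3 (List.drop 3 (List.drop 3 (List.drop 3 (List.drop 3 (List.drop 3 (List.drop 3 (List.drop 3 (List.drop 3 (List.drop 3 (List.drop 3 (List.drop 3 (List.drop 3 (List.drop 3 (List.drop 3 (List.drop 3 (List.drop 3 (List.drop 3 (List.drop 3 (List.drop 3 (List.drop 3 (List.drop 3 (List.drop 3 (List.drop 3 (List.drop 3 (List.drop 3 (List.drop 3 (List.drop 3 (List.drop 3 (List.drop 3 (List.drop 3 (List.drop 3 (List.drop 3 (List.drop 3 (List.drop 3 (List.drop 3 (List.drop 3 (List.drop 3 (List.drop 3 (List.drop 3 (List.drop 3 (List.drop 3 (List.drop 3 (frac)))))))))))))))))))))))))))))))))))))))))))))))))))))))))))))))))))))))))))))))))))))))))))))))))))))))))))))))))))))))))))))))))))))))))))))))))).all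 (cfgOK sizes cap) = true := by
  decide +kernel

theorem cfg_145 : (List.take 3 (List.drop 3 (List.drop 3 (List.drop 3 (List.drop 3 (List.drop 3 (List.drop 3 (List.drop 3 (List.drop 3 (List.drop 3 (List.drop 3 (List.drop 3 (List.drop 3 (List.drop 3 (List.drop 3 (List.drop 3 (List.drop 3 (List.drop 3 (List.drop 3 (List.drop 3 (List.drop 3 (List.drop 3 (List.drop 3 (List.drop 3 (List.drop 3 (List.drop 3 (List.drop 3 (List.drop 3 (List.drop 3 (List.drop 3 (List.drop 3 (List.drop 3 (List.drop 3 (List.drop 3 (List.drop 3 (List.drop 3 (List.drop 3 (List.drop 3 (List.drop 3 (List.drop 3 (List.drop 3 (List.drop 3 (List.drop 3 (List.drop 3 (List.drop 3 (List.drop 3 (List.drop 3 (List.drop 3 (List.drop 3 (List.drop 3 (List.drop 3 (List.drop 3 (List.drop 3 (List.drop 3 (List.drop 3 (List.drop 3 (List.drop 3 (List.drop 3 (List.drop 3 (List.drop 3 (List.drop 3 (List.drop 3 (List.drop 3 (List.drop 3 (List.drop 3 (List.drop 3 (List.drop 3 (List.drop 3 (List.drop 3 (List.drop 3 (List.drop 3 (List.drop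 3 (List.drop 3 (List.drop 3 (List.drop 3 (List.drop 3 (List.drop 3 (List.drop 3 (List.drop 3 (List.drop 3 (List.drop 3 (List.drop 3 (List.drop 3 (List.drop 3 (List.drop 3 (List.drop 3 (List.drop 3 (List.drop 3 (List.drop 3 (List.drop 3 (List.drop 3 (List.drop 3 (List.drop 3 (List.drop 3 (List.drop 3 (List.drop 3 (List.drop 3 (List.drop 3 (List.drop 3 (List.drop 3 (List.drop 3 (List.drop 3 (List.drop 3 (List.drop 3 (List.drop 3 (List.drop 3 (List.drop 3 (List.drop 3 (List.drop 3 (List.drop 3 (List.drop 3 (List.drop 3 (List.drop 3 (List.drop 3 (List.drop 3 (List.drop 3 (List.drop 3 (List.drop 3 (List.drop 3 (List.drop 3 (List.drop 3 (List.drop 3 (List.drop 3 (List.drop 3 (List.drop 3 (List.drop 3 (List.drop 3 (List.drop 3 (List.drop 3 (List.drop 3 (List.drop 3 (List.drop 3 (List.drop 3 (List.drop 3 (List.drop 3 (List.drop 3 (List.drop 3 (List.drop 3 (List.drop 3 (List.drop 3 (List.drop 3 (List.drop 3 (List.drop 3 (List.drop 3 (List.drop 3 (List.drop 3 (frac))))))))))))))))))))))))))))))))))))))))))))))))))))))))))))))))))))))))))))))))))))))))))))))))))))))))))))))))))))))))))))))))))))))))))))))))))).all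 (cfgOK sizes cap) = true := by
  decide +kernel

theorem cfg_146 : (List.take 3 (List.drop 3 (List.drop 3 (List.drop 3 (List.drop 3 (List.drop 3 (List.drop 3 (List.drop 3 (List.drop 3 (List.drop 3 (List.drop 3 (List.drop 3 (List.drop 3 (List.drop 3 (List.drop 3 (List.drop 3 (List.drop 3 (List.drop 3 (List.drop 3 (List.drop 3 (List.drop 3 (List.drop 3 (List.drop 3 (List.drop 3 (List.drop 3 (List.drop 3 (List.drop 3 (List.drop 3 (List.drop 3 (List.drop 3 (List.drop 3 (List.drop 3 (List.drop 3 (List.drop 3 (List.drop 3 (List.drop 3 (List.drop 3 (List.drop 3 (List.drop 3 (List.drop 3 (List.drop 3 (List.drop 3 (List.drop 3 (List.drop 3 (List.drop 3 (List.drop 3 (List.drop 3 (List.drop 3 (List.drop 3 (List.drop 3 (List.drop 3 (List.drop 3 (List.drop 3 (List.drop 3 (List.drop 3 (List.drop 3 (List.drop 3 (List.drop 3 (List.drop 3 (List.drop 3 (List.drop 3 (List.drop 3 (List.drop 3 (List.drop 3 (List.drop 3 (List.drop 3 (List.drop 3 (List.drop 3 (List.drop 3 (List.drop 3 (List.drop 3 (List.drop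 3 (List.drop 3 (List.drop 3 (List.drop 3 (List.drop 3 (List.drop 3 (List.drop 3 (List.drop 3 (List.drop 3 (List.drop 3 (List.drop 3 (List.drop 3 (List.drop 3 (List.drop 3 (List.drop 3 (List.drop 3 (List.drop 3 (List.drop 3 (List.drop 3 (List.drop 3 (List.drop 3 (List.drop 3 (List.drop 3 (List.drop 3 (List.drop 3 (List.drop 3 (List.drop 3 (List.drop 3 (List.drop 3 (List.drop 3 (List.drop 3 (List.drop 3 (List.drop 3 (List.drop 3 (List.drop 3 (List.drop 3 (List.drop 3 (List.drop 3 (List.drop 3 (List.drop 3 (List.drop 3 (List.drop 3 (List.drop 3 (List.drop 3 (List.drop 3 (List.drop 3 (List.drop 3 (List.drop 3 (List.drop 3 (List.drop 3 (List.drop 3 (List.drop 3 (List.drop 3 (List.drop 3 (List.drop 3 (List.drop 3 (List.drop 3 (List.drop 3 (List.drop 3 (List.drop 3 (List.drop 3 (List.drop 3 (List.drop 3 (List.drop 3 (List.drop 3 (List.drop 3 (List.drop 3 (List.drop 3 (List.drop 3 (List.drop 3 (List.drop 3 (List.drop 3 (List.drop 3 (List.drop 3 (List.drop 3 (List.drop 3 (frac)))))))))))))))))))))))))))))))))))))))))))))))))))))))))))))))))))))))))))))))))))))))))))))))))))))))))))))))))))))))))))))))))))))))))))))))))))).all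 (cfgOK sizes cap) = true := by
  decide +kernel

theorem cfg_147 : (List.take 3 (List.drop 3 (List.drop 3 (List.drop 3 (List.drop 3 (List.drop 3 (List.drop 3 (List.drop 3 (List.drop 3 (List.drop 3 (List.drop 3 (List.drop 3 (List.drop 3 (List.drop 3 (List.drop 3 (List.drop 3 (List.drop 3 (List.drop 3 (List.drop 3 (List.drop 3 (List.drop 3 (List.drop 3 (List.drop 3 (List.drop 3 (List.drop 3 (List.drop 3 (List.drop 3 (List.drop 3 (List.drop 3 (List.drop 3 (List.drop 3 (List.drop 3 (List.drop 3 (List.drop 3 (List.drop 3 (List.drop 3 (List.drop 3 (List.drop 3 (List.drop 3 (List.drop 3 (List.drop 3 (List.drop 3 (List.drop 3 (List.drop 3 (List.drop 3 (List.drop 3 (List.drop 3 (List.drop 3 (List.drop 3 (List.drop 3 (List.drop 3 (List.drop 3 (List.drop 3 (List.drop 3 (List.drop 3 (List.drop 3 (List.drop 3 (List.drop 3 (List.drop 3 (List.drop 3 (List.drop 3 (List.drop 3 (List.drop 3 (List.drop 3 (List.drop 3 (List.drop 3 (List.drop 3 (List.drop 3 (List.drop 3 (List.drop 3 (List.drop 3 (List.drop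 3 (List.drop 3 (List.drop 3 (List.drop 3 (List.drop 3 (List.drop 3 (List.drop 3 (List.drop 3 (List.drop 3 (List.drop 3 (List.drop 3 (List.drop 3 (List.drop 3 (List.drop 3 (List.drop 3 (List.drop 3 (List.drop 3 (List.drop 3 (List.drop 3 (List.drop 3 (List.drop 3 (List.drop 3 (List.drop 3 (List.drop 3 (List.drop 3 (List.drop 3 (List.drop 3 (List.drop 3 (List.drop 3 (List.drop 3 (List.drop 3 (List.drop 3 (List.drop 3 (List.drop 3 (List.drop 3 (List.drop 3 (List.drop 3 (List.drop 3 (List.drop 3 (List.drop 3 (List.drop 3 (List.drop 3 (List.drop 3 (List.drop 3 (List.drop 3 (List.drop 3 (List.drop 3 (List.drop 3 (List.drop 3 (List.drop 3 (List.drop 3 (List.drop 3 (List.drop 3 (List.drop 3 (List.drop 3 (List.drop 3 (List.drop 3 (List.drop 3 (List.drop 3 (List.drop 3 (List.drop 3 (List.drop 3 (List.drop 3 (List.drop 3 (List.drop 3 (List.drop 3 (List.drop 3 (List.drop 3 (List.drop 3 (List.drop 3 (List.drop 3 (List.drop 3 (List.drop 3 (List.drop 3 (List.drop 3 (List.drop 3 (List.drop 3 (frac))))))))))))))))))))))))))))))))))))))))))))))))))))))))))))))))))))))))))))))))))))))))))))))))))))))))))))))))))))))))))))))))))))))))))))))))))))).all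 (cfgOK sizes cap) = true := by
  decide +kernel

theorem cfg_148 : (List.take 3 (List.drop 3 (List.drop 3 (List.drop 3 (List.drop 3 (List.drop 3 (List.drop 3 (List.drop 3 (List.drop 3 (List.drop 3 (List.drop 3 (List.drop 3 (List.drop 3 (List.drop 3 (List.drop 3 (List.drop 3 (List.drop 3 (List.drop 3 (List.drop 3 (List.drop 3 (List.drop 3 (List.drop 3 (List.drop 3 (List.drop 3 (List.drop 3 (List.drop 3 (List.drop 3 (List.drop 3 (List.drop 3 (List.drop 3 (List.drop 3 (List.drop 3 (List.drop 3 (List.drop 3 (List.drop 3 (List.drop 3 (List.drop 3 (List.drop 3 (List.drop 3 (List.drop 3 (List.drop 3 (List.drop 3 (List.drop 3 (List.drop 3 (List.drop 3 (List.drop 3 (List.drop 3 (List.drop 3 (List.drop 3 (List.drop 3 (List.drop 3 (List.drop 3 (List.drop 3 (List.drop 3 (List.drop 3 (List.drop 3 (List.drop 3 (List.drop 3 (List.drop 3 (List.drop 3 (List.drop 3 (List.drop 3 (List.drop 3 (List.drop 3 (List.drop 3 (List.drop 3 (List.drop 3 (List.drop 3 (List.drop 3 (List.drop 3 (List.drop 3 (List.drop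 3 (List.drop 3 (List.drop 3 (List.drop 3 (List.drop 3 (List.drop 3 (List.drop 3 (List.drop 3 (List.drop 3 (List.drop 3 (List.drop 3 (List.drop 3 (List.drop 3 (List.drop 3 (List.drop 3 (List.drop 3 (List.drop 3 (List.drop 3 (List.drop 3 (List.drop 3 (List.drop 3 (List.drop 3 (List.drop 3 (List.drop 3 (List.drop 3 (List.drop 3 (List.drop 3 (List.drop 3 (List.drop 3 (List.drop 3 (List.drop 3 (List.drop 3 (List.drop 3 (List.drop 3 (List.drop 3 (List.drop 3 (List.drop 3 (List.drop 3 (List.drop 3 (List.drop 3 (List.drop 3 (List.drop 3 (List.drop 3 (List.drop 3 (List.drop 3 (List.drop 3 (List.drop 3 (List.drop 3 (List.drop 3 (List.drop 3 (List.drop 3 (List.drop 3 (List.drop 3 (List.drop 3 (List.drop 3 (List.drop 3 (List.drop 3 (List.drop 3 (List.drop 3 (List.drop 3 (List.drop 3 (List.drop 3 (List.drop 3 (List.drop 3 (List.drop 3 (List.drop 3 (List.drop 3 (List.drop 3 (List.drop 3 (List.drop 3 (List.drop 3 (List.drop 3 (List.drop 3 (List.drop 3 (List.drop 3 (List.drop 3 (List.drop 3 (List.drop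 3 (frac)))))))))))))))))))))))))))))))))))))))))))))))))))))))))))))))))))))))))))))))))))))))))))))))))))))))))))))))))))))))))))))))))))))))))))))))))))))).all (cfgOK sizes cap) = true := by
  decide +kernel

theorem cfg_149 : (List.take 3 (List.drop 3 (List.drop 3 (List.drop 3 (List.drop 3 (List.drop 3 (List.drop 3 (List.drop 3 (List.drop 3 (List.drop 3 (List.drop 3 (List.drop 3 (List.drop 3 (List.drop 3 (List.drop 3 (List.drop 3 (List.drop 3 (List.drop 3 (List.drop 3 (List.drop 3 (List.drop 3 (List.drop 3 (List.drop 3 (List.drop 3 (List.drop 3 (List.drop 3 (List.drop 3 (List.drop 3 (List.drop 3 (List.drop 3 (List.drop 3 (List.drop 3 (List.drop 3 (List.drop 3 (List.drop 3 (List.drop 3 (List.drop 3 (List.drop 3 (List.drop 3 (List.drop 3 (List.drop 3 (List.drop 3 (List.drop 3 (List.drop 3 (List.drop 3 (List.drop 3 (List.drop 3 (List.drop 3 (List.drop 3 (List.drop 3 (List.drop 3 (List.drop 3 (List.drop 3 (List.drop 3 (List.drop 3 (List.drop 3 (List.drop 3 (List.drop 3 (List.drop 3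 (List.drop 3 (List.drop 3 (List.drop 3 (List.drop 3 (List.drop 3 (List.drop 3 (List.drop 3 (List.drop 3 (List.drop 3 (List.drop 3 (List.drop 3 (List.drop 3 (List.drop 3 (List.drop 3 (List.drop 3 (List.drop 3 (List.drop 3 (List.drop 3 (List.drop 3 (List.drop 3 (List.drop 3 (List.drop 3 (List.drop 3 (List.drop 3 (List.drop 3 (List.drop 3 (List.drop 3 (List.drop 3 (List.drop 3 (List.drop 3 (List.drop 3 (List.drop 3 (List.drop 3 (List.drop 3 (List.drop 3 (List.drop 3 (List.drop 3 (List.drop 3 (List.drop 3 (List.drop 3 (List.drop 3 (List.drop 3 (List.drop 3 (List.drop 3 (List.drop 3 (List.drop 3 (List.drop 3 (List.drop 3 (List.drop 3 (List.drop 3 (List.drop 3 (List.drop 3 (List.drop 3 (List.drop 3 (List.drop 3 (List.drop 3 (List.drop 3 (List.drop 3 (List.drop 3 (List.drop 3 (List.drop 3 (List.drop 3 (List.drop 3 (List.drop 3 (List.drop 3 (List.drop 3 (List.drop 3 (List.drop 3 (List.drop 3 (List.drop 3 (List.drop 3 (List.drop 3 (List.drop 3 (List.drop 3 (List.drop 3 (List.drop 3 (List.drop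 3 (List.drop 3 (List.drop 3 (List.drop 3 (List.drop 3 (List.drop 3 (List.drop 3 (List.drop 3 (List.drop 3 (List.drop 3 (List.drop 3 (List.drop 3 (List.drop 3 (List.drop 3 (List.drop 3 (frac))))))))))))))))))))))))))))))))))))))))))))))))))))))))))))))))))))))))))))))))))))))))))))))))))))))))))))))))))))))))))))))))))))))))))))))))))))))).all (cfgOK sizes cap) = true := by
  decide +kernel

end Vale.Agent.Lib.P302.helper8.Th863
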