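import Mathlib
import Vale.Agent.Lib.P302.helper8.Th863.F0
import Vale.Agent.Lib.P302.helper8.Th863.F9

/-!
# P302: the fractional solution of the 863-item instance, checked in pieces (part 11)
-/

namespace Vale.Agent.Lib.P302.helper8.Th863

open Vale.Agent.Lib.P302.helper14 Vale.Agent.Lib.P302.helper8 Vale.Agent.Lib.P302.helper9

set_option maxRecDepth 8192

theorem cov_52 : (List.take 2 (List.drop 2 (List.drop 2 (List.drop 2 (List.drop 2 (List.drop 2 (List.drop 2 (List.drop 2 (List.drop 2 (List.drop 2 (List.drop 2 (List.drop 2 (List.drop 2 (List.drop 2 (List.drop 2 (List.drop 2 (List.drop 2 (List.drop 2 (List.drop 2 (List.drop 2 (List.drop 2 (List.drop 2 (List.drop 2 (List.drop 2 (List.drop 2 (List.drop 2 (List.drop 2 (List.drop 2 (List.drop 2 (List.drop 2 (List.drop 2 (List.drop 2 (List.drop 2 (List.drop 2 (List.drop 2 (List.drop 2 (List.drop 2 (List.drop 2 (List.drop 2 (List.drop 2 (List.drop 2 (List.drop 2 (List.drop 2 (List.drop 2 (List.drop 2 (List.drop 2 (List.drop 2 (List.drop 2 (List.drop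 2 (List.drop 2 (List.drop 2 (List.drop 2 (List.drop 2 (sizes)))))))))))))))))))))))))))))))))))))))))))))))))))))).all (covOK sizes 63700992 frac) = true := by
  decide +kernel

theorem cov_53 : (List.take 2 (List.drop 2 (List.drop 2 (List.drop 2 (List.drop 2 (List.drop 2 (List.drop 2 (List.drop 2 (List.drop 2 (List.drop 2 (List.drop 2 (List.drop 2 (List.drop 2 (List.drop 2 (List.drop 2 (List.drop 2 (List.drop 2 (List.drop 2 (List.drop 2 (List.drop 2 (List.drop 2 (List.drop 2 (List.drop 2 (List.drop 2 (List.drop 2 (List.drop 2 (List.drop 2 (List.drop 2 (List.drop 2 (List.drop 2 (List.drop 2 (List.drop 2 (List.drop 2 (List.drop 2 (List.drop 2 (List.drop 2 (List.drop 2 (List.drop 2 (List.drop 2 (List.drop 2 (List.drop 2 (List.drop 2 (List.drop 2 (List.drop 2 (List.drop 2 (List.drop 2 (List.drop 2 (List.drop 2 (List.drop 2 (List.drop 2 (List.drop 2 (List.drop 2 (List.drop 2 (List.drop 2 (sizes))))))))))))))))))))))))))))))))))))))))))))))))))))))).all (covOK sizes 63700992 frac) = true := by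
  decide +kernel

theorem cov_54 : (List.take 2 (List.drop 2 (List.drop 2 (List.drop 2 (List.drop 2 (List.drop 2 (List.drop 2 (List.drop 2 (List.drop 2 (List.drop 2 (List.drop 2 (List.drop 2 (List.drop 2 (List.drop 2 (List.drop 2 (List.drop 2 (List.drop 2 (List.drop 2 (List.drop 2 (List.drop 2 (List.drop 2 (List.drop 2 (List.drop 2 (List.drop 2 (List.drop 2 (List.drop 2 (List.drop 2 (List.drop 2 (List.drop 2 (List.drop 2 (List.drop 2 (List.drop 2 (List.drop 2 (List.drop 2 (List.drop 2 (List.drop 2 (List.drop 2 (List.drop 2 (List.drop 2 (List.drop 2 (List.drop 2 (List.drop 2 (List.drop 2 (List.drop 2 (List.drop 2 (List.drop 2 (List.drop 2 (List.drop 2 (List.drop 2 (List.drop 2 (List.drop 2 (List.drop 2 (List.drop 2 (List.drop 2 (List.drop 2 (sizes)))))))))))))))))))))))))))))))))))))))))))))))))))))))).all (covOK sizes 63700992 frac) = true := by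
  decide +kernel

theorem cov_55 : (List.take 2 (List.drop 2 (List.drop 2 (List.drop 2 (List.drop 2 (List.drop 2 (List.drop 2 (List.drop 2 (List.drop 2 (List.drop 2 (List.drop 2 (List.drop 2 (List.drop 2 (List.drop 2 (List.drop 2 (List.drop 2 (List.drop 2 (List.drop 2 (List.drop 2 (List.drop 2 (List.drop 2 (List.drop 2 (List.drop 2 (List.drop 2 (List.drop 2 (List.drop 2 (List.drop 2 (List.drop 2 (List.drop 2 (List.drop 2 (List.drop 2 (List.drop 2 (List.drop 2 (List.drop 2 (List.drop 2 (List.drop 2 (List.drop 2 (List.drop 2 (List.drop 2 (List.drop 2 (List.drop 2 (List.drop 2 (List.drop 2 (List.drop 2 (List.drop 2 (List.drop 2 (List.drop 2 (List.drop 2 (List.drop 2 (List.drop 2 (List.drop 2 (List.drop 2 (List.drop 2 (List.drop 2 (List.drop 2 (List.drop 2 (sizes))))))))))))))))))))))))))))))))))))))))))))))))))))))))).all (covOK sizes 63700992 frac) = true := by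
  decide +kernel

theorem cov_56 : (List.take 2 (List.drop 2 (List.drop 2 (List.drop 2 (List.drop 2 (List.drop 2 (List.drop 2 (List.drop 2 (List.drop 2 (List.drop 2 (List.drop 2 (List.drop 2 (List.drop 2 (List.drop 2 (List.drop 2 (List.drop 2 (List.drop 2 (List.drop 2 (List.drop 2 (List.drop 2 (List.drop 2 (List.drop 2 (List.drop 2 (List.drop 2 (List.drop 2 (List.drop 2 (List.drop 2 (List.drop 2 (List.drop 2 (List.drop 2 (List.drop 2 (List.drop 2 (List.drop 2 (List.drop 2 (List.drop 2 (List.drop 2 (List.drop 2 (List.drop 2 (List.drop 2 (List.drop 2 (List.drop 2 (List.drop 2 (List.drop 2 (List.drop 2 (List.drop 2 (List.drop 2 (List.drop 2 (List.drop 2 (List.drop 2 (List.drop 2 (List.drop 2 (List.drop 2 (List.drop 2 (List.drop 2 (List.drop 2 (List.drop 2 (List.drop 2 (sizes)))))))))))))))))))))))))))))))))))))))))))))))))))))))))).all (covOK sizes 63700992 frac) = true := by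
  decide +kernel

theorem cov_57 : (List.take 2 (List.drop 2 (List.drop 2 (List.drop 2 (List.drop 2 (List.drop 2 (List.drop 2 (List.drop 2 (List.drop 2 (List.drop 2 (List.drop 2 (List.drop 2 (List.drop 2 (List.drop 2 (List.drop 2 (List.drop 2 (List.drop 2 (List.drop 2 (List.drop 2 (List.drop 2 (List.drop 2 (List.drop 2 (List.drop 2 (List.drop 2 (List.drop 2 (List.drop 2 (List.drop 2 (List.drop 2 (List.drop 2 (List.drop 2 (List.drop 2 (List.drop 2 (List.drop 2 (List.drop 2 (List.drop 2 (List.drop 2 (List.drop 2 (List.drop 2 (List.drop 2 (List.drop 2 (List.drop 2 (List.drop 2 (List.drop 2 (List.drop 2 (List.drop 2 (List.drop 2 (List.drop 2 (List.drop 2 (List.drop 2 (List.drop 2 (List.drop 2 (List.drop 2 (List.drop 2 (List.drop 2 (List.drop 2 (List.drop 2 (List.drop 2 (List.drop 2 (sizes))))))))))))))))))))))))))))))))))))))))))))))))))))))))))).all (covOK sizes 63700992 frac) = true := by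
  decide +kernel

theorem cov_58 : (List.take 2 (List.drop 2 (List.drop 2 (List.drop 2 (List.drop 2 (List.drop 2 (List.drop 2 (List.drop 2 (List.drop 2 (List.drop 2 (List.drop 2 (List.drop 2 (List.drop 2 (List.drop 2 (List.drop 2 (List.drop 2 (List.drop 2 (List.drop 2 (List.drop 2 (List.drop 2 (List.drop 2 (List.drop 2 (List.drop 2 (List.drop 2 (List.drop 2 (List.drop 2 (List.drop 2 (List.drop 2 (List.drop 2 (List.drop 2 (List.drop 2 (List.drop 2 (List.drop 2 (List.drop 2 (List.drop 2 (List.drop 2 (List.drop 2 (List.drop 2 (List.drop 2 (List.drop 2 (List.drop 2 (List.drop 2 (List.drop 2 (List.drop 2 (List.drop 2 (List.drop 2 (List.drop 2 (List.drop 2 (List.drop 2 (List.drop 2 (List.drop 2 (List.drop 2 (List.drop 2 (List.drop 2 (List.drop 2 (List.drop 2 (List.drop 2 (List.drop 2 (List.drop 2 (sizes)))))))))))))))))))))))))))))))))))))))))))))))))))))))))))).all (covOK sizes 63700992 frac) = true := by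
  decide +kernel

theorem cov_59 : (List.take 2 (List.drop 2 (List.drop 2 (List.drop 2 (List.drop 2 (List.drop 2 (List.drop 2 (List.drop 2 (List.drop 2 (List.drop 2 (List.drop 2 (List.drop 2 (List.drop 2 (List.drop 2 (List.drop 2 (List.drop 2 (List.drop 2 (List.drop 2 (List.drop 2 (List.drop 2 (List.drop 2 (List.drop 2 (List.drop 2 (List.drop 2 (List.drop 2 (List.drop 2 (List.drop 2 (List.drop 2 (List.drop 2 (List.drop 2 (List.drop 2 (List.drop 2 (List.drop 2 (List.drop 2 (List.drop 2 (List.drop 2 (List.drop 2 (List.drop 2 (List.drop 2 (List.drop 2 (List.drop 2 (List.drop 2 (List.drop 2 (List.drop 2 (List.drop 2 (List.drop 2 (List.drop 2 (List.drop 2 (List.drop 2 (List.drop 2 (List.drop 2 (List.drop 2 (List.drop 2 (List.drop 2 (List.drop 2 (List.drop 2 (List.drop 2 (List.drop 2 (List.drop 2 (List.drop 2 (sizes))))))))))))))))))))))))))))))))))))))))))))))))))))))))))))).all (covOK sizes 63700992 frac) = true := by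
  decide +kernel

theorem cov_60 : (List.take 2 (List.drop 2 (List.drop 2 (List.drop 2 (List.drop 2 (List.drop 2 (List.drop 2 (List.drop 2 (List.drop 2 (List.drop 2 (List.drop 2 (List.drop 2 (List.drop 2 (List.drop 2 (List.drop 2 (List.drop 2 (List.drop 2 (List.drop 2 (List.drop 2 (List.drop 2 (List.drop 2 (List.drop 2 (List.drop 2 (List.drop 2 (List.drop 2 (List.drop 2 (List.drop 2 (List.drop 2 (List.drop 2 (List.drop 2 (List.drop 2 (List.drop 2 (List.drop 2 (List.drop 2 (List.drop 2 (List.drop 2 (List.drop 2 (List.drop 2 (List.drop 2 (List.drop 2 (List.drop 2 (List.drop 2 (List.drop 2 (List.drop 2 (List.drop 2 (List.drop 2 (List.drop 2 (List.drop 2 (List.drop 2 (List.drop 2 (List.drop 2 (List.drop 2 (List.drop 2 (List.drop 2 (List.drop 2 (List.drop 2 (List.drop 2 (List.drop 2 (List.drop 2 (List.drop 2 (List.drop 2 (sizes)))))))))))))))))))))))))))))))))))))))))))))))))))))))))))))).all (covOK sizes 63700992 frac) = true := by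
  decide +kernel

theorem cov_61 : (List.take 2 (List.drop 2 (List.drop 2 (List.drop 2 (List.drop 2 (List.drop 2 (List.drop 2 (List.drop 2 (List.drop 2 (List.drop 2 (List.drop 2 (List.drop 2 (List.drop 2 (List.drop 2 (List.drop 2 (List.drop 2 (List.drop 2 (List.drop 2 (List.drop 2 (List.drop 2 (List.drop 2 (List.drop 2 (List.drop 2 (List.drop 2 (List.drop 2 (List.drop 2 (List.drop 2 (List.drop 2 (List.drop 2 (List.drop 2 (List.drop 2 (List.drop 2 (List.drop 2 (List.drop 2 (List.drop 2 (List.drop 2 (List.drop 2 (List.drop 2 (List.drop 2 (List.drop 2 (List.drop 2 (List.drop 2 (List.drop 2 (List.drop 2 (List.drop 2 (List.drop 2 (List.drop 2 (List.drop 2 (List.drop 2 (List.drop 2 (List.drop 2 (List.drop 2 (List.drop 2 (List.drop 2 (List.drop 2 (List.drop 2 (List.drop 2 (List.drop 2 (List.drop 2 (List.drop 2 (List.drop 2 (List.drop 2 (sizes))))))))))))))))))))))))))))))))))))))))))))))))))))))))))))))).all (covOK sizes 63700992 frac) = true := by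
  decide +kernel

theorem cov_62 : (List.take 2 (List.drop 2 (List.drop 2 (List.drop 2 (List.drop 2 (List.drop 2 (List.drop 2 (List.drop 2 (List.drop 2 (List.drop 2 (List.drop 2 (List.drop 2 (List.drop 2 (List.drop 2 (List.drop 2 (List.drop 2 (List.drop 2 (List.drop 2 (List.drop 2 (List.drop 2 (List.drop 2 (List.drop 2 (List.drop 2 (List.drop 2 (List.drop 2 (List.drop 2 (List.drop 2 (List.drop 2 (List.drop 2 (List.drop 2 (List.drop 2 (List.drop 2 (List.drop 2 (List.drop 2 (List.drop 2 (List.drop 2 (List.drop 2 (List.drop 2 (List.drop 2 (List.drop 2 (List.drop 2 (List.drop 2 (List.drop 2 (List.drop 2 (List.drop 2 (List.drop 2 (List.drop 2 (List.drop 2 (List.drop 2 (List.drop 2 (List.drop 2 (List.drop 2 (List.drop 2 (List.drop 2 (List.drop 2 (List.drop 2 (List.drop 2 (List.drop 2 (List.drop 2 (List.drop 2 (List.drop 2 (List.drop 2 (List.drop 2 (sizes)))))))))))))))))))))))))))))))))))))))))))))))))))))))))))))))).all (covOK sizes 63700992 frac) = true := by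
  decide +kernel

theorem cov_63 : (List.take 2 (List.drop 2 (List.drop 2 (List.drop 2 (List.drop 2 (List.drop 2 (List.drop 2 (List.drop 2 (List.drop 2 (List.drop 2 (List.drop 2 (List.drop 2 (List.drop 2 (List.drop 2 (List.drop 2 (List.drop 2 (List.drop 2 (List.drop 2 (List.drop 2 (List.drop 2 (List.drop 2 (List.drop 2 (List.drop 2 (List.drop 2 (List.drop 2 (List.drop 2 (List.drop 2 (List.drop 2 (List.drop 2 (List.drop 2 (List.drop 2 (List.drop 2 (List.drop 2 (List.drop 2 (List.drop 2 (List.drop 2 (List.drop 2 (List.drop 2 (List.drop 2 (List.drop 2 (List.drop 2 (List.drop 2 (List.drop 2 (List.drop 2 (List.drop 2 (List.drop 2 (List.drop 2 (List.drop 2 (List.drop 2 (List.drop 2 (List.drop 2 (List.drop 2 (List.drop 2 (List.drop 2 (List.drop 2 (List.drop 2 (List.drop 2 (List.drop 2 (List.drop 2 (List.drop 2 (List.drop 2 (List.drop 2 (List.drop 2 (List.drop 2 (sizes))))))))))))))))))))))))))))))))))))))))))))))))))))))))))))))))).all (covOK sizes 63700992 frac) = true := by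
  decide +kernel

theorem cov_64 : (List.take 2 (List.drop 2 (List.drop 2 (List.drop 2 (List.drop 2 (List.drop 2 (List.drop 2 (List.drop 2 (List.drop 2 (List.drop 2 (List.drop 2 (List.drop 2 (List.drop 2 (List.drop 2 (List.drop 2 (List.drop 2 (List.drop 2 (List.drop 2 (List.drop 2 (List.drop 2 (List.drop 2 (List.drop 2 (List.drop 2 (List.drop 2 (List.drop 2 (List.drop 2 (List.drop 2 (List.drop 2 (List.drop 2 (List.drop 2 (List.drop 2 (List.drop 2 (List.drop 2 (List.drop 2 (List.drop 2 (List.drop 2 (List.drop 2 (List.drop 2 (List.drop 2 (List.drop 2 (List.drop 2 (List.drop 2 (List.drop 2 (List.drop 2 (List.drop 2 (List.drop 2 (List.drop 2 (List.drop 2 (List.drop 2 (List.drop 2 (List.drop 2 (List.drop 2 (List.drop 2 (List.drop 2 (List.drop 2 (List.drop 2 (List.drop 2 (List.drop 2 (List.drop 2 (List.drop 2 (List.drop 2 (List.drop 2 (List.drop 2 (List.drop 2 (List.drop 2 (sizes)))))))))))))))))))))))))))))))))))))))))))))))))))))))))))))))))).all (covOK sizes 63700992 frac) = true := by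
  decide +kernel

theorem cov_65 : (List.take 2 (List.drop 2 (List.drop 2 (List.drop 2 (List.drop 2 (List.drop 2 (List.drop 2 (List.drop 2 (List.drop 2 (List.drop 2 (List.drop 2 (List.drop 2 (List.drop 2 (List.drop 2 (List.drop 2 (List.drop 2 (List.drop 2 (List.drop 2 (List.drop 2 (List.drop 2 (List.drop 2 (List.drop 2 (List.drop 2 (List.drop 2 (List.drop 2 (List.drop 2 (List.drop 2 (List.drop 2 (List.drop 2 (List.drop 2 (List.drop 2 (List.drop 2 (List.drop 2 (List.drop 2 (List.drop 2 (List.drop 2 (List.drop 2 (List.drop 2 (List.drop 2 (List.drop 2 (List.drop 2 (List.drop 2 (List.drop 2 (List.drop 2 (List.drop 2 (List.drop 2 (List.drop 2 (List.drop 2 (List.drop 2 (List.drop 2 (List.drop 2 (List.drop 2 (List.drop 2 (List.drop 2 (List.drop 2 (List.drop 2 (List.drop 2 (List.drop 2 (List.drop 2 (List.drop 2 (List.drop 2 (List.drop 2 (List.drop 2 (List.drop 2 (List.drop 2 (List.drop 2 (sizes))))))))))))))))))))))))))))))))))))))))))))))))))))))))))))))))))).all (covOK sizes 63700992 frac) = true :=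 by
  decide +kernel

theorem cov_66 : (List.take 2 (List.drop 2 (List.drop 2 (List.drop 2 (List.drop 2 (List.drop 2 (List.drop 2 (List.drop 2 (List.drop 2 (List.drop 2 (List.drop 2 (List.drop 2 (List.drop 2 (List.drop 2 (List.drop 2 (List.drop 2 (List.drop 2 (List.drop 2 (List.drop 2 (List.drop 2 (List.drop 2 (List.drop 2 (List.drop 2 (List.drop 2 (List.drop 2 (List.drop 2 (List.drop 2 (List.drop 2 (List.drop 2 (List.drop 2 (List.drop 2 (List.drop 2 (List.drop 2 (List.drop 2 (List.drop 2 (List.drop 2 (List.drop 2 (List.drop 2 (List.drop 2 (List.drop 2 (List.drop 2 (List.drop 2 (List.drop 2 (List.drop 2 (List.drop 2 (List.drop 2 (List.drop 2 (List.drop 2 (List.drop 2 (List.drop 2 (List.drop 2 (List.drop 2 (List.drop 2 (List.drop 2 (List.drop 2 (List.drop 2 (List.drop 2 (List.drop 2 (List.drop 2 (List.drop 2 (List.drop 2 (List.drop 2 (List.drop 2 (List.drop 2 (List.drop 2 (List.drop 2 (List.drop 2 (sizes)))))))))))))))))))))))))))))))))))))))))))))))))))))))))))))))))))).all (covOK sizes 63700992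 frac) = true := by
  decide +kernel

theorem cov_67 : (List.take 2 (List.drop 2 (List.drop 2 (List.drop 2 (List.drop 2 (List.drop 2 (List.drop 2 (List.drop 2 (List.drop 2 (List.drop 2 (List.drop 2 (List.drop 2 (List.drop 2 (List.drop 2 (List.drop 2 (List.drop 2 (List.drop 2 (List.drop 2 (List.drop 2 (List.drop 2 (List.drop 2 (List.drop 2 (List.drop 2 (List.drop 2 (List.drop 2 (List.drop 2 (List.drop 2 (List.drop 2 (List.drop 2 (List.drop 2 (List.drop 2 (List.drop 2 (List.drop 2 (List.drop 2 (List.drop 2 (List.drop 2 (List.drop 2 (List.drop 2 (List.drop 2 (List.drop 2 (List.drop 2 (List.drop 2 (List.drop 2 (List.drop 2 (List.drop 2 (List.drop 2 (List.drop 2 (List.drop 2 (List.drop 2 (List.drop 2 (List.drop 2 (List.drop 2 (List.drop 2 (List.drop 2 (List.drop 2 (List.drop 2 (List.drop 2 (List.drop 2 (List.drop 2 (List.drop 2 (List.drop 2 (List.drop 2 (List.drop 2 (List.drop 2 (List.drop 2 (List.drop 2 (List.drop 2 (List.drop 2 (sizes))))))))))))))))))))))))))))))))))))))))))))))))))))))))))))))))))))).all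 (covOK sizes 63700992 frac) = true := by
  decide +kernel

theorem cov_68 : (List.take 2 (List.drop 2 (List.drop 2 (List.drop 2 (List.drop 2 (List.drop 2 (List.drop 2 (List.drop 2 (List.drop 2 (List.drop 2 (List.drop 2 (List.drop 2 (List.drop 2 (List.drop 2 (List.drop 2 (List.drop 2 (List.drop 2 (List.drop 2 (List.drop 2 (List.drop 2 (List.drop 2 (List.drop 2 (List.drop 2 (List.drop 2 (List.drop 2 (List.drop 2 (List.drop 2 (List.drop 2 (List.drop 2 (List.drop 2 (List.drop 2 (List.drop 2 (List.drop 2 (List.drop 2 (List.drop 2 (List.drop 2 (List.drop 2 (List.drop 2 (List.drop 2 (List.drop 2 (List.drop 2 (List.drop 2 (List.drop 2 (List.drop 2 (List.drop 2 (List.drop 2 (List.drop 2 (List.drop 2 (List.drop 2 (List.drop 2 (List.drop 2 (List.drop 2 (List.drop 2 (List.drop 2 (List.drop 2 (List.drop 2 (List.drop 2 (List.drop 2 (List.drop 2 (List.drop 2 (List.drop 2 (List.drop 2 (List.drop 2 (List.drop 2 (List.drop 2 (List.drop 2 (List.drop 2 (List.drop 2 (List.drop 2 (sizes)))))))))))))))))))))))))))))))))))))))))))))))))))))))))))))))))))))).all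 (covOK sizes 63700992 frac) = true := by
  decide +kernel

theorem cov_69 : (List.take 2 (List.drop 2 (List.drop 2 (List.drop 2 (List.drop 2 (List.drop 2 (List.drop 2 (List.drop 2 (List.drop 2 (List.drop 2 (List.drop 2 (List.drop 2 (List.drop 2 (List.drop 2 (List.drop 2 (List.drop 2 (List.drop 2 (List.drop 2 (List.drop 2 (List.drop 2 (List.drop 2 (List.drop 2 (List.drop 2 (List.drop 2 (List.drop 2 (List.drop 2 (List.drop 2 (List.drop 2 (List.drop 2 (List.drop 2 (List.drop 2 (List.drop 2 (List.drop 2 (List.drop 2 (List.drop 2 (List.drop 2 (List.drop 2 (List.drop 2 (List.drop 2 (List.drop 2 (List.drop 2 (List.drop 2 (List.drop 2 (List.drop 2 (List.drop 2 (List.drop 2 (List.drop 2 (List.drop 2 (List.drop 2 (List.drop 2 (List.drop 2 (List.drop 2 (List.drop 2 (List.drop 2 (List.drop 2 (List.drop 2 (List.drop 2 (List.drop 2 (List.drop 2 (List.drop 2 (List.drop 2 (List.drop 2 (List.drop 2 (List.drop 2 (List.drop 2 (List.drop 2 (List.drop 2 (List.drop 2 (List.drop 2 (List.drop 2 (sizes))))))))))))))))))))))))))))))))))))))))))))))))))))))))))))))))))))))).all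 (covOK sizes 63700992 frac) = true := by
  decide +kernel

theorem cov_70 : (List.take 2 (List.drop 2 (List.drop 2 (List.drop 2 (List.drop 2 (List.drop 2 (List.drop 2 (List.drop 2 (List.drop 2 (List.drop 2 (List.drop 2 (List.drop 2 (List.drop 2 (List.drop 2 (List.drop 2 (List.drop 2 (List.drop 2 (List.drop 2 (List.drop 2 (List.drop 2 (List.drop 2 (List.drop 2 (List.drop 2 (List.drop 2 (List.drop 2 (List.drop 2 (List.drop 2 (List.drop 2 (List.drop 2 (List.drop 2 (List.drop 2 (List.drop 2 (List.drop 2 (List.drop 2 (List.drop 2 (List.drop 2 (List.drop 2 (List.drop 2 (List.drop 2 (List.drop 2 (List.drop 2 (List.drop 2 (List.drop 2 (List.drop 2 (List.drop 2 (List.drop 2 (List.drop 2 (List.drop 2 (List.drop 2 (List.drop 2 (List.drop 2 (List.drop 2 (List.drop 2 (List.drop 2 (List.drop 2 (List.drop 2 (List.drop 2 (List.drop 2 (List.drop 2 (List.drop 2 (List.drop 2 (List.drop 2 (List.drop 2 (List.drop 2 (List.drop 2 (List.drop 2 (List.drop 2 (List.drop 2 (List.drop 2 (List.drop 2 (List.drop 2 (sizes)))))))))))))))))))))))))))))))))))))))))))))))))))))))))))))))))))))))).all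 (covOK sizes 63700992 frac) = true := by
  decide +kernel

theorem cov_71 : (List.take 2 (List.drop 2 (List.drop 2 (List.drop 2 (List.drop 2 (List.drop 2 (List.drop 2 (List.drop 2 (List.drop 2 (List.drop 2 (List.drop 2 (List.drop 2 (List.drop 2 (List.drop 2 (List.drop 2 (List.drop 2 (List.drop 2 (List.drop 2 (List.drop 2 (List.drop 2 (List.drop 2 (List.drop 2 (List.drop 2 (List.drop 2 (List.drop 2 (List.drop 2 (List.drop 2 (List.drop 2 (List.drop 2 (List.drop 2 (List.drop 2 (List.drop 2 (List.drop 2 (List.drop 2 (List.drop 2 (List.drop 2 (List.drop 2 (List.drop 2 (List.drop 2 (List.drop 2 (List.drop 2 (List.drop 2 (List.drop 2 (List.drop 2 (List.drop 2 (List.drop 2 (List.drop 2 (List.drop 2 (List.drop 2 (List.drop 2 (List.drop 2 (List.drop 2 (List.drop 2 (List.drop 2 (List.drop 2 (List.drop 2 (List.drop 2 (List.drop 2 (List.drop 2 (List.drop 2 (List.drop 2 (List.drop 2 (List.drop 2 (List.drop 2 (List.drop 2 (List.drop 2 (List.drop 2 (List.drop 2 (List.drop 2 (List.drop 2 (List.drop 2 (List.drop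 2 (sizes))))))))))))))))))))))))))))))))))))))))))))))))))))))))))))))))))))))))).all (covOK sizes 63700992 frac) = true := by
  decide +kernel

theorem cov_72 : (List.take 2 (List.drop 2 (List.drop 2 (List.drop 2 (List.drop 2 (List.drop 2 (List.drop 2 (List.drop 2 (List.drop 2 (List.drop 2 (List.drop 2 (List.drop 2 (List.drop 2 (List.drop 2 (List.drop 2 (List.drop 2 (List.drop 2 (List.drop 2 (List.drop 2 (List.drop 2 (List.drop 2 (List.drop 2 (List.drop 2 (List.drop 2 (List.drop 2 (List.drop 2 (List.drop 2 (List.drop 2 (List.drop 2 (List.drop 2 (List.drop 2 (List.drop 2 (List.drop 2 (List.drop 2 (List.drop 2 (List.drop 2 (List.drop 2 (List.drop 2 (List.drop 2 (List.drop 2 (List.drop 2 (List.drop 2 (List.drop 2 (List.drop 2 (List.drop 2 (List.drop 2 (List.drop 2 (List.drop 2 (List.drop 2 (List.drop 2 (List.drop 2 (List.drop 2 (List.drop 2 (List.drop 2 (List.drop 2 (List.drop 2 (List.drop 2 (List.drop 2 (List.drop 2 (List.drop 2 (List.drop 2 (List.drop 2 (List.drop 2 (List.drop 2 (List.drop 2 (List.drop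 2 (List.drop 2 (List.drop 2 (List.drop 2 (List.drop 2 (List.drop 2 (List.drop 2 (List.drop 2 (sizes)))))))))))))))))))))))))))))))))))))))))))))))))))))))))))))))))))))))))).all (covOK sizes 63700992 frac) = true := by
  decide +kernel

theorem cov_73 : (List.take 2 (List.drop 2 (List.drop 2 (List.drop 2 (List.drop 2 (List.drop 2 (List.drop 2 (List.drop 2 (List.drop 2 (List.drop 2 (List.drop 2 (List.drop 2 (List.drop 2 (List.drop 2 (List.drop 2 (List.drop 2 (List.drop 2 (List.drop 2 (List.drop 2 (List.drop 2 (List.drop 2 (List.drop 2 (List.drop 2 (List.drop 2 (List.drop 2 (List.drop 2 (List.drop 2 (List.drop 2 (List.drop 2 (List.drop 2 (List.drop 2 (List.drop 2 (List.drop 2 (List.drop 2 (List.drop 2 (List.drop 2 (List.drop 2 (List.drop 2 (List.drop 2 (List.drop 2 (List.drop 2 (List.drop 2 (List.drop 2 (List.drop 2 (List.drop 2 (List.drop 2 (List.drop 2 (List.drop 2 (List.drop 2 (List.drop 2 (List.drop 2 (List.drop 2 (List.drop 2 (List.drop 2 (List.drop 2 (List.drop 2 (List.drop 2 (List.drop 2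 (List.drop 2 (List.drop 2 (List.drop 2 (List.drop 2 (List.drop 2 (List.drop 2 (List.drop 2 (List.drop 2 (List.drop 2 (List.drop 2 (List.drop 2 (List.drop 2 (List.drop 2 (List.drop 2 (List.drop 2 (List.drop 2 (sizes))))))))))))))))))))))))))))))))))))))))))))))))))))))))))))))))))))))))))).all (covOK sizes 63700992 frac) = true := by
  decide +kernel

theorem cov_74 : (List.take 2 (List.drop 2 (List.drop 2 (List.drop 2 (List.drop 2 (List.drop 2 (List.drop 2 (List.drop 2 (List.drop 2 (List.drop 2 (List.drop 2 (List.drop 2 (List.drop 2 (List.drop 2 (List.drop 2 (List.drop 2 (List.drop 2 (List.drop 2 (List.drop 2 (List.drop 2 (List.drop 2 (List.drop 2 (List.drop 2 (List.drop 2 (List.drop 2 (List.drop 2 (List.drop 2 (List.drop 2 (List.drop 2 (List.drop 2 (List.drop 2 (List.drop 2 (List.drop 2 (List.drop 2 (List.drop 2 (List.drop 2 (List.drop 2 (List.drop 2 (List.drop 2 (List.drop 2 (List.drop 2 (List.drop 2 (List.drop 2 (List.drop 2 (List.drop 2 (List.drop 2 (List.drop 2 (List.drop 2 (List.drop 2 (List.drop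 2 (List.drop 2 (List.drop 2 (List.drop 2 (List.drop 2 (List.drop 2 (List.drop 2 (List.drop 2 (List.drop 2 (List.drop 2 (List.drop 2 (List.drop 2 (List.drop 2 (List.drop 2 (List.drop 2 (List.drop 2 (List.drop 2 (List.drop 2 (List.drop 2 (List.drop 2 (List.drop 2 (List.drop 2 (List.drop 2 (List.drop 2 (List.drop 2 (List.drop 2 (sizes)))))))))))))))))))))))))))))))))))))))))))))))))))))))))))))))))))))))))))).all (covOK sizes 63700992 frac) = true := by
  decide +kernel

theorem cov_75 : (List.take 2 (List.drop 2 (List.drop 2 (List.drop 2 (List.drop 2 (List.drop 2 (List.drop 2 (List.drop 2 (List.drop 2 (List.drop 2 (List.drop 2 (List.drop 2 (List.drop 2 (List.drop 2 (List.drop 2 (List.drop 2 (List.drop 2 (List.drop 2 (List.drop 2 (List.drop 2 (List.drop 2 (List.drop 2 (List.drop 2 (List.drop 2 (List.drop 2 (List.drop 2 (List.drop 2 (List.drop 2 (List.drop 2 (List.drop 2 (List.drop 2 (List.drop 2 (List.drop 2 (List.drop 2 (List.drop 2 (List.drop 2 (List.drop 2 (List.drop 2 (List.drop 2 (List.drop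 2 (List.drop 2 (List.drop 2 (List.drop 2 (List.drop 2 (List.drop 2 (List.drop 2 (List.drop 2 (List.drop 2 (List.drop 2 (List.drop 2 (List.drop 2 (List.drop 2 (List.drop 2 (List.drop 2 (List.drop 2 (List.drop 2 (List.drop 2 (List.drop 2 (List.drop 2 (List.drop 2 (List.drop 2 (List.drop 2 (List.drop 2 (List.drop 2 (List.drop 2 (List.drop 2 (List.drop 2 (List.drop 2 (List.drop 2 (List.drop 2 (List.drop 2 (List.drop 2 (List.drop 2 (List.drop 2 (List.drop 2 (List.drop 2 (sizes))))))))))))))))))))))))))))))))))))))))))))))))))))))))))))))))))))))))))))).all (covOK sizes 63700992 frac) = true := by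
  decide +kernel

theorem cov_76 : (List.take 2 (List.drop 2 (List.drop 2 (List.drop 2 (List.drop 2 (List.drop 2 (List.drop 2 (List.drop 2 (List.drop 2 (List.drop 2 (List.drop 2 (List.drop 2 (List.drop 2 (List.drop 2 (List.drop 2 (List.drop 2 (List.drop 2 (List.drop 2 (List.drop 2 (List.drop 2 (List.drop 2 (List.drop 2 (List.drop 2 (List.drop 2 (List.drop 2 (List.drop 2 (List.drop 2 (List.drop 2 (List.drop 2 (List.drop 2 (List.drop 2 (List.drop 2 (List.drop 2 (List.drop 2 (List.drop 2 (List.drop 2 (List.drop 2 (List.drop 2 (List.drop 2 (List.drop 2 (List.drop 2 (List.drop 2 (List.drop 2 (List.drop 2 (List.drop 2 (List.drop 2 (List.drop 2 (List.drop 2 (List.drop 2 (List.drop 2 (List.drop 2 (List.drop 2 (List.drop 2 (List.drop 2 (List.drop 2 (List.drop 2 (List.drop 2 (List.drop 2 (List.drop 2 (List.drop 2 (List.drop 2 (List.drop 2 (List.drop 2 (List.drop 2 (List.drop 2 (List.drop 2 (List.drop 2 (List.drop 2 (List.drop 2 (List.drop 2 (List.drop 2 (List.drop 2 (List.drop 2 (List.drop 2 (List.drop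 2 (List.drop 2 (List.drop 2 (sizes)))))))))))))))))))))))))))))))))))))))))))))))))))))))))))))))))))))))))))))).all (covOK sizes 63700992 frac) = true := by
  decide +kernel

end Vale.Agent.Lib.P302.helper8.Th863
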