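import Mathlib
import Vale.Agent.Lib.P302.helper8.Th863.F0
import Vale.Agent.Lib.P302.helper8.Th863.F10

/-!
# P302: the fractional solution of the 863-item instance, checked in pieces (part 12)
-/

namespace Vale.Agent.Lib.P302.helper8.Th863

open Vale.Agent.Lib.P302.helper14 Vale.Agent.Lib.P302.helper8 Vale.Agent.Lib.P302.helper9

set_option maxRecDepth 8192

theorem cov_77 : (List.take 2 (List.drop 2 (List.drop 2 (List.drop 2 (List.drop 2 (List.drop 2 (List.drop 2 (List.drop 2 (List.drop 2 (List.drop 2 (List.drop 2 (List.drop 2 (List.drop 2 (List.drop 2 (List.drop 2 (List.drop 2 (List.drop 2 (List.drop 2 (List.drop 2 (List.drop 2 (List.drop 2 (List.drop 2 (List.drop 2 (List.drop 2 (List.drop 2 (List.drop 2 (List.drop 2 (List.drop 2 (List.drop 2 (List.drop 2 (List.drop 2 (List.drop 2 (List.drop 2 (List.drop 2 (List.drop 2 (List.drop 2 (List.drop 2 (List.drop 2 (List.drop 2 (List.drop 2 (List.drop 2 (List.drop 2 (List.drop 2 (List.drop 2 (List.drop 2 (List.drop 2 (List.drop 2 (List.drop 2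 (List.drop 2 (List.drop 2 (List.drop 2 (List.drop 2 (List.drop 2 (List.drop 2 (List.drop 2 (List.drop 2 (List.drop 2 (List.drop 2 (List.drop 2 (List.drop 2 (List.drop 2 (List.drop 2 (List.drop 2 (List.drop 2 (List.drop 2 (List.drop 2 (List.drop 2 (List.drop 2 (List.drop 2 (List.drop 2 (List.drop 2 (List.drop 2 (List.drop 2 (List.drop 2 (List.drop 2 (List.drop 2 (List.drop 2 (List.drop 2 (sizes))))))))))))))))))))))))))))))))))))))))))))))))))))))))))))))))))))))))))))))).all (covOK sizes 63700992 frac) = true := by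
  decide +kernel

theorem cov_78 : (List.take 2 (List.drop 2 (List.drop 2 (List.drop 2 (List.drop 2 (List.drop 2 (List.drop 2 (List.drop 2 (List.drop 2 (List.drop 2 (List.drop 2 (List.drop 2 (List.drop 2 (List.drop 2 (List.drop 2 (List.drop 2 (List.drop 2 (List.drop 2 (List.drop 2 (List.drop 2 (List.drop 2 (List.drop 2 (List.drop 2 (List.drop 2 (List.drop 2 (List.drop 2 (List.drop 2 (List.drop 2 (List.drop 2 (List.drop 2 (List.drop 2 (List.drop 2 (List.drop 2 (List.drop 2 (List.drop 2 (List.drop 2 (List.drop 2 (List.drop 2 (List.drop 2 (List.drop 2 (List.drop 2 (List.drop 2 (List.drop 2 (List.drop 2 (List.drop 2 (List.drop 2 (List.drop 2 (List.drop 2 (List.drop 2 (List.drop 2 (List.drop 2 (List.drop 2 (List.drop 2 (List.drop 2 (List.drop 2 (List.drop 2 (List.drop 2 (List.drop 2 (List.drop 2 (List.drop 2 (List.drop 2 (List.drop 2 (List.drop 2 (List.drop 2 (List.drop 2 (List.drop 2 (List.drop 2 (List.drop 2 (List.drop 2 (List.drop 2 (List.drop 2 (List.drop 2 (List.drop 2 (List.drop 2 (List.drop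 2 (List.drop 2 (List.drop 2 (List.drop 2 (List.drop 2 (sizes)))))))))))))))))))))))))))))))))))))))))))))))))))))))))))))))))))))))))))))))).all (covOK sizes 63700992 frac) = true := by
  decide +kernel

theorem cov_79 : (List.take 2 (List.drop 2 (List.drop 2 (List.drop 2 (List.drop 2 (List.drop 2 (List.drop 2 (List.drop 2 (List.drop 2 (List.drop 2 (List.drop 2 (List.drop 2 (List.drop 2 (List.drop 2 (List.drop 2 (List.drop 2 (List.drop 2 (List.drop 2 (List.drop 2 (List.drop 2 (List.drop 2 (List.drop 2 (List.drop 2 (List.drop 2 (List.drop 2 (List.drop 2 (List.drop 2 (List.drop 2 (List.drop 2 (List.drop 2 (List.drop 2 (List.drop 2 (List.drop 2 (List.drop 2 (List.drop 2 (List.drop 2 (List.drop 2 (List.drop 2 (List.drop 2 (List.drop 2 (List.drop 2 (List.drop 2 (List.drop 2 (List.drop 2 (List.drop 2 (List.drop 2 (List.drop 2 (List.drop 2 (List.drop 2 (List.drop 2 (List.drop 2 (List.drop 2 (List.drop 2 (List.drop 2 (List.drop 2 (List.drop 2 (List.drop 2 (List.drop 2 (List.drop 2 (List.drop 2 (List.drop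 2 (List.drop 2 (List.drop 2 (List.drop 2 (List.drop 2 (List.drop 2 (List.drop 2 (List.drop 2 (List.drop 2 (List.drop 2 (List.drop 2 (List.drop 2 (List.drop 2 (List.drop 2 (List.drop 2 (List.drop 2 (List.drop 2 (List.drop 2 (List.drop 2 (List.drop 2 (sizes))))))))))))))))))))))))))))))))))))))))))))))))))))))))))))))))))))))))))))))))).all (covOK sizes 63700992 frac) = true := by
  decide +kernel

theorem cov_80 : (List.take 2 (List.drop 2 (List.drop 2 (List.drop 2 (List.drop 2 (List.drop 2 (List.drop 2 (List.drop 2 (List.drop 2 (List.drop 2 (List.drop 2 (List.drop 2 (List.drop 2 (List.drop 2 (List.drop 2 (List.drop 2 (List.drop 2 (List.drop 2 (List.drop 2 (List.drop 2 (List.drop 2 (List.drop 2 (List.drop 2 (List.drop 2 (List.drop 2 (List.drop 2 (List.drop 2 (List.drop 2 (List.drop 2 (List.drop 2 (List.drop 2 (List.drop 2 (List.drop 2 (List.drop 2 (List.drop 2 (List.drop 2 (List.drop 2 (List.drop 2 (List.drop 2 (List.drop 2 (List.drop 2 (List.drop 2 (List.drop 2 (List.drop 2 (List.drop 2 (List.drop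 2 (List.drop 2 (List.drop 2 (List.drop 2 (List.drop 2 (List.drop 2 (List.drop 2 (List.drop 2 (List.drop 2 (List.drop 2 (List.drop 2 (List.drop 2 (List.drop 2 (List.drop 2 (List.drop 2 (List.drop 2 (List.drop 2 (List.drop 2 (List.drop 2 (List.drop 2 (List.drop 2 (List.drop 2 (List.drop 2 (List.drop 2 (List.drop 2 (List.drop 2 (List.drop 2 (List.drop 2 (List.drop 2 (List.drop 2 (List.drop 2 (List.drop 2 (List.drop 2 (List.drop 2 (List.drop 2 (List.drop 2 (sizes)))))))))))))))))))))))))))))))))))))))))))))))))))))))))))))))))))))))))))))))))).all (covOK sizes 63700992 frac) = true := by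
  decide +kernel

theorem cov_81 : (List.take 2 (List.drop 2 (List.drop 2 (List.drop 2 (List.drop 2 (List.drop 2 (List.drop 2 (List.drop 2 (List.drop 2 (List.drop 2 (List.drop 2 (List.drop 2 (List.drop 2 (List.drop 2 (List.drop 2 (List.drop 2 (List.drop 2 (List.drop 2 (List.drop 2 (List.drop 2 (List.drop 2 (List.drop 2 (List.drop 2 (List.drop 2 (List.drop 2 (List.drop 2 (List.drop 2 (List.drop 2 (List.drop 2 (List.drop 2 (List.drop 2 (List.drop 2 (List.drop 2 (List.drop 2 (List.drop 2 (List.drop 2 (List.drop 2 (List.drop 2 (List.drop 2 (List.drop 2 (List.drop 2 (List.drop 2 (List.drop 2 (List.drop 2 (List.drop 2 (List.drop 2 (List.drop 2 (List.drop 2 (List.drop 2 (List.drop 2 (List.drop 2 (List.drop 2 (List.drop 2 (List.drop 2 (List.drop 2 (List.drop 2 (List.drop 2 (List.drop 2 (List.drop 2 (List.drop 2 (List.drop 2 (List.drop 2 (List.drop 2 (List.drop 2 (List.drop 2 (List.drop 2 (List.drop 2 (List.drop 2 (List.drop 2 (List.drop 2 (List.drop 2 (List.drop 2 (List.drop 2 (List.drop 2 (List.drop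 2 (List.drop 2 (List.drop 2 (List.drop 2 (List.drop 2 (List.drop 2 (List.drop 2 (List.drop 2 (sizes))))))))))))))))))))))))))))))))))))))))))))))))))))))))))))))))))))))))))))))))))).all (covOK sizes 63700992 frac) = true := by
  decide +kernel

theorem cov_82 : (List.take 2 (List.drop 2 (List.drop 2 (List.drop 2 (List.drop 2 (List.drop 2 (List.drop 2 (List.drop 2 (List.drop 2 (List.drop 2 (List.drop 2 (List.drop 2 (List.drop 2 (List.drop 2 (List.drop 2 (List.drop 2 (List.drop 2 (List.drop 2 (List.drop 2 (List.drop 2 (List.drop 2 (List.drop 2 (List.drop 2 (List.drop 2 (List.drop 2 (List.drop 2 (List.drop 2 (List.drop 2 (List.drop 2 (List.drop 2 (List.drop 2 (List.drop 2 (List.drop 2 (List.drop 2 (List.drop 2 (List.drop 2 (List.drop 2 (List.drop 2 (List.drop 2 (List.drop 2 (List.drop 2 (List.drop 2 (List.drop 2 (List.drop 2 (List.drop 2 (List.drop 2 (List.drop 2 (List.drop 2 (List.drop 2 (List.drop 2 (List.drop 2 (List.drop 2 (List.drop 2 (List.drop 2 (List.drop 2 (List.drop 2 (List.drop 2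 (List.drop 2 (List.drop 2 (List.drop 2 (List.drop 2 (List.drop 2 (List.drop 2 (List.drop 2 (List.drop 2 (List.drop 2 (List.drop 2 (List.drop 2 (List.drop 2 (List.drop 2 (List.drop 2 (List.drop 2 (List.drop 2 (List.drop 2 (List.drop 2 (List.drop 2 (List.drop 2 (List.drop 2 (List.drop 2 (List.drop 2 (List.drop 2 (List.drop 2 (List.drop 2 (sizes)))))))))))))))))))))))))))))))))))))))))))))))))))))))))))))))))))))))))))))))))))).all (covOK sizes 63700992 frac) = true := by
  decide +kernel

theorem cov_83 : (List.take 2 (List.drop 2 (List.drop 2 (List.drop 2 (List.drop 2 (List.drop 2 (List.drop 2 (List.drop 2 (List.drop 2 (List.drop 2 (List.drop 2 (List.drop 2 (List.drop 2 (List.drop 2 (List.drop 2 (List.drop 2 (List.drop 2 (List.drop 2 (List.drop 2 (List.drop 2 (List.drop 2 (List.drop 2 (List.drop 2 (List.drop 2 (List.drop 2 (List.drop 2 (List.drop 2 (List.drop 2 (List.drop 2 (List.drop 2 (List.drop 2 (List.drop 2 (List.drop 2 (List.drop 2 (List.drop 2 (List.drop 2 (List.drop 2 (List.drop 2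 (List.drop 2 (List.drop 2 (List.drop 2 (List.drop 2 (List.drop 2 (List.drop 2 (List.drop 2 (List.drop 2 (List.drop 2 (List.drop 2 (List.drop 2 (List.drop 2 (List.drop 2 (List.drop 2 (List.drop 2 (List.drop 2 (List.drop 2 (List.drop 2 (List.drop 2 (List.drop 2 (List.drop 2 (List.drop 2 (List.drop 2 (List.drop 2 (List.drop 2 (List.drop 2 (List.drop 2 (List.drop 2 (List.drop 2 (List.drop 2 (List.drop 2 (List.drop 2 (List.drop 2 (List.drop 2 (List.drop 2 (List.drop 2 (List.drop 2 (List.drop 2 (List.drop 2 (List.drop 2 (List.drop 2 (List.drop 2 (List.drop 2 (List.drop 2 (List.drop 2 (List.drop 2 (sizes))))))))))))))))))))))))))))))))))))))))))))))))))))))))))))))))))))))))))))))))))))).all (covOK sizes 63700992 frac) = true := by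
  decide +kernel

theorem cov_84 : (List.take 2 (List.drop 2 (List.drop 2 (List.drop 2 (List.drop 2 (List.drop 2 (List.drop 2 (List.drop 2 (List.drop 2 (List.drop 2 (List.drop 2 (List.drop 2 (List.drop 2 (List.drop 2 (List.drop 2 (List.drop 2 (List.drop 2 (List.drop 2 (List.drop 2 (List.drop 2 (List.drop 2 (List.drop 2 (List.drop 2 (List.drop 2 (List.drop 2 (List.drop 2 (List.drop 2 (List.drop 2 (List.drop 2 (List.drop 2 (List.drop 2 (List.drop 2 (List.drop 2 (List.drop 2 (List.drop 2 (List.drop 2 (List.drop 2 (List.drop 2 (List.drop 2 (List.drop 2 (List.drop 2 (List.drop 2 (List.drop 2 (List.drop 2 (List.drop 2 (List.drop 2 (List.drop 2 (List.drop 2 (List.drop 2 (List.drop 2 (List.drop 2 (List.drop 2 (List.drop 2 (List.drop 2 (List.drop 2 (List.drop 2 (List.drop 2 (List.drop 2 (List.drop 2 (List.drop 2 (List.drop 2 (List.drop 2 (List.drop 2 (List.drop 2 (List.drop 2 (List.drop 2 (List.drop 2 (List.drop 2 (List.drop 2 (List.drop 2 (List.drop 2 (List.drop 2 (List.drop 2 (List.drop 2 (List.drop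 2 (List.drop 2 (List.drop 2 (List.drop 2 (List.drop 2 (List.drop 2 (List.drop 2 (List.drop 2 (List.drop 2 (List.drop 2 (List.drop 2 (sizes)))))))))))))))))))))))))))))))))))))))))))))))))))))))))))))))))))))))))))))))))))))).all (covOK sizes 63700992 frac) = true := by
  decide +kernel

theorem cov_85 : (List.take 2 (List.drop 2 (List.drop 2 (List.drop 2 (List.drop 2 (List.drop 2 (List.drop 2 (List.drop 2 (List.drop 2 (List.drop 2 (List.drop 2 (List.drop 2 (List.drop 2 (List.drop 2 (List.drop 2 (List.drop 2 (List.drop 2 (List.drop 2 (List.drop 2 (List.drop 2 (List.drop 2 (List.drop 2 (List.drop 2 (List.drop 2 (List.drop 2 (List.drop 2 (List.drop 2 (List.drop 2 (List.drop 2 (List.drop 2 (List.drop 2 (List.drop 2 (List.drop 2 (List.drop 2 (List.drop 2 (List.drop 2 (List.drop 2 (List.drop 2 (List.drop 2 (List.drop 2 (List.drop 2 (List.drop 2 (List.drop 2 (List.drop 2 (List.drop 2 (List.drop 2 (List.drop 2 (List.drop 2 (List.drop 2 (List.drop 2 (List.drop 2 (List.drop 2 (List.drop 2 (List.drop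 2 (List.drop 2 (List.drop 2 (List.drop 2 (List.drop 2 (List.drop 2 (List.drop 2 (List.drop 2 (List.drop 2 (List.drop 2 (List.drop 2 (List.drop 2 (List.drop 2 (List.drop 2 (List.drop 2 (List.drop 2 (List.drop 2 (List.drop 2 (List.drop 2 (List.drop 2 (List.drop 2 (List.drop 2 (List.drop 2 (List.drop 2 (List.drop 2 (List.drop 2 (List.drop 2 (List.drop 2 (List.drop 2 (List.drop 2 (List.drop 2 (List.drop 2 (List.drop 2 (sizes))))))))))))))))))))))))))))))))))))))))))))))))))))))))))))))))))))))))))))))))))))))).all (covOK sizes 63700992 frac) = true := by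
  decide +kernel

theorem cov_86 : (List.take 2 (List.drop 2 (List.drop 2 (List.drop 2 (List.drop 2 (List.drop 2 (List.drop 2 (List.drop 2 (List.drop 2 (List.drop 2 (List.drop 2 (List.drop 2 (List.drop 2 (List.drop 2 (List.drop 2 (List.drop 2 (List.drop 2 (List.drop 2 (List.drop 2 (List.drop 2 (List.drop 2 (List.drop 2 (List.drop 2 (List.drop 2 (List.drop 2 (List.drop 2 (List.drop 2 (List.drop 2 (List.drop 2 (List.drop 2 (List.drop 2 (List.drop 2 (List.drop 2 (List.drop 2 (List.drop 2 (List.drop 2 (List.drop 2 (List.drop 2 (List.drop 2 (List.drop 2 (List.drop 2 (List.drop 2 (List.drop 2 (List.drop 2 (List.drop 2 (List.drop 2 (List.drop 2 (List.drop 2 (List.drop 2 (List.drop 2 (List.drop 2 (List.drop 2 (List.drop 2 (List.drop 2 (List.drop 2 (List.drop 2 (List.drop 2 (List.drop 2 (List.drop 2 (List.drop 2 (List.drop 2 (List.drop 2 (List.drop 2 (List.drop 2 (List.drop 2 (List.drop 2 (List.drop 2 (List.drop 2 (List.drop 2 (List.drop 2 (List.drop 2 (List.drop 2 (List.drop 2 (List.drop 2 (List.drop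 2 (List.drop 2 (List.drop 2 (List.drop 2 (List.drop 2 (List.drop 2 (List.drop 2 (List.drop 2 (List.drop 2 (List.drop 2 (List.drop 2 (List.drop 2 (List.drop 2 (sizes)))))))))))))))))))))))))))))))))))))))))))))))))))))))))))))))))))))))))))))))))))))))).all (covOK sizes 63700992 frac) = true := by
  decide +kernel

theorem cov_87 : (List.take 2 (List.drop 2 (List.drop 2 (List.drop 2 (List.drop 2 (List.drop 2 (List.drop 2 (List.drop 2 (List.drop 2 (List.drop 2 (List.drop 2 (List.drop 2 (List.drop 2 (List.drop 2 (List.drop 2 (List.drop 2 (List.drop 2 (List.drop 2 (List.drop 2 (List.drop 2 (List.drop 2 (List.drop 2 (List.drop 2 (List.drop 2 (List.drop 2 (List.drop 2 (List.drop 2 (List.drop 2 (List.drop 2 (List.drop 2 (List.drop 2 (List.drop 2 (List.drop 2 (List.drop 2 (List.drop 2 (List.drop 2 (List.drop 2 (List.drop 2 (List.drop 2 (List.drop 2 (List.drop 2 (List.drop 2 (List.drop 2 (List.drop 2 (List.drop 2 (List.drop 2 (List.drop 2 (List.drop 2 (List.drop 2 (List.drop 2 (List.drop 2 (List.drop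 2 (List.drop 2 (List.drop 2 (List.drop 2 (List.drop 2 (List.drop 2 (List.drop 2 (List.drop 2 (List.drop 2 (List.drop 2 (List.drop 2 (List.drop 2 (List.drop 2 (List.drop 2 (List.drop 2 (List.drop 2 (List.drop 2 (List.drop 2 (List.drop 2 (List.drop 2 (List.drop 2 (List.drop 2 (List.drop 2 (List.drop 2 (List.drop 2 (List.drop 2 (List.drop 2 (List.drop 2 (List.drop 2 (List.drop 2 (List.drop 2 (List.drop 2 (List.drop 2 (List.drop 2 (List.drop 2 (List.drop 2 (List.drop 2 (sizes))))))))))))))))))))))))))))))))))))))))))))))))))))))))))))))))))))))))))))))))))))))))).all (covOK sizes 63700992 frac) = true := by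
  decide +kernel

theorem cov_88 : (List.take 2 (List.drop 2 (List.drop 2 (List.drop 2 (List.drop 2 (List.drop 2 (List.drop 2 (List.drop 2 (List.drop 2 (List.drop 2 (List.drop 2 (List.drop 2 (List.drop 2 (List.drop 2 (List.drop 2 (List.drop 2 (List.drop 2 (List.drop 2 (List.drop 2 (List.drop 2 (List.drop 2 (List.drop 2 (List.drop 2 (List.drop 2 (List.drop 2 (List.drop 2 (List.drop 2 (List.drop 2 (List.drop 2 (List.drop 2 (List.drop 2 (List.drop 2 (List.drop 2 (List.drop 2 (List.drop 2 (List.drop 2 (List.drop 2 (List.drop 2 (List.drop 2 (List.drop 2 (List.drop 2 (List.drop 2 (List.drop 2 (List.drop 2 (List.drop 2 (List.drop 2 (List.drop 2 (List.drop 2 (List.drop 2 (List.drop 2 (List.drop 2 (List.drop 2 (List.drop 2 (List.drop 2 (List.drop 2 (List.drop 2 (List.drop 2 (List.drop 2 (List.drop 2 (List.drop 2 (List.drop 2 (List.drop 2 (List.drop 2 (List.drop 2 (List.drop 2 (List.drop 2 (List.drop 2 (List.drop 2 (List.drop 2 (List.drop 2 (List.drop 2 (List.drop 2 (List.drop 2 (List.drop 2 (List.drop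 2 (List.drop 2 (List.drop 2 (List.drop 2 (List.drop 2 (List.drop 2 (List.drop 2 (List.drop 2 (List.drop 2 (List.drop 2 (List.drop 2 (List.drop 2 (List.drop 2 (List.drop 2 (List.drop 2 (sizes)))))))))))))))))))))))))))))))))))))))))))))))))))))))))))))))))))))))))))))))))))))))))).all (covOK sizes 63700992 frac) = true := by
  decide +kernel

theorem cov_89 : (List.take 2 (List.drop 2 (List.drop 2 (List.drop 2 (List.drop 2 (List.drop 2 (List.drop 2 (List.drop 2 (List.drop 2 (List.drop 2 (List.drop 2 (List.drop 2 (List.drop 2 (List.drop 2 (List.drop 2 (List.drop 2 (List.drop 2 (List.drop 2 (List.drop 2 (List.drop 2 (List.drop 2 (List.drop 2 (List.drop 2 (List.drop 2 (List.drop 2 (List.drop 2 (List.drop 2 (List.drop 2 (List.drop 2 (List.drop 2 (List.drop 2 (List.drop 2 (List.drop 2 (List.drop 2 (List.drop 2 (List.drop 2 (List.drop 2 (List.drop 2 (List.drop 2 (List.drop 2 (List.drop 2 (List.drop 2 (List.drop 2 (List.drop 2 (List.drop 2 (List.drop 2 (List.drop 2 (List.drop 2 (List.drop 2 (List.drop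 2 (List.drop 2 (List.drop 2 (List.drop 2 (List.drop 2 (List.drop 2 (List.drop 2 (List.drop 2 (List.drop 2 (List.drop 2 (List.drop 2 (List.drop 2 (List.drop 2 (List.drop 2 (List.drop 2 (List.drop 2 (List.drop 2 (List.drop 2 (List.drop 2 (List.drop 2 (List.drop 2 (List.drop 2 (List.drop 2 (List.drop 2 (List.drop 2 (List.drop 2 (List.drop 2 (List.drop 2 (List.drop 2 (List.drop 2 (List.drop 2 (List.drop 2 (List.drop 2 (List.drop 2 (List.drop 2 (List.drop 2 (List.drop 2 (List.drop 2 (List.drop 2 (List.drop 2 (List.drop 2 (sizes))))))))))))))))))))))))))))))))))))))))))))))))))))))))))))))))))))))))))))))))))))))))))).all (covOK sizes 63700992 frac) = true := by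
  decide +kernel

theorem cov_90 : (List.take 2 (List.drop 2 (List.drop 2 (List.drop 2 (List.drop 2 (List.drop 2 (List.drop 2 (List.drop 2 (List.drop 2 (List.drop 2 (List.drop 2 (List.drop 2 (List.drop 2 (List.drop 2 (List.drop 2 (List.drop 2 (List.drop 2 (List.drop 2 (List.drop 2 (List.drop 2 (List.drop 2 (List.drop 2 (List.drop 2 (List.drop 2 (List.drop 2 (List.drop 2 (List.drop 2 (List.drop 2 (List.drop 2 (List.drop 2 (List.drop 2 (List.drop 2 (List.drop 2 (List.drop 2 (List.drop 2 (List.drop 2 (List.drop 2 (List.drop 2 (List.drop 2 (List.drop 2 (List.drop 2 (List.drop 2 (List.drop 2 (List.drop 2 (List.drop 2 (List.drop 2 (List.drop 2 (List.drop 2 (List.drop 2 (List.drop 2 (List.drop 2 (List.drop 2 (List.drop 2 (List.drop 2 (List.drop 2 (List.drop 2 (List.drop 2 (List.drop 2 (List.drop 2 (List.drop 2 (List.drop 2 (List.drop 2 (List.drop 2 (List.drop 2 (List.drop 2 (List.drop 2 (List.drop 2 (List.drop 2 (List.drop 2 (List.drop 2 (List.drop 2 (List.drop 2 (List.drop 2 (List.drop 2 (List.drop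 2 (List.drop 2 (List.drop 2 (List.drop 2 (List.drop 2 (List.drop 2 (List.drop 2 (List.drop 2 (List.drop 2 (List.drop 2 (List.drop 2 (List.drop 2 (List.drop 2 (List.drop 2 (List.drop 2 (List.drop 2 (List.drop 2 (sizes)))))))))))))))))))))))))))))))))))))))))))))))))))))))))))))))))))))))))))))))))))))))))))).all (covOK sizes 63700992 frac) = true := by
  decide +kernel

theorem cov_91 : (List.take 2 (List.drop 2 (List.drop 2 (List.drop 2 (List.drop 2 (List.drop 2 (List.drop 2 (List.drop 2 (List.drop 2 (List.drop 2 (List.drop 2 (List.drop 2 (List.drop 2 (List.drop 2 (List.drop 2 (List.drop 2 (List.drop 2 (List.drop 2 (List.drop 2 (List.drop 2 (List.drop 2 (List.drop 2 (List.drop 2 (List.drop 2 (List.drop 2 (List.drop 2 (List.drop 2 (List.drop 2 (List.drop 2 (List.drop 2 (List.drop 2 (List.drop 2 (List.drop 2 (List.drop 2 (List.drop 2 (List.drop 2 (List.drop 2 (List.drop 2 (List.drop 2 (List.drop 2 (List.drop 2 (List.drop 2 (List.drop 2 (List.drop 2 (List.drop 2 (List.drop 2 (List.drop 2 (List.drop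 2 (List.drop 2 (List.drop 2 (List.drop 2 (List.drop 2 (List.drop 2 (List.drop 2 (List.drop 2 (List.drop 2 (List.drop 2 (List.drop 2 (List.drop 2 (List.drop 2 (List.drop 2 (List.drop 2 (List.drop 2 (List.drop 2 (List.drop 2 (List.drop 2 (List.drop 2 (List.drop 2 (List.drop 2 (List.drop 2 (List.drop 2 (List.drop 2 (List.drop 2 (List.drop 2 (List.drop 2 (List.drop 2 (List.drop 2 (List.drop 2 (List.drop 2 (List.drop 2 (List.drop 2 (List.drop 2 (List.drop 2 (List.drop 2 (List.drop 2 (List.drop 2 (List.drop 2 (List.drop 2 (List.drop 2 (List.drop 2 (List.drop 2 (List.drop 2 (sizes))))))))))))))))))))))))))))))))))))))))))))))))))))))))))))))))))))))))))))))))))))))))))))).all (covOK sizes 63700992 frac) = true := by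
  decide +kernel

theorem cov_92 : (List.take 2 (List.drop 2 (List.drop 2 (List.drop 2 (List.drop 2 (List.drop 2 (List.drop 2 (List.drop 2 (List.drop 2 (List.drop 2 (List.drop 2 (List.drop 2 (List.drop 2 (List.drop 2 (List.drop 2 (List.drop 2 (List.drop 2 (List.drop 2 (List.drop 2 (List.drop 2 (List.drop 2 (List.drop 2 (List.drop 2 (List.drop 2 (List.drop 2 (List.drop 2 (List.drop 2 (List.drop 2 (List.drop 2 (List.drop 2 (List.drop 2 (List.drop 2 (List.drop 2 (List.drop 2 (List.drop 2 (List.drop 2 (List.drop 2 (List.drop 2 (List.drop 2 (List.drop 2 (List.drop 2 (List.drop 2 (List.drop 2 (List.drop 2 (List.drop 2 (List.drop 2 (List.drop 2 (List.drop 2 (List.drop 2 (List.drop 2 (List.drop 2 (List.drop 2 (List.drop 2 (List.drop 2 (List.drop 2 (List.drop 2 (List.drop 2 (List.drop 2 (List.drop 2 (List.drop 2 (List.drop 2 (List.drop 2 (List.drop 2 (List.drop 2 (List.drop 2 (List.drop 2 (List.drop 2 (List.drop 2 (List.drop 2 (List.drop 2 (List.drop 2 (List.drop 2 (List.drop 2 (List.drop 2 (List.drop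 2 (List.drop 2 (List.drop 2 (List.drop 2 (List.drop 2 (List.drop 2 (List.drop 2 (List.drop 2 (List.drop 2 (List.drop 2 (List.drop 2 (List.drop 2 (List.drop 2 (List.drop 2 (List.drop 2 (List.drop 2 (List.drop 2 (List.drop 2 (List.drop 2 (sizes)))))))))))))))))))))))))))))))))))))))))))))))))))))))))))))))))))))))))))))))))))))))))))))).all (covOK sizes 63700992 frac) = true := by
  decide +kernel

theorem cov_93 : (List.take 2 (List.drop 2 (List.drop 2 (List.drop 2 (List.drop 2 (List.drop 2 (List.drop 2 (List.drop 2 (List.drop 2 (List.drop 2 (List.drop 2 (List.drop 2 (List.drop 2 (List.drop 2 (List.drop 2 (List.drop 2 (List.drop 2 (List.drop 2 (List.drop 2 (List.drop 2 (List.drop 2 (List.drop 2 (List.drop 2 (List.drop 2 (List.drop 2 (List.drop 2 (List.drop 2 (List.drop 2 (List.drop 2 (List.drop 2 (List.drop 2 (List.drop 2 (List.drop 2 (List.drop 2 (List.drop 2 (List.drop 2 (List.drop 2 (List.drop 2 (List.drop 2 (List.drop 2 (List.drop 2 (List.drop 2 (List.drop 2 (List.drop 2 (List.drop 2 (List.drop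 2 (List.drop 2 (List.drop 2 (List.drop 2 (List.drop 2 (List.drop 2 (List.drop 2 (List.drop 2 (List.drop 2 (List.drop 2 (List.drop 2 (List.drop 2 (List.drop 2 (List.drop 2 (List.drop 2 (List.drop 2 (List.drop 2 (List.drop 2 (List.drop 2 (List.drop 2 (List.drop 2 (List.drop 2 (List.drop 2 (List.drop 2 (List.drop 2 (List.drop 2 (List.drop 2 (List.drop 2 (List.drop 2 (List.drop 2 (List.drop 2 (List.drop 2 (List.drop 2 (List.drop 2 (List.drop 2 (List.drop 2 (List.drop 2 (List.drop 2 (List.drop 2 (List.drop 2 (List.drop 2 (List.drop 2 (List.drop 2 (List.drop 2 (List.drop 2 (List.drop 2 (List.drop 2 (List.drop 2 (List.drop 2 (sizes))))))))))))))))))))))))))))))))))))))))))))))))))))))))))))))))))))))))))))))))))))))))))))))).all (covOK sizes 63700992 frac) = true := by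
  decide +kernel

theorem cov_94 : (List.take 2 (List.drop 2 (List.drop 2 (List.drop 2 (List.drop 2 (List.drop 2 (List.drop 2 (List.drop 2 (List.drop 2 (List.drop 2 (List.drop 2 (List.drop 2 (List.drop 2 (List.drop 2 (List.drop 2 (List.drop 2 (List.drop 2 (List.drop 2 (List.drop 2 (List.drop 2 (List.drop 2 (List.drop 2 (List.drop 2 (List.drop 2 (List.drop 2 (List.drop 2 (List.drop 2 (List.drop 2 (List.drop 2 (List.drop 2 (List.drop 2 (List.drop 2 (List.drop 2 (List.drop 2 (List.drop 2 (List.drop 2 (List.drop 2 (List.drop 2 (List.drop 2 (List.drop 2 (List.drop 2 (List.drop 2 (List.drop 2 (List.drop 2 (List.drop 2 (List.drop 2 (List.drop 2 (List.drop 2 (List.drop 2 (List.drop 2 (List.drop 2 (List.drop 2 (List.drop 2 (List.drop 2 (List.drop 2 (List.drop 2 (List.drop 2 (List.drop 2 (List.drop 2 (List.drop 2 (List.drop 2 (List.drop 2 (List.drop 2 (List.drop 2 (List.drop 2 (List.drop 2 (List.drop 2 (List.drop 2 (List.drop 2 (List.drop 2 (List.drop 2 (List.drop 2 (List.drop 2 (List.drop 2 (List.drop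 2 (List.drop 2 (List.drop 2 (List.drop 2 (List.drop 2 (List.drop 2 (List.drop 2 (List.drop 2 (List.drop 2 (List.drop 2 (List.drop 2 (List.drop 2 (List.drop 2 (List.drop 2 (List.drop 2 (List.drop 2 (List.drop 2 (List.drop 2 (List.drop 2 (List.drop 2 (List.drop 2 (sizes)))))))))))))))))))))))))))))))))))))))))))))))))))))))))))))))))))))))))))))))))))))))))))))))).all (covOK sizes 63700992 frac) = true := by
  decide +kernel

theorem cov_95 : (List.take 2 (List.drop 2 (List.drop 2 (List.drop 2 (List.drop 2 (List.drop 2 (List.drop 2 (List.drop 2 (List.drop 2 (List.drop 2 (List.drop 2 (List.drop 2 (List.drop 2 (List.drop 2 (List.drop 2 (List.drop 2 (List.drop 2 (List.drop 2 (List.drop 2 (List.drop 2 (List.drop 2 (List.drop 2 (List.drop 2 (List.drop 2 (List.drop 2 (List.drop 2 (List.drop 2 (List.drop 2 (List.drop 2 (List.drop 2 (List.drop 2 (List.drop 2 (List.drop 2 (List.drop 2 (List.drop 2 (List.drop 2 (List.drop 2 (List.drop 2 (List.drop 2 (List.drop 2 (List.drop 2 (List.drop 2 (List.drop 2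 (List.drop 2 (List.drop 2 (List.drop 2 (List.drop 2 (List.drop 2 (List.drop 2 (List.drop 2 (List.drop 2 (List.drop 2 (List.drop 2 (List.drop 2 (List.drop 2 (List.drop 2 (List.drop 2 (List.drop 2 (List.drop 2 (List.drop 2 (List.drop 2 (List.drop 2 (List.drop 2 (List.drop 2 (List.drop 2 (List.drop 2 (List.drop 2 (List.drop 2 (List.drop 2 (List.drop 2 (List.drop 2 (List.drop 2 (List.drop 2 (List.drop 2 (List.drop 2 (List.drop 2 (List.drop 2 (List.drop 2 (List.drop 2 (List.drop 2 (List.drop 2 (List.drop 2 (List.drop 2 (List.drop 2 (List.drop 2 (List.drop 2 (List.drop 2 (List.drop 2 (List.drop 2 (List.drop 2 (List.drop 2 (List.drop 2 (List.drop 2 (List.drop 2 (List.drop 2 (List.drop 2 (sizes))))))))))))))))))))))))))))))))))))))))))))))))))))))))))))))))))))))))))))))))))))))))))))))))).all (covOK sizes 63700992 frac) = true := by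
  decide +kernel

theorem cov_96 : (List.take 2 (List.drop 2 (List.drop 2 (List.drop 2 (List.drop 2 (List.drop 2 (List.drop 2 (List.drop 2 (List.drop 2 (List.drop 2 (List.drop 2 (List.drop 2 (List.drop 2 (List.drop 2 (List.drop 2 (List.drop 2 (List.drop 2 (List.drop 2 (List.drop 2 (List.drop 2 (List.drop 2 (List.drop 2 (List.drop 2 (List.drop 2 (List.drop 2 (List.drop 2 (List.drop 2 (List.drop 2 (List.drop 2 (List.drop 2 (List.drop 2 (List.drop 2 (List.drop 2 (List.drop 2 (List.drop 2 (List.drop 2 (List.drop 2 (List.drop 2 (List.drop 2 (List.drop 2 (List.drop 2 (List.drop 2 (List.drop 2 (List.drop 2 (List.drop 2 (List.drop 2 (List.drop 2 (List.drop 2 (List.drop 2 (List.drop 2 (List.drop 2 (List.drop 2 (List.drop 2 (List.drop 2 (List.drop 2 (List.drop 2 (List.drop 2 (List.drop 2 (List.drop 2 (List.drop 2 (List.drop 2 (List.drop 2 (List.drop 2 (List.drop 2 (List.drop 2 (List.drop 2 (List.drop 2 (List.drop 2 (List.drop 2 (List.drop 2 (List.drop 2 (List.drop 2 (List.drop 2 (List.drop 2 (List.drop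 2 (List.drop 2 (List.drop 2 (List.drop 2 (List.drop 2 (List.drop 2 (List.drop 2 (List.drop 2 (List.drop 2 (List.drop 2 (List.drop 2 (List.drop 2 (List.drop 2 (List.drop 2 (List.drop 2 (List.drop 2 (List.drop 2 (List.drop 2 (List.drop 2 (List.drop 2 (List.drop 2 (List.drop 2 (List.drop 2 (sizes)))))))))))))))))))))))))))))))))))))))))))))))))))))))))))))))))))))))))))))))))))))))))))))))))).all (covOK sizes 63700992 frac) = true := by
  decide +kernel

theorem cov_97 : (List.take 2 (List.drop 2 (List.drop 2 (List.drop 2 (List.drop 2 (List.drop 2 (List.drop 2 (List.drop 2 (List.drop 2 (List.drop 2 (List.drop 2 (List.drop 2 (List.drop 2 (List.drop 2 (List.drop 2 (List.drop 2 (List.drop 2 (List.drop 2 (List.drop 2 (List.drop 2 (List.drop 2 (List.drop 2 (List.drop 2 (List.drop 2 (List.drop 2 (List.drop 2 (List.drop 2 (List.drop 2 (List.drop 2 (List.drop 2 (List.drop 2 (List.drop 2 (List.drop 2 (List.drop 2 (List.drop 2 (List.drop 2 (List.drop 2 (List.drop 2 (List.drop 2 (List.drop 2 (List.drop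 2 (List.drop 2 (List.drop 2 (List.drop 2 (List.drop 2 (List.drop 2 (List.drop 2 (List.drop 2 (List.drop 2 (List.drop 2 (List.drop 2 (List.drop 2 (List.drop 2 (List.drop 2 (List.drop 2 (List.drop 2 (List.drop 2 (List.drop 2 (List.drop 2 (List.drop 2 (List.drop 2 (List.drop 2 (List.drop 2 (List.drop 2 (List.drop 2 (List.drop 2 (List.drop 2 (List.drop 2 (List.drop 2 (List.drop 2 (List.drop 2 (List.drop 2 (List.drop 2 (List.drop 2 (List.drop 2 (List.drop 2 (List.drop 2 (List.drop 2 (List.drop 2 (List.drop 2 (List.drop 2 (List.drop 2 (List.drop 2 (List.drop 2 (List.drop 2 (List.drop 2 (List.drop 2 (List.drop 2 (List.drop 2 (List.drop 2 (List.drop 2 (List.drop 2 (List.drop 2 (List.drop 2 (List.drop 2 (List.drop 2 (List.drop 2 (List.drop 2 (sizes))))))))))))))))))))))))))))))))))))))))))))))))))))))))))))))))))))))))))))))))))))))))))))))))))).all (covOK sizes 63700992 frac) = true := by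
  decide +kernel

theorem cov_98 : (List.take 2 (List.drop 2 (List.drop 2 (List.drop 2 (List.drop 2 (List.drop 2 (List.drop 2 (List.drop 2 (List.drop 2 (List.drop 2 (List.drop 2 (List.drop 2 (List.drop 2 (List.drop 2 (List.drop 2 (List.drop 2 (List.drop 2 (List.drop 2 (List.drop 2 (List.drop 2 (List.drop 2 (List.drop 2 (List.drop 2 (List.drop 2 (List.drop 2 (List.drop 2 (List.drop 2 (List.drop 2 (List.drop 2 (List.drop 2 (List.drop 2 (List.drop 2 (List.drop 2 (List.drop 2 (List.drop 2 (List.drop 2 (List.drop 2 (List.drop 2 (List.drop 2 (List.drop 2 (List.drop 2 (List.drop 2 (List.drop 2 (List.drop 2 (List.drop 2 (List.drop 2 (List.drop 2 (List.drop 2 (List.drop 2 (List.drop 2 (List.drop 2 (List.drop 2 (List.drop 2 (List.drop 2 (List.drop 2 (List.drop 2 (List.drop 2 (List.drop 2 (List.drop 2 (List.drop 2 (List.drop 2 (List.drop 2 (List.drop 2 (List.drop 2 (List.drop 2 (List.drop 2 (List.drop 2 (List.drop 2 (List.drop 2 (List.drop 2 (List.drop 2 (List.drop 2 (List.drop 2 (List.drop 2 (List.drop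 2 (List.drop 2 (List.drop 2 (List.drop 2 (List.drop 2 (List.drop 2 (List.drop 2 (List.drop 2 (List.drop 2 (List.drop 2 (List.drop 2 (List.drop 2 (List.drop 2 (List.drop 2 (List.drop 2 (List.drop 2 (List.drop 2 (List.drop 2 (List.drop 2 (List.drop 2 (List.drop 2 (List.drop 2 (List.drop 2 (List.drop 2 (List.drop 2 (sizes)))))))))))))))))))))))))))))))))))))))))))))))))))))))))))))))))))))))))))))))))))))))))))))))))))).all (covOK sizes 63700992 frac) = true := by
  decide +kernel

theorem cov_99 : (List.take 2 (List.drop 2 (List.drop 2 (List.drop 2 (List.drop 2 (List.drop 2 (List.drop 2 (List.drop 2 (List.drop 2 (List.drop 2 (List.drop 2 (List.drop 2 (List.drop 2 (List.drop 2 (List.drop 2 (List.drop 2 (List.drop 2 (List.drop 2 (List.drop 2 (List.drop 2 (List.drop 2 (List.drop 2 (List.drop 2 (List.drop 2 (List.drop 2 (List.drop 2 (List.drop 2 (List.drop 2 (List.drop 2 (List.drop 2 (List.drop 2 (List.drop 2 (List.drop 2 (List.drop 2 (List.drop 2 (List.drop 2 (List.drop 2 (List.drop 2 (List.drop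 2 (List.drop 2 (List.drop 2 (List.drop 2 (List.drop 2 (List.drop 2 (List.drop 2 (List.drop 2 (List.drop 2 (List.drop 2 (List.drop 2 (List.drop 2 (List.drop 2 (List.drop 2 (List.drop 2 (List.drop 2 (List.drop 2 (List.drop 2 (List.drop 2 (List.drop 2 (List.drop 2 (List.drop 2 (List.drop 2 (List.drop 2 (List.drop 2 (List.drop 2 (List.drop 2 (List.drop 2 (List.drop 2 (List.drop 2 (List.drop 2 (List.drop 2 (List.drop 2 (List.drop 2 (List.drop 2 (List.drop 2 (List.drop 2 (List.drop 2 (List.drop 2 (List.drop 2 (List.drop 2 (List.drop 2 (List.drop 2 (List.drop 2 (List.drop 2 (List.drop 2 (List.drop 2 (List.drop 2 (List.drop 2 (List.drop 2 (List.drop 2 (List.drop 2 (List.drop 2 (List.drop 2 (List.drop 2 (List.drop 2 (List.drop 2 (List.drop 2 (List.drop 2 (List.drop 2 (List.drop 2 (List.drop 2 (sizes))))))))))))))))))))))))))))))))))))))))))))))))))))))))))))))))))))))))))))))))))))))))))))))))))))).all (covOK sizes 63700992 frac) = true := by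
  decide +kernel

theorem cov_100 : (List.take 2 (List.drop 2 (List.drop 2 (List.drop 2 (List.drop 2 (List.drop 2 (List.drop 2 (List.drop 2 (List.drop 2 (List.drop 2 (List.drop 2 (List.drop 2 (List.drop 2 (List.drop 2 (List.drop 2 (List.drop 2 (List.drop 2 (List.drop 2 (List.drop 2 (List.drop 2 (List.drop 2 (List.drop 2 (List.drop 2 (List.drop 2 (List.drop 2 (List.drop 2 (List.drop 2 (List.drop 2 (List.drop 2 (List.drop 2 (List.drop 2 (List.drop 2 (List.drop 2 (List.drop 2 (List.drop 2 (List.drop 2 (List.drop 2 (List.drop 2 (List.drop 2 (List.drop 2 (List.drop 2 (List.drop 2 (List.drop 2 (List.drop 2 (List.drop 2 (List.drop 2 (List.drop 2 (List.drop 2 (List.drop 2 (List.drop 2 (List.drop 2 (List.drop 2 (List.drop 2 (List.drop 2 (List.drop 2 (List.drop 2 (List.drop 2 (List.drop 2 (List.drop 2 (List.drop 2 (List.drop 2 (List.drop 2 (List.drop 2 (List.drop 2 (List.drop 2 (List.drop 2 (List.drop 2 (List.drop 2 (List.drop 2 (List.drop 2 (List.drop 2 (List.drop 2 (List.drop 2 (List.drop 2 (List.drop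 2 (List.drop 2 (List.drop 2 (List.drop 2 (List.drop 2 (List.drop 2 (List.drop 2 (List.drop 2 (List.drop 2 (List.drop 2 (List.drop 2 (List.drop 2 (List.drop 2 (List.drop 2 (List.drop 2 (List.drop 2 (List.drop 2 (List.drop 2 (List.drop 2 (List.drop 2 (List.drop 2 (List.drop 2 (List.drop 2 (List.drop 2 (List.drop 2 (List.drop 2 (List.drop 2 (sizes)))))))))))))))))))))))))))))))))))))))))))))))))))))))))))))))))))))))))))))))))))))))))))))))))))))).all (covOK sizes 63700992 frac) = true := by
  decide +kernel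

theorem cov_101 : (List.take 2 (List.drop 2 (List.drop 2 (List.drop 2 (List.drop 2 (List.drop 2 (List.drop 2 (List.drop 2 (List.drop 2 (List.drop 2 (List.drop 2 (List.drop 2 (List.drop 2 (List.drop 2 (List.drop 2 (List.drop 2 (List.drop 2 (List.drop 2 (List.drop 2 (List.drop 2 (List.drop 2 (List.drop 2 (List.drop 2 (List.drop 2 (List.drop 2 (List.drop 2 (List.drop 2 (List.drop 2 (List.drop 2 (List.drop 2 (List.drop 2 (List.drop 2 (List.drop 2 (List.drop 2 (List.drop 2 (List.drop 2 (List.drop 2 (List.drop 2 (List.drop 2 (List.drop 2 (List.drop 2 (List.drop 2 (List.drop 2 (List.drop 2 (List.drop 2 (List.drop 2 (List.drop 2 (List.drop 2 (List.drop 2 (List.drop 2 (List.drop 2 (List.drop 2 (List.drop 2 (List.drop 2 (List.drop 2 (List.drop 2 (List.drop 2 (List.drop 2 (List.drop 2 (List.drop 2 (List.drop 2 (List.drop 2 (List.drop 2 (List.drop 2 (List.drop 2 (List.drop 2 (List.drop 2 (List.drop 2 (List.drop 2 (List.drop 2 (List.drop 2 (List.drop 2 (List.drop 2 (List.drop 2 (List.drop 2 (List.drop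 2 (List.drop 2 (List.drop 2 (List.drop 2 (List.drop 2 (List.drop 2 (List.drop 2 (List.drop 2 (List.drop 2 (List.drop 2 (List.drop 2 (List.drop 2 (List.drop 2 (List.drop 2 (List.drop 2 (List.drop 2 (List.drop 2 (List.drop 2 (List.drop 2 (List.drop 2 (List.drop 2 (List.drop 2 (List.drop 2 (List.drop 2 (List.drop 2 (List.drop 2 (List.drop 2 (sizes))))))))))))))))))))))))))))))))))))))))))))))))))))))))))))))))))))))))))))))))))))))))))))))))))))))).all (covOK sizes 63700992 frac) = true := by
  decide +kernel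

end Vale.Agent.Lib.P302.helper8.Th863
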