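import Mathlib
import Vale.Agent.Lib.P302.helper8.Th863.F25
import Vale.Agent.Lib.P302.helper8.Th863.F26

/-!
# P302: the fractional solution of the 863-item instance, put together
-/

namespace Vale.Agent.Lib.P302.helper8.Th863

open Vale.Agent.Lib.P302.helper14 Vale.Agent.Lib.P302.helper8 Vale.Agent.Lib.P302.helper9

set_option maxRecDepth 8192

theorem frac_cfg : frac.all (cfgOK sizes cap) = true :=
  all_split 3 cfg_0 (all_split 3 cfg_1 (all_split 3 cfg_2 (all_split 3 cfg_3 (all_split 3 cfg_4 (all_split 3 cfg_5 (all_split 3 cfg_6 (all_split 3 cfg_7 (all_split 3 cfg_8 (all_split 3 cfg_9 (all_split 3 cfg_10 (all_split 3 cfg_11 (all_split 3 cfg_12 (all_split 3 cfg_13 (all_split 3 cfg_14 (all_split 3 cfg_15 (all_split 3 cfg_16 (all_split 3 cfg_17 (all_split 3 cfg_18 (all_split 3 cfg_19 (all_split 3 cfg_20 (all_split 3 cfg_21 (all_split 3 cfg_22 (all_split 3 cfg_23 (all_split 3 cfg_24 (all_split 3 cfg_25 (all_split 3 cfg_26 (all_split 3 cfg_27 (all_split 3 cfg_28 (all_split 3 cfg_29 (all_split 3 cfg_30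 (all_split 3 cfg_31 (all_split 3 cfg_32 (all_split 3 cfg_33 (all_split 3 cfg_34 (all_split 3 cfg_35 (all_split 3 cfg_36 (all_split 3 cfg_37 (all_split 3 cfg_38 (all_split 3 cfg_39 (all_split 3 cfg_40 (all_split 3 cfg_41 (all_split 3 cfg_42 (all_split 3 cfg_43 (all_split 3 cfg_44 (all_split 3 cfg_45 (all_split 3 cfg_46 (all_split 3 cfg_47 (all_split 3 cfg_48 (all_split 3 cfg_49 (all_split 3 cfg_50 (all_split 3 cfg_51 (all_split 3 cfg_52 (all_split 3 cfg_53 (all_split 3 cfg_54 (all_split 3 cfg_55 (all_split 3 cfg_56 (all_split 3 cfg_57 (all_split 3 cfg_58 (all_split 3 cfg_59 (all_split 3 cfg_60 (all_split 3 cfg_61 (all_split 3 cfg_62 (all_split 3 cfg_63 (all_split 3 cfg_64 (all_split 3 cfg_65 (all_split 3 cfg_66 (all_split 3 cfg_67 (all_split 3 cfg_68 (all_split 3 cfg_69 (all_split 3 cfg_70 (all_split 3 cfg_71 (all_split 3 cfg_72 (all_split 3 cfg_73 (all_split 3 cfg_74 (all_split 3 cfg_75 (all_split 3 cfg_76 (all_split 3 cfg_77 (all_split 3 cfg_78 (all_split 3 cfg_79 (all_split 3 cfg_80 (all_split 3 cfg_81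 (all_split 3 cfg_82 (all_split 3 cfg_83 (all_split 3 cfg_84 (all_split 3 cfg_85 (all_split 3 cfg_86 (all_split 3 cfg_87 (all_split 3 cfg_88 (all_split 3 cfg_89 (all_split 3 cfg_90 (all_split 3 cfg_91 (all_split 3 cfg_92 (all_split 3 cfg_93 (all_split 3 cfg_94 (all_split 3 cfg_95 (all_split 3 cfg_96 (all_split 3 cfg_97 (all_split 3 cfg_98 (all_split 3 cfg_99 (all_split 3 cfg_100 (all_split 3 cfg_101 (all_split 3 cfg_102 (all_split 3 cfg_103 (all_split 3 cfg_104 (all_split 3 cfg_105 (all_split 3 cfg_106 (all_split 3 cfg_107 (all_split 3 cfg_108 (all_split 3 cfg_109 (all_split 3 cfg_110 (all_split 3 cfg_111 (all_split 3 cfg_112 (all_split 3 cfg_113 (all_split 3 cfg_114 (all_split 3 cfg_115 (all_split 3 cfg_116 (all_split 3 cfg_117 (all_split 3 cfg_118 (all_split 3 cfg_119 (all_split 3 cfg_120 (all_split 3 cfg_121 (all_split 3 cfg_122 (all_split 3 cfg_123 (all_split 3 cfg_124 (all_split 3 cfg_125 (all_split 3 cfg_126 (all_split 3 cfg_127 (all_split 3 cfg_128 (all_split 3 cfg_129 (all_split 3 cfg_130 (all_split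 3 cfg_131 (all_split 3 cfg_132 (all_split 3 cfg_133 (all_split 3 cfg_134 (all_split 3 cfg_135 (all_split 3 cfg_136 (all_split 3 cfg_137 (all_split 3 cfg_138 (all_split 3 cfg_139 (all_split 3 cfg_140 (all_split 3 cfg_141 (all_split 3 cfg_142 (all_split 3 cfg_143 (all_split 3 cfg_144 (all_split 3 cfg_145 (all_split 3 cfg_146 (all_split 3 cfg_147 (all_split 3 cfg_148 (all_split 3 cfg_149 (all_split 3 cfg_150 (all_split 3 cfg_151 (all_split 3 cfg_152 (all_split 3 cfg_153 (all_split 3 cfg_154 (all_split 3 cfg_155 (all_split 3 cfg_156 (all_split 3 cfg_157 (all_split 3 cfg_158 (all_split 3 cfg_159 (all_split 3 cfg_160 (all_split 3 cfg_161 (all_split 3 cfg_162 (all_split 3 cfg_163 (all_split 3 cfg_164 (all_split 3 cfg_165 (all_split 3 cfg_166 (all_split 3 cfg_167 (all_split 3 cfg_168 (all_split 3 cfg_169 (all_split 3 cfg_170 (all_split 3 cfg_171 (all_split 3 cfg_172 (all_split 3 cfg_173 (all_split 3 cfg_174 (all_split 3 cfg_175 (all_split 3 cfg_176 (all_split 3 cfg_177 (all_split 3 cfg_178 (all_split 3 cfg_179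 (all_split 3 cfg_180 (all_split 3 cfg_181 (all_split 3 cfg_182 (all_split 3 cfg_183 (all_split 3 cfg_184 (all_split 3 cfg_185 (all_split 3 cfg_186 (all_split 3 cfg_187 (all_split 3 cfg_188 (all_split 3 cfg_189 (all_split 3 cfg_190 (all_split 3 cfg_191 (all_split 3 cfg_192 (all_split 3 cfg_193 (all_split 3 cfg_194 (all_split 3 cfg_195 (all_split 3 cfg_196 (all_split 3 cfg_197 (all_split 3 cfg_198 (all_split 3 cfg_199 (all_split 3 cfg_200 (all_split 3 cfg_201 (all_split 3 cfg_202 (all_split 3 cfg_203 (all_split 3 cfg_204 (all_split 3 cfg_205 (all_split 3 cfg_206 (all_split 3 cfg_207 (all_split 3 cfg_208 (all_split 3 cfg_209 (all_split 3 cfg_210 (all_split 3 cfg_211 (all_split 3 cfg_212 (all_split 3 cfg_213 (all_split 3 cfg_214 (all_split 3 cfg_215 (all_split 3 cfg_216 (all_split 3 cfg_217 (all_split 3 cfg_218 (all_split 3 cfg_219 (all_split 3 cfg_220 (all_split 3 cfg_221 (cfg_222))))))))))))))))))))))))))))))))))))))))))))))))))))))))))))))))))))))))))))))))))))))))))))))))))))))))))))))))))))))))))))))))))))))))))))))))))))))))))))))))))))))))))))))))))))))))))))))))))))))))))))))))))))))))))))))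

theorem frac_cov : sizes.all (covOK sizes 63700992 frac) = true :=
  all_split 2 cov_0 (all_split 2 cov_1 (all_split 2 cov_2 (all_split 2 cov_3 (all_split 2 cov_4 (all_split 2 cov_5 (all_split 2 cov_6 (all_split 2 cov_7 (all_split 2 cov_8 (all_split 2 cov_9 (all_split 2 cov_10 (all_split 2 cov_11 (all_split 2 cov_12 (all_split 2 cov_13 (all_split 2 cov_14 (all_split 2 cov_15 (all_split 2 cov_16 (all_split 2 cov_17 (all_split 2 cov_18 (all_split 2 cov_19 (all_split 2 cov_20 (all_split 2 cov_21 (all_split 2 cov_22 (all_split 2 cov_23 (all_split 2 cov_24 (all_split 2 cov_25 (all_split 2 cov_26 (all_split 2 cov_27 (all_split 2 cov_28 (all_split 2 cov_29 (all_split 2 cov_30 (all_split 2 cov_31 (all_split 2 cov_32 (all_split 2 cov_33 (all_split 2 cov_34 (all_split 2 cov_35 (all_split 2 cov_36 (all_split 2 cov_37 (all_split 2 cov_38 (all_split 2 cov_39 (all_split 2 cov_40 (all_split 2 cov_41 (all_split 2 cov_42 (all_split 2 cov_43 (all_split 2 cov_44 (all_split 2 cov_45 (all_split 2 cov_46 (all_split 2 cov_47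 (all_split 2 cov_48 (all_split 2 cov_49 (all_split 2 cov_50 (all_split 2 cov_51 (all_split 2 cov_52 (all_split 2 cov_53 (all_split 2 cov_54 (all_split 2 cov_55 (all_split 2 cov_56 (all_split 2 cov_57 (all_split 2 cov_58 (all_split 2 cov_59 (all_split 2 cov_60 (all_split 2 cov_61 (all_split 2 cov_62 (all_split 2 cov_63 (all_split 2 cov_64 (all_split 2 cov_65 (all_split 2 cov_66 (all_split 2 cov_67 (all_split 2 cov_68 (all_split 2 cov_69 (all_split 2 cov_70 (all_split 2 cov_71 (all_split 2 cov_72 (all_split 2 cov_73 (all_split 2 cov_74 (all_split 2 cov_75 (all_split 2 cov_76 (all_split 2 cov_77 (all_split 2 cov_78 (all_split 2 cov_79 (all_split 2 cov_80 (all_split 2 cov_81 (all_split 2 cov_82 (all_split 2 cov_83 (all_split 2 cov_84 (all_split 2 cov_85 (all_split 2 cov_86 (all_split 2 cov_87 (all_split 2 cov_88 (all_split 2 cov_89 (all_split 2 cov_90 (all_split 2 cov_91 (all_split 2 cov_92 (all_split 2 cov_93 (all_split 2 cov_94 (all_split 2 cov_95 (all_split 2 cov_96 (all_split 2 cov_97 (all_split 2 cov_98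 (all_split 2 cov_99 (all_split 2 cov_100 (all_split 2 cov_101 (all_split 2 cov_102 (all_split 2 cov_103 (all_split 2 cov_104 (all_split 2 cov_105 (all_split 2 cov_106 (all_split 2 cov_107 (all_split 2 cov_108 (all_split 2 cov_109 (all_split 2 cov_110 (all_split 2 cov_111 (all_split 2 cov_112 (all_split 2 cov_113 (all_split 2 cov_114 (all_split 2 cov_115 (all_split 2 cov_116 (all_split 2 cov_117 (all_split 2 cov_118 (all_split 2 cov_119 (all_split 2 cov_120 (all_split 2 cov_121 (all_split 2 cov_122 (all_split 2 cov_123 (all_split 2 cov_124 (all_split 2 cov_125 (all_split 2 cov_126 (all_split 2 cov_127 (all_split 2 cov_128 (all_split 2 cov_129 (all_split 2 cov_130 (all_split 2 cov_131 (all_split 2 cov_132 (all_split 2 cov_133 (all_split 2 cov_134 (all_split 2 cov_135 (all_split 2 cov_136 (all_split 2 cov_137 (all_split 2 cov_138 (all_split 2 cov_139 (all_split 2 cov_140 (all_split 2 cov_141 (all_split 2 cov_142 (all_split 2 cov_143 (all_split 2 cov_144 (all_split 2 cov_145 (all_split 2 cov_146 (all_split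 2 cov_147 (all_split 2 cov_148 (all_split 2 cov_149 (all_split 2 cov_150 (all_split 2 cov_151 (all_split 2 cov_152 (all_split 2 cov_153 (all_split 2 cov_154 (all_split 2 cov_155 (all_split 2 cov_156 (all_split 2 cov_157 (all_split 2 cov_158 (all_split 2 cov_159 (all_split 2 cov_160 (all_split 2 cov_161 (all_split 2 cov_162 (all_split 2 cov_163 (all_split 2 cov_164 (all_split 2 cov_165 (all_split 2 cov_166 (all_split 2 cov_167 (all_split 2 cov_168 (all_split 2 cov_169 (all_split 2 cov_170 (all_split 2 cov_171 (all_split 2 cov_172 (all_split 2 cov_173 (all_split 2 cov_174 (all_split 2 cov_175 (all_split 2 cov_176 (all_split 2 cov_177 (all_split 2 cov_178 (all_split 2 cov_179 (all_split 2 cov_180 (all_split 2 cov_181 (all_split 2 cov_182 (all_split 2 cov_183 (all_split 2 cov_184 (all_split 2 cov_185 (all_split 2 cov_186 (all_split 2 cov_187 (all_split 2 cov_188 (all_split 2 cov_189 (all_split 2 cov_190 (all_split 2 cov_191 (all_split 2 cov_192 (all_split 2 cov_193 (all_split 2 cov_194 (all_split 2 cov_195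 (all_split 2 cov_196 (all_split 2 cov_197 (all_split 2 cov_198 (all_split 2 cov_199 (all_split 2 cov_200 (all_split 2 cov_201 (all_split 2 cov_202 (all_split 2 cov_203 (all_split 2 cov_204 (all_split 2 cov_205 (all_split 2 cov_206 (all_split 2 cov_207 (all_split 2 cov_208 (all_split 2 cov_209 (all_split 2 cov_210 (all_split 2 cov_211 (all_split 2 cov_212 (all_split 2 cov_213 (all_split 2 cov_214 (all_split 2 cov_215 (all_split 2 cov_216 (all_split 2 cov_217 (all_split 2 cov_218 (all_split 2 cov_219 (all_split 2 cov_220 (all_split 2 cov_221 (all_split 2 cov_222 (all_split 2 cov_223 (all_split 2 cov_224 (all_split 2 cov_225 (all_split 2 cov_226 (all_split 2 cov_227 (all_split 2 cov_228 (all_split 2 cov_229 (all_split 2 cov_230 (all_split 2 cov_231 (all_split 2 cov_232 (all_split 2 cov_233 (all_split 2 cov_234 (all_split 2 cov_235 (all_split 2 cov_236 (all_split 2 cov_237 (all_split 2 cov_238 (all_split 2 cov_239 (all_split 2 cov_240 (all_split 2 cov_241 (all_split 2 cov_242 (all_split 2 cov_243 (all_split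 2 cov_244 (all_split 2 cov_245 (all_split 2 cov_246 (all_split 2 cov_247 (all_split 2 cov_248 (all_split 2 cov_249 (all_split 2 cov_250 (all_split 2 cov_251 (all_split 2 cov_252 (all_split 2 cov_253 (all_split 2 cov_254 (all_split 2 cov_255 (all_split 2 cov_256 (all_split 2 cov_257 (all_split 2 cov_258 (all_split 2 cov_259 (all_split 2 cov_260 (all_split 2 cov_261 (all_split 2 cov_262 (all_split 2 cov_263 (all_split 2 cov_264 (all_split 2 cov_265 (all_split 2 cov_266 (all_split 2 cov_267 (all_split 2 cov_268 (all_split 2 cov_269 (all_split 2 cov_270 (all_split 2 cov_271 (all_split 2 cov_272 (all_split 2 cov_273 (all_split 2 cov_274 (all_split 2 cov_275 (all_split 2 cov_276 (all_split 2 cov_277 (all_split 2 cov_278 (all_split 2 cov_279 (all_split 2 cov_280 (all_split 2 cov_281 (all_split 2 cov_282 (all_split 2 cov_283 (all_split 2 cov_284 (all_split 2 cov_285 (all_split 2 cov_286 (all_split 2 cov_287 (all_split 2 cov_288 (all_split 2 cov_289 (all_split 2 cov_290 (all_split 2 cov_291 (all_split 2 cov_292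 (all_split 2 cov_293 (all_split 2 cov_294 (all_split 2 cov_295 (all_split 2 cov_296 (all_split 2 cov_297 (all_split 2 cov_298 (all_split 2 cov_299 (all_split 2 cov_300 (all_split 2 cov_301 (all_split 2 cov_302 (all_split 2 cov_303 (all_split 2 cov_304 (all_split 2 cov_305 (all_split 2 cov_306 (all_split 2 cov_307 (all_split 2 cov_308 (all_split 2 cov_309 (all_split 2 cov_310 (all_split 2 cov_311 (all_split 2 cov_312 (all_split 2 cov_313 (all_split 2 cov_314 (all_split 2 cov_315 (all_split 2 cov_316 (all_split 2 cov_317 (all_split 2 cov_318 (all_split 2 cov_319 (all_split 2 cov_320 (all_split 2 cov_321 (all_split 2 cov_322 (all_split 2 cov_323 (all_split 2 cov_324 (all_split 2 cov_325 (all_split 2 cov_326 (all_split 2 cov_327 (all_split 2 cov_328 (all_split 2 cov_329 (all_split 2 cov_330 (all_split 2 cov_331 (all_split 2 cov_332 (all_split 2 cov_333 (all_split 2 cov_334 (all_split 2 cov_335 (all_split 2 cov_336 (all_split 2 cov_337 (all_split 2 cov_338 (all_split 2 cov_339 (all_split 2 cov_340 (all_split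 2 cov_341 (all_split 2 cov_342 (all_split 2 cov_343 (all_split 2 cov_344 (all_split 2 cov_345 (all_split 2 cov_346 (all_split 2 cov_347 (all_split 2 cov_348 (all_split 2 cov_349 (all_split 2 cov_350 (all_split 2 cov_351 (all_split 2 cov_352 (all_split 2 cov_353 (all_split 2 cov_354 (all_split 2 cov_355 (all_split 2 cov_356 (all_split 2 cov_357 (all_split 2 cov_358 (all_split 2 cov_359 (all_split 2 cov_360 (all_split 2 cov_361 (all_split 2 cov_362 (all_split 2 cov_363 (all_split 2 cov_364 (all_split 2 cov_365 (all_split 2 cov_366 (all_split 2 cov_367 (all_split 2 cov_368 (all_split 2 cov_369 (all_split 2 cov_370 (all_split 2 cov_371 (all_split 2 cov_372 (all_split 2 cov_373 (all_split 2 cov_374 (all_split 2 cov_375 (all_split 2 cov_376 (all_split 2 cov_377 (all_split 2 cov_378 (all_split 2 cov_379 (all_split 2 cov_380 (all_split 2 cov_381 (all_split 2 cov_382 (all_split 2 cov_383 (all_split 2 cov_384 (all_split 2 cov_385 (all_split 2 cov_386 (all_split 2 cov_387 (all_split 2 cov_388 (all_split 2 cov_389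 (all_split 2 cov_390 (all_split 2 cov_391 (all_split 2 cov_392 (all_split 2 cov_393 (all_split 2 cov_394 (all_split 2 cov_395 (all_split 2 cov_396 (all_split 2 cov_397 (all_split 2 cov_398 (all_split 2 cov_399 (all_split 2 cov_400 (all_split 2 cov_401 (all_split 2 cov_402 (all_split 2 cov_403 (all_split 2 cov_404 (all_split 2 cov_405 (all_split 2 cov_406 (all_split 2 cov_407 (all_split 2 cov_408 (all_split 2 cov_409 (all_split 2 cov_410 (all_split 2 cov_411 (all_split 2 cov_412 (all_split 2 cov_413 (all_split 2 cov_414 (all_split 2 cov_415 (all_split 2 cov_416 (all_split 2 cov_417 (all_split 2 cov_418 (all_split 2 cov_419 (all_split 2 cov_420 (all_split 2 cov_421 (all_split 2 cov_422 (all_split 2 cov_423 (all_split 2 cov_424 (all_split 2 cov_425 (all_split 2 cov_426 (all_split 2 cov_427 (all_split 2 cov_428 (all_split 2 cov_429 (all_split 2 cov_430 (cov_431)))))))))))))))))))))))))))))))))))))))))))))))))))))))))))))))))))))))))))))))))))))))))))))))))))))))))))))))))))))))))))))))))))))))))))))))))))))))))))))))))))))))))))))))))))))))))))))))))))))))))))))))))))))))))))))))))))))))))))))))))))))))))))))))))))))))))))))))))))))))))))))))))))))))))))))))))))))))))))))))))))))))))))))))))))))))))))))))))))))))))))))))))))))))))))))))))))))))))))))))))))))))))))))))))))))))))))))))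

theorem frac_ok : fracOK sizes cap 63700992 frac = true := fracOK_of frac_cfg frac_cov

end Vale.Agent.Lib.P302.helper8.Th863
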