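import Mathlib
import Vale.Agent.Lib.P302.helper8.Th863.Base
import Vale.Agent.Lib.P302.helper8.Th863.K55

/-!
# P302: chunks of the mask search of the 863-item instance (part 58)
-/

namespace Vale.Agent.Lib.P302.helper8.Th863

open Vale.Agent.Lib.P302.helper14 Vale.Agent.Lib.P302.helper8 Vale.Agent.Lib.P302.helper9

theorem ok_p251_0 : stepOKDR rows14 prio14 cap p251_0 lay252
    [0] = true := by
  decide +kernel

theorem ok_p252_0 : stepOKDR rows15 prio15 cap p252_0 lay253
    [0, 1] = true := by
  decide +kernel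

theorem ok_p253_0 : stepOKDR rows15 prio15 cap p253_0 lay254
    [0, 1, 2, 0] = true := by
  decide +kernel

theorem ok_p254_0 : stepOKDR rows15 prio15 cap p254_0 lay255
    [0, 0, 1, 1, 2, 0] = true := by
  decide +kernel

theorem ok_p255_0 : stepOKDR rows15 prio15 cap p255_0 lay256
    [0, 1, 2, 3, 3, 4] = true := by
  decide +kernel

theorem ok_p256_0 : stepOKDR rows15 prio15 cap p256_0 lay257
    [0, 0, 1, 1, 2, 3, 4, 5, 1, 2] = true := by
  decide +kernel

theorem ok_p257_0 : stepOKDR rows15 prio15 cap p257_0 lay258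
    [0, 1, 3, 2, 3, 3, 3, 4, 3, 5, 6, 7] = true := by
  decide +kernel

theorem ok_p258_0 : stepOKDR rows15 prio15 cap p258_0 lay259
    [1, 0, 0, 1, 1, 2, 0, 3, 3, 4, 4, 5, 5] = true := by
  decide +kernel

theorem ok_p259_0 : stepOKDR rows16 prio16 cap p259_0 lay260
    [0, 1, 3, 2, 1, 3] = true := by
  decide +kernel

theorem ok_p260_0 : stepOKDR rows16 prio16 cap p260_0 lay261
    [0, 0, 0, 0, 1, 1, 1, 1, 2, 2, 2, 2] = true := by
  decide +kernel

theorem ok_p261_0 : stepOKDR rows17 prio17 cap p261_0 lay262
    [0, 1, 2, 3] = true := by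
  decide +kernel

theorem ok_p262_0 : stepOKDR rows17 prio17 cap p262_0 lay263
    [0, 1, 2] = true := by
  decide +kernel

theorem ok_p263_0 : stepOKDR rows17 prio17 cap p263_0 lay264
    [0, 1, 1, 2] = true := by
  decide +kernel

theorem ok_p264_0 : stepOKDR rows17 prio17 cap p264_0 lay265
    [0, 1, 2, 3, 4] = true := by
  decide +kernel

theorem ok_p265_0 : stepOKDR rows17 prio17 cap p265_0 lay266
    [0, 0, 1, 2, 2] = true := by
  decide +kernel

theorem ok_p266_0 : stepOKDR rows18 prio18 cap p266_0 lay267
    [1, 0, 1] = true := by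
  decide +kernel

theorem ok_p267_0 : stepOKDR rows18 prio18 cap p267_0 lay268
    [0, 1] = true := by
  decide +kernel

theorem ok_p268_0 : stepOKDR rows18 prio18 cap p268_0 lay269
    [0, 1] = true := by
  decide +kernel

theorem ok_p269_0 : stepOKDR rows19 prio19 cap p269_0 lay270
    [0] = true := by
  decide +kernel

theorem ok_p270_0 : stepOKDR rows19 prio19 cap p270_0 lay271
    [0, 1] = true := by
  decide +kernel

theorem ok_p271_0 : stepOKDR rows20 prio20 cap p271_0 lay272
    [0, 0, 0, 1] = true := by
  decide +kernel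

theorem ok_p272_0 : stepOKDR rows20 prio20 cap p272_0 lay273
    [0, 0, 1] = true := by
  decide +kernel

theorem ok_p273_0 : stepOKDR rows21 prio21 cap p273_0 lay274
    [0, 0, 1, 2, 1, 2] = true := by
  decide +kernel

theorem ok_p274_0 : stepOKDR rows21 prio21 cap p274_0 lay275
    [0, 1, 2, 3] = true := by
  decide +kernel

theorem ok_p275_0 : stepOKDR rows21 prio21 cap p275_0 lay276
    [0, 1, 1] = true := by
  decide +kernel

theorem ok_p276_0 : stepOKDR rows22 prio22 cap p276_0 lay277
    [0, 1] = true := by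
  decide +kernel

theorem ok_p277_0 : stepOKDR rows22 prio22 cap p277_0 lay278
    [0, 1] = true := by
  decide +kernel

theorem ok_p278_0 : stepOKDR rows23 prio23 cap p278_0 lay279
    [0] = true := by
  decide +kernel

theorem ok_p279_0 : stepOKDR rows24 prio24 cap p279_0 lay280
    [0] = true := by
  decide +kernel

theorem ok_p280_0 : stepOKDR rows25 prio25 cap p280_0 lay281
    [0, 1] = true := by
  decide +kernel

theorem ok_p281_0 : stepOKDR rows25 prio25 cap p281_0 lay282
    [0, 0] = true := by
  decide +kernel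

theorem ok_p282_0 : stepOKDR rows26 prio26 cap p282_0 lay283
    [0] = true := by
  decide +kernel

theorem ok_p283_0 : stepOKDR rows27 prio27 cap p283_0 lay284
    [0] = true := by
  decide +kernel

theorem ok_p284_0 : stepOKDR rows28 prio28 cap p284_0 lay285
    [] = true := by
  decide +kernel

end Vale.Agent.Lib.P302.helper8.Th863
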